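import Vale.Agent.P322.H2
namespace P322
theorem breg_ath {x : ℝ} (hx : x ∈ Set.Ioo (-1 : ℝ) 1) : ath x = Real.artanh x := by
  rw [Real.artanh_eq_half_log ⟨hx.1.le, hx.2.le⟩, ath]
  ring

theorem breg_sinh {x y : ℝ} (hx : x ∈ Set.Ioo (-1 : ℝ) 1) (hy : y ∈ Set.Ioo (-1 : ℝ) 1) :
    Real.sinh (ath x - ath y) = (x - y) / (√(1 - x ^ 2) * √(1 - y ^ 2)) := by
  have h1 : 0 < √(1 - x ^ 2) := Real.sqrt_pos.2 (by nlinarith [hx.1, hx.2])
  have h2 : 0 < √(1 - y ^ 2) := Real.sqrt_pos.2 (by nlinarith [hy.1, hy.2])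
  rw [breg_ath hx, breg_ath hy, Real.sinh_sub, Real.sinh_artanh hx, Real.sinh_artanh hy,
    Real.cosh_artanh hx, Real.cosh_artanh hy]
  field_simp

theorem breg_cosh {x y : ℝ} (hx : x ∈ Set.Ioo (-1 : ℝ) 1) (hy : y ∈ Set.Ioo (-1 : ℝ) 1) :
    Real.cosh (ath x - ath y) = (1 - x * y) / (√(1 - x ^ 2) * √(1 - y ^ 2)) := by
  have h1 : 0 < √(1 - x ^ 2) := Real.sqrt_pos.2 (by nlinarith [hx.1, hx.2])
  have h2 : 0 < √(1 - y ^ 2) := Real.sqrt_pos.2 (by nlinarith [hy.1, hy.2])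
  rw [breg_ath hx, breg_ath hy, Real.cosh_sub, Real.sinh_artanh hx, Real.sinh_artanh hy,
    Real.cosh_artanh hx, Real.cosh_artanh hy]
  field_simp

theorem breg_L0 (t s : ℝ) :
    Real.sinh t * (s + Real.sinh s / Real.cosh s - t) ≤ Real.sinh s * (Real.sinh s / Real.cosh s) := by
  have hd : ∀ x : ℝ, HasDerivAt (fun t => Real.sinh t * (s + Real.sinh s / Real.cosh s - t))
      (Real.cosh x * (s - x) + Real.sinh (s - x) / Real.cosh s) x := by
    intro x
    have h := (Real.hasDerivAt_sinh x).mul ((hasDerivAt_id' x).const_sub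
      (s + Real.sinh s / Real.cosh s))
    have hc := (Real.cosh_pos s).ne'
    have e : Real.cosh x * (s + Real.sinh s / Real.cosh s - x) + Real.sinh x * -1 =
        Real.cosh x * (s - x) + Real.sinh (s - x) / Real.cosh s := by
      rw [Real.sinh_sub]
      field_simp
      ring
    rw [e] at h
    exact h
  have key : Real.sinh t * (s + Real.sinh s / Real.cosh s - t) ≤
      Real.sinh s * (s + Real.sinh s / Real.cosh s - s) := by
    rcases le_total t s with hts | hst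
    · have hmono : MonotoneOn (fun t => Real.sinh t * (s + Real.sinh s / Real.cosh s - t))
          (Set.Icc t s) := by
        refine monotoneOn_of_deriv_nonneg (convex_Icc t s) ?_ ?_ ?_
        · exact fun x _ => (hd x).continuousAt.continuousWithinAt
        · exact fun x _ => (hd x).differentiableAt.differentiableWithinAt
        · intro x hx
          rw [(hd x).deriv]
          have hx' : x ≤ s := (interior_subset hx).2
          exact add_nonneg (mul_nonneg (Real.cosh_pos x).le (sub_nonneg.2 hx'))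
            (div_nonneg (Real.sinh_nonneg_iff.2 (sub_nonneg.2 hx')) (Real.cosh_pos s).le)
      exact hmono (Set.left_mem_Icc.2 hts) (Set.right_mem_Icc.2 hts) hts
    · have hanti : AntitoneOn (fun t => Real.sinh t * (s + Real.sinh s / Real.cosh s - t))
          (Set.Icc s t) := by
        refine antitoneOn_of_deriv_nonpos (convex_Icc s t) ?_ ?_ ?_
        · exact fun x _ => (hd x).continuousAt.continuousWithinAt
        · exact fun x _ => (hd x).differentiableAt.differentiableWithinAt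
        · intro x hx
          rw [(hd x).deriv]
          have hx' : s ≤ x := (interior_subset hx).1
          exact add_nonpos (mul_nonpos_of_nonneg_of_nonpos (Real.cosh_pos x).le (sub_nonpos.2 hx'))
            (div_nonpos_of_nonpos_of_nonneg (Real.sinh_nonpos_iff.2 (sub_nonpos.2 hx'))
              (Real.cosh_pos s).le)
      exact hanti (Set.left_mem_Icc.2 hst) (Set.right_mem_Icc.2 hst) hst
  rwa [add_sub_cancel_left] at key

theorem breg_amgm {x y a b : ℝ} (hx : x ∈ Set.Ioo (-1 : ℝ) 1) (hy : y ∈ Set.Ioo (-1 : ℝ) 1)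
    (ha : a ∈ Set.Ioo (-1 : ℝ) 1) (hb : b ∈ Set.Ioo (-1 : ℝ) 1) :
    (√(1 - x ^ 2) * √(1 - y ^ 2)) / (√(1 - a ^ 2) * √(1 - b ^ 2)) ≤
      ((1 - x ^ 2) / (1 - a ^ 2) + (1 - y ^ 2) / (1 - b ^ 2)) / 2 := by
  have h1 : 0 ≤ 1 - x ^ 2 := by nlinarith [hx.1, hx.2]
  have h2 : 0 ≤ 1 - y ^ 2 := by nlinarith [hy.1, hy.2]
  have h3 : 0 < 1 - a ^ 2 := by nlinarith [ha.1, ha.2]
  have h4 : 0 < 1 - b ^ 2 := by nlinarith [hb.1, hb.2]
  have e1 : (1 - x ^ 2) / (1 - a ^ 2) = (√(1 - x ^ 2) / √(1 - a ^ 2)) ^ 2 := by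
    rw [div_pow, Real.sq_sqrt h1, Real.sq_sqrt h3.le]
  have e2 : (1 - y ^ 2) / (1 - b ^ 2) = (√(1 - y ^ 2) / √(1 - b ^ 2)) ^ 2 := by
    rw [div_pow, Real.sq_sqrt h2, Real.sq_sqrt h4.le]
  rw [e1, e2, mul_div_mul_comm]
  nlinarith [sq_nonneg (√(1 - x ^ 2) / √(1 - a ^ 2) - √(1 - y ^ 2) / √(1 - b ^ 2))]

/-- helper20's sharp Bregman inequality for `j` -/
theorem bregman_jj {x y a b : ℝ} (hx : x ∈ Set.Ioo (-1 : ℝ) 1) (hy : y ∈ Set.Ioo (-1 : ℝ) 1)
    (ha : a ∈ Set.Ioo (-1 : ℝ) 1) (hb : b ∈ Set.Ioo (-1 : ℝ) 1) :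
    jj a b + ((ath a - ath b) / 4 + (a - b) / (4 * (1 - a ^ 2))) * (x - a)
      - ((ath a - ath b) / 4 + (a - b) / (4 * (1 - b ^ 2))) * (y - b)
      + (a - b) ^ 2 / (8 * (1 - a * b)) * ((x - a) ^ 2 / (1 - a ^ 2) + (y - b) ^ 2 / (1 - b ^ 2))
      ≤ jj x y := by
  have h3 : 0 < 1 - a ^ 2 := by nlinarith [ha.1, ha.2]
  have h4 : 0 < 1 - b ^ 2 := by nlinarith [hb.1, hb.2]
  have h5 : 0 < 1 - a * b := by nlinarith [ha.1, ha.2, hb.1, hb.2]
  have s1 : 0 < √(1 - x ^ 2) := Real.sqrt_pos.2 (by nlinarith [hx.1, hx.2])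
  have s2 : 0 < √(1 - y ^ 2) := Real.sqrt_pos.2 (by nlinarith [hy.1, hy.2])
  have s3 : 0 < √(1 - a ^ 2) := Real.sqrt_pos.2 h3
  have s4 : 0 < √(1 - b ^ 2) := Real.sqrt_pos.2 h4
  have hL := breg_L0 (ath x - ath y) (ath a - ath b)
  rw [breg_sinh hx hy, breg_sinh ha hb, breg_cosh ha hb] at hL
  have hA := breg_amgm hx hy ha hb
  have hS : 0 < √(1 - x ^ 2) * √(1 - y ^ 2) := mul_pos s1 s2
  have hS0 : 0 < √(1 - a ^ 2) * √(1 - b ^ 2) := mul_pos s3 s4
  generalize √(1 - x ^ 2) * √(1 - y ^ 2) = S at hL hA hS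
  generalize √(1 - a ^ 2) * √(1 - b ^ 2) = S0 at hL hA hS0
  rw [div_div_div_cancel_right₀ hS0.ne'] at hL
  have hM : (x - y) * (ath a - ath b + (a - b) / (1 - a * b) - (ath x - ath y)) ≤
      S / S0 * ((a - b) * ((a - b) / (1 - a * b))) := by
    have e1 : (x - y) * (ath a - ath b + (a - b) / (1 - a * b) - (ath x - ath y)) =
        S * ((x - y) / S * (ath a - ath b + (a - b) / (1 - a * b) - (ath x - ath y))) := by
      field_simp
    have e2 : S / S0 * ((a - b) * ((a - b) / (1 - a * b))) =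
        S * ((a - b) / S0 * ((a - b) / (1 - a * b))) := by
      field_simp
    rw [e1, e2]
    exact mul_le_mul_of_nonneg_left hL hS.le
  have hQ : 0 ≤ (a - b) * ((a - b) / (1 - a * b)) := by
    rw [← mul_div_assoc]
    exact div_nonneg (mul_self_nonneg _) h5.le
  have hN := hM.trans (mul_le_mul_of_nonneg_right hA hQ)
  have e : jj a b + ((ath a - ath b) / 4 + (a - b) / (4 * (1 - a ^ 2))) * (x - a)
      - ((ath a - ath b) / 4 + (a - b) / (4 * (1 - b ^ 2))) * (y - b)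
      + (a - b) ^ 2 / (8 * (1 - a * b)) * ((x - a) ^ 2 / (1 - a ^ 2) + (y - b) ^ 2 / (1 - b ^ 2)) =
      ((x - y) * (ath a - ath b + (a - b) / (1 - a * b)) -
        ((1 - x ^ 2) / (1 - a ^ 2) + (1 - y ^ 2) / (1 - b ^ 2)) / 2 *
          ((a - b) * ((a - b) / (1 - a * b)))) / 4 := by
    unfold jj
    field_simp
    ring
  rw [e]
  unfold jj
  linarith
/-- `χ²`-bound: `Φ(x)-Φ(a)-Φ'(a)(x-a) ≤ (x-a)²/(1-a²)` -/
theorem chi_bound {x a : ℝ} (hx : x ∈ Set.Ioo (-1 : ℝ) 1) (ha : a ∈ Set.Ioo (-1 : ℝ) 1) :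
    hh a - hh x - ath a * (x - a) ≤ (x - a) ^ 2 / (1 - a ^ 2) := by
  have h1 : 0 < 1 + x := by linarith [hx.1]
  have h2 : 0 < 1 - x := by linarith [hx.2]
  have h3 : 0 < 1 + a := by linarith [ha.1]
  have h4 : 0 < 1 - a := by linarith [ha.2]
  have hhf : ∀ {u : ℝ}, 0 < 1 + u → 0 < 1 - u →
      hh u = Real.log 2 - (1 + u) / 2 * Real.log (1 + u) - (1 - u) / 2 * Real.log (1 - u) := by
    intro u hp hm
    unfold hh Real.binEntropy
    have e : 1 - (1 + u) / 2 = (1 - u) / 2 := by ring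
    rw [e, Real.log_inv, Real.log_inv, Real.log_div hp.ne' two_ne_zero,
      Real.log_div hm.ne' two_ne_zero]
    ring
  have hA : ath a = (Real.log (1 + a) - Real.log (1 - a)) / 2 := by
    unfold ath
    rw [Real.log_div h3.ne' h4.ne']
  have l1 : Real.log (1 + x) - Real.log (1 + a) ≤ (1 + x) / (1 + a) - 1 := by
    rw [← Real.log_div h1.ne' h3.ne']
    exact Real.log_le_sub_one_of_pos (by positivity)
  have l2 : Real.log (1 - x) - Real.log (1 - a) ≤ (1 - x) / (1 - a) - 1 := by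
    rw [← Real.log_div h2.ne' h4.ne']
    exact Real.log_le_sub_one_of_pos (by positivity)
  have m1 := mul_le_mul_of_nonneg_left l1 (by linarith : 0 ≤ (1 + x) / 2)
  have m2 := mul_le_mul_of_nonneg_left l2 (by linarith : 0 ≤ (1 - x) / 2)
  have key : (1 + x) / 2 * ((1 + x) / (1 + a) - 1) + (1 - x) / 2 * ((1 - x) / (1 - a) - 1)
      = (x - a) ^ 2 / (1 - a ^ 2) := by
    have h5 : (1 - a ^ 2) ≠ 0 := by
      have : 1 - a ^ 2 = (1 + a) * (1 - a) := by ring
      rw [this]; positivity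
    field_simp
    ring
  rw [hhf h3 h4, hhf h1 h2, hA, ← key]
  linarith

private theorem av_lin {n : ℕ} (A c d K L : ℝ) (v w p q : (Fin n → Bool) → ℝ) :
    av (fun x => A + c * v x + d * w x + K * p x + L * q x)
      = A + c * av v + d * av w + K * av p + L * av q := by
  have h2 : (2 : ℝ) ^ n ≠ 0 := by positivity
  unfold av
  rw [Finset.sum_add_distrib, Finset.sum_add_distrib, Finset.sum_add_distrib,
    Finset.sum_add_distrib, ← Finset.mul_sum, ← Finset.mul_sum, ← Finset.mul_sum,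
    ← Finset.mul_sum, Finset.sum_const, Finset.card_univ]
  simp only [Fintype.card_pi, Fintype.card_bool, Finset.prod_const, Finset.card_univ,
    Fintype.card_fin, nsmul_eq_mul, Nat.cast_pow, Nat.cast_ofNat]
  field_simp

theorem av_bregman {n : ℕ} (v w : (Fin n → Bool) → ℝ) (hv : InI v) (hw : InI w)
    (hav : av v ∈ Set.Ioo (-1 : ℝ) 1) (haw : av w ∈ Set.Ioo (-1 : ℝ) 1) :
    jj (av v) (av w) + (av v - av w) ^ 2 / (8 * (1 - av v * av w)) *
      ((hh (av v) - av (fun x => hh (v x))) + (hh (av w) - av (fun x => hh (w x))))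
      ≤ av (fun x => jj (v x) (w x)) := by
  set a := av v with haD
  set b := av w with hbD
  have hab : 0 < 1 - a * b := by
    nlinarith [hav.1, hav.2, haw.1, haw.2]
  set K := (a - b) ^ 2 / (8 * (1 - a * b)) with hK
  have hK0 : 0 ≤ K := by positivity
  set c1 := (ath a - ath b) / 4 + (a - b) / (4 * (1 - a ^ 2)) with hc1
  set c2 := (ath a - ath b) / 4 + (a - b) / (4 * (1 - b ^ 2)) with hc2
  have hpt : ∀ x, (jj a b - c1 * a + c2 * b + K * (hh a + ath a * a + hh b + ath b * b))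
      + (c1 - K * ath a) * v x + (-c2 - K * ath b) * w x + (-K) * hh (v x) + (-K) * hh (w x)
      ≤ jj (v x) (w x) := by
    intro x
    have h1 := bregman_jj (hv x) (hw x) hav haw
    have h2 := chi_bound (hv x) hav
    have h3 := chi_bound (hw x) haw
    have h4 := mul_le_mul_of_nonneg_left (add_le_add h2 h3) hK0
    rw [← hc1, ← hc2, ← hK] at h1
    linarith
  have hmono : av (fun x => (jj a b - c1 * a + c2 * b + K * (hh a + ath a * a + hh b + ath b * b))
      + (c1 - K * ath a) * v x + (-c2 - K * ath b) * w x + (-K) * hh (v x) + (-K) * hh (w x))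
      ≤ av (fun x => jj (v x) (w x)) := by
    unfold av
    exact div_le_div_of_nonneg_right (Finset.sum_le_sum fun x _ => hpt x) (by positivity)
  rw [av_lin _ _ _ _ _ v w (fun x => hh (v x)) (fun x => hh (w x)), ← haD, ← hbD] at hmono
  refine le_trans (le_of_eq ?_) hmono
  ring
end P322
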