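import Vale.Agent.P322.RR
namespace P322
/-- the three-parameter real inequality (C) -/
theorem C_ineq {m d H s : ℝ} (hd : 0 < d) (hm : |m| + d < 1) (hH0 : 0 < H)
    (hH : H ≤ (hh (m + d) + hh (m - d)) / 2)
    (hs : s ∈ Set.Ioo (0 : ℝ) 1) (hsH : hh s * d = s * H) :
    2 * (hh m - (hh (m + d) + hh (m - d)) / 2)
      + (1 - m ^ 2) * RR (H / (1 - m ^ 2)) - (1 - m ^ 2 - d ^ 2) * RR (H / (1 - m ^ 2 - d ^ 2))
      ≤ max (jj (m + d) (m - d)
          + d ^ 2 / (1 - m ^ 2 + d ^ 2) * ((hh (m + d) + hh (m - d)) / 2 - H)) (d * ath s) := by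
  sorry
end P322
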