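import Vale.Agent.P322.Omega
namespace P322

/-! `χ(z) = h(z) (sinh 2z/(2z) - 1) ≤ 0.61 tanh² z` -/

/-- Pade lower bound of `artanh` -/
theorem chi_pade {s : ℝ} (h0 : 0 ≤ s) (h1 : s < 1) :
    s * (945 - 735 * s ^ 2 + 64 * s ^ 4) / (15 * (63 - 70 * s ^ 2 + 15 * s ^ 4)) ≤ ath s := by
  have hQ : ∀ x : ℝ, 0 ≤ x → x ≤ 1 → 0 < 63 - 70 * x ^ 2 + 15 * x ^ 4 := by
    intro x hx0 hx1
    have h2 : 0 ≤ 1 - x ^ 2 := by nlinarith
    nlinarith [mul_nonneg h2 h2]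
  have hd : ∀ x ∈ Set.Ico (0 : ℝ) 1, HasDerivAt
      (fun x => ath x - x * (945 - 735 * x ^ 2 + 64 * x ^ 4) /
        (15 * (63 - 70 * x ^ 2 + 15 * x ^ 4)))
      (64 * x ^ 10 / ((1 - x ^ 2) * (63 - 70 * x ^ 2 + 15 * x ^ 4) ^ 2)) x := by
    intro x hx
    have hq := hQ x hx.1 hx.2.le
    have hx2 : 0 < 1 - x ^ 2 := by nlinarith [hx.1, hx.2]
    have hN : HasDerivAt (fun x : ℝ => x * (945 - 735 * x ^ 2 + 64 * x ^ 4))
        (945 - 2205 * x ^ 2 + 320 * x ^ 4) x := by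
      have h := (((hasDerivAt_id' x).const_mul (945 : ℝ)).sub
        ((hasDerivAt_pow 3 x).const_mul 735)).add ((hasDerivAt_pow 5 x).const_mul 64)
      refine (h.congr_of_eventuallyEq (Filter.Eventually.of_forall fun y => ?_)).congr_deriv ?_
      · simp only [Pi.add_apply, Pi.sub_apply]; ring
      · norm_num; ring
    have hD : HasDerivAt (fun x : ℝ => 15 * (63 - 70 * x ^ 2 + 15 * x ^ 4))
        (15 * (-140 * x + 60 * x ^ 3)) x := by
      have h := (((hasDerivAt_const x (63 : ℝ)).sub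
        ((hasDerivAt_pow 2 x).const_mul 70)).add ((hasDerivAt_pow 4 x).const_mul 15)).const_mul 15
      refine h.congr_deriv ?_
      norm_num; ring
    have h := (hasDerivAt_ath (u := x) ⟨by linarith [hx.1], hx.2⟩).sub
      (hN.div hD (by positivity))
    refine h.congr_deriv ?_
    rw [div_sub_div _ _ hx2.ne' (by positivity), div_eq_div_iff (by positivity) (by positivity)]
    ring
  have hmono : MonotoneOn (fun x => ath x - x * (945 - 735 * x ^ 2 + 64 * x ^ 4) /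
        (15 * (63 - 70 * x ^ 2 + 15 * x ^ 4))) (Set.Icc 0 s) := by
    refine monotoneOn_of_deriv_nonneg (convex_Icc 0 s) ?_ ?_ ?_
    · exact fun x hx => (hd x ⟨hx.1, hx.2.trans_lt h1⟩).continuousAt.continuousWithinAt
    · exact fun x hx => (hd x ⟨(interior_subset hx).1,
        (interior_subset hx).2.trans_lt h1⟩).differentiableAt.differentiableWithinAt
    · intro x hx
      have hx' := interior_subset hx
      have hxx : x < 1 := hx'.2.trans_lt h1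
      rw [(hd x ⟨hx'.1, hxx⟩).deriv]
      have hx2 : 0 < 1 - x ^ 2 := by nlinarith [hx'.1]
      have hq := hQ x hx'.1 hxx.le
      have hx0 := hx'.1
      positivity
  have h := hmono (Set.left_mem_Icc.2 h0) (Set.right_mem_Icc.2 h0) h0
  simp only at h
  rw [quad_ath_zero] at h
  norm_num at h
  linarith

theorem chi_log {x : ℝ} (hx : 1 ≤ x) : Real.log x ≤ (x ^ 2 - 1) / (2 * x) := by
  have hx0 : 0 < x := by linarith
  have h := Real.self_le_sinh_iff.2 (Real.log_nonneg hx)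
  rw [Real.sinh_log hx0] at h
  refine h.trans (le_of_eq ?_)
  field_simp

theorem chi_hh {s : ℝ} (h0 : 0 ≤ s) (h1 : s < 1) :
    hh s ≤ (1 - s) * ((3 + s) / (4 * (1 + s)) + ath s) := by
  have hp : 0 < 1 + s := by linarith
  have hm : 0 < 1 - s := by linarith
  have e : hh s = Real.log (2 / (1 + s)) + (1 - s) * ath s := by
    rw [hh_eq ⟨by linarith, h1⟩]
    unfold ell ath
    have e1 : (1 : ℝ) - s ^ 2 = (1 + s) * (1 - s) := by ring
    rw [e1, Real.log_mul hp.ne' hm.ne', Real.log_div hp.ne' hm.ne', Real.log_div (by norm_num) hp.ne']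
    ring
  have h := chi_log (x := 2 / (1 + s)) (by rw [le_div_iff₀ hp]; linarith)
  have e2 : ((2 / (1 + s)) ^ 2 - 1) / (2 * (2 / (1 + s))) = (1 - s) * ((3 + s) / (4 * (1 + s))) := by
    field_simp
    ring
  rw [e2] at h
  rw [e]
  linarith

theorem chi_poly {s : ℝ} (h0 : 0 ≤ s) (h1 : s ≤ 1) :
    -((1 + s) * (1 - s ^ 2)) * (s * (945 - 735 * s ^ 2 + 64 * s ^ 4)) ^ 2
      + ((1 + s) * s - (3 + s) / 4 * (1 - s ^ 2) - 61 / 100 * s ^ 2 * (1 + s) ^ 2) *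
        ((s * (945 - 735 * s ^ 2 + 64 * s ^ 4)) * (15 * (63 - 70 * s ^ 2 + 15 * s ^ 4)))
      + (3 + s) / 4 * s * (15 * (63 - 70 * s ^ 2 + 15 * s ^ 4)) ^ 2 ≤ 0 := by
  have hm : 0 ≤ 1 - s := by linarith
  have key : -((1 + s) * (1 - s ^ 2)) * (s * (945 - 735 * s ^ 2 + 64 * s ^ 4)) ^ 2
      + ((1 + s) * s - (3 + s) / 4 * (1 - s ^ 2) - 61 / 100 * s ^ 2 * (1 + s) ^ 2) *
        ((s * (945 - 735 * s ^ 2 + 64 * s ^ 4)) * (15 * (63 - 70 * s ^ 2 + 15 * s ^ 4)))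
      + (3 + s) / 4 * s * (15 * (63 - 70 * s ^ 2 + 15 * s ^ 4)) ^ 2 =
      -(s ^ 3 * (392931 / 4 * (1 - s) ^ 10 + 2655261 / 2 * (s * (1 - s) ^ 9)
        + 29406321 / 4 * (s ^ 2 * (1 - s) ^ 8) + 22054410 * (s ^ 3 * (1 - s) ^ 7)
        + 394388883 / 10 * (s ^ 4 * (1 - s) ^ 6) + 216016122 / 5 * (s ^ 5 * (1 - s) ^ 5)
        + 142495794 / 5 * (s ^ 6 * (1 - s) ^ 4) + 53211956 / 5 * (s ^ 7 * (1 - s) ^ 3)
        + 9968084 / 5 * (s ^ 8 * (1 - s) ^ 2) + 149200 * (s ^ 9 * (1 - s))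
        + 336 / 5 * s ^ 10)) := by ring
  rw [key]
  have : 0 ≤ s ^ 3 * (392931 / 4 * (1 - s) ^ 10 + 2655261 / 2 * (s * (1 - s) ^ 9)
        + 29406321 / 4 * (s ^ 2 * (1 - s) ^ 8) + 22054410 * (s ^ 3 * (1 - s) ^ 7)
        + 394388883 / 10 * (s ^ 4 * (1 - s) ^ 6) + 216016122 / 5 * (s ^ 5 * (1 - s) ^ 5)
        + 142495794 / 5 * (s ^ 6 * (1 - s) ^ 4) + 53211956 / 5 * (s ^ 7 * (1 - s) ^ 3)
        + 9968084 / 5 * (s ^ 8 * (1 - s) ^ 2) + 149200 * (s ^ 9 * (1 - s))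
        + 336 / 5 * s ^ 10) := by positivity
  linarith

/-- (W4) with constant `0.61`, in the variable `s`. -/
theorem chi_s {s : ℝ} (hs : s ∈ Set.Ioo (0 : ℝ) 1) : hh s * rr s ≤ 61 / 100 * s ^ 2 := by
  obtain ⟨h0, h1⟩ := hs
  have hp : 0 < 1 + s := by linarith
  have hm : 0 < 1 - s := by linarith
  have hs2 : 0 < 1 - s ^ 2 := by nlinarith
  have hz : 0 < ath s := ath_pos h0 h1
  have hpd := chi_pade h0.le h1
  have hhU := chi_hh h0.le h1
  have hr0 := rr_nonneg ⟨h0, h1⟩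
  have hpl := chi_poly h0.le h1.le
  set N : ℝ := s * (945 - 735 * s ^ 2 + 64 * s ^ 4) with hN
  set D : ℝ := 15 * (63 - 70 * s ^ 2 + 15 * s ^ 4) with hD
  set z : ℝ := ath s with hzz
  have hDp : 0 < D := by
    rw [hD]; nlinarith [mul_pos hs2 hs2]
  have hNp : 0 < N := by
    rw [hN]
    have h64 : 0 ≤ s ^ 4 := by positivity
    exact mul_pos h0 (by nlinarith)
  set α : ℝ := (1 + s) * (1 - s ^ 2) with hα
  set β : ℝ := (1 + s) * s - (3 + s) / 4 * (1 - s ^ 2) - 61 / 100 * s ^ 2 * (1 + s) ^ 2 with hβ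
  set κ : ℝ := (3 + s) / 4 * s with hκ
  have hα0 : 0 < α := mul_pos hp hs2
  have hκ0 : 0 < κ := by positivity
  have hND : N ≤ z * D := by rwa [div_le_iff₀ hDp] at hpd
  -- the quadratic
  have hf : -α * z ^ 2 + β * z + κ ≤ 0 := by
    have h2 : 0 ≤ z * D - N := by linarith
    have h3 : N * D * (-α * z ^ 2 + β * z + κ) =
        z * (-α * N ^ 2 + β * (N * D) + κ * D ^ 2)
          - (z * D - N) * (α * z * N + κ * D) := by ring
    have h4 : 0 ≤ (z * D - N) * (α * z * N + κ * D) := by positivity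
    have h5 : z * (-α * N ^ 2 + β * (N * D) + κ * D ^ 2) ≤ 0 :=
      mul_nonpos_of_nonneg_of_nonpos hz.le hpl
    by_contra hcon
    push Not at hcon
    have h6 := mul_pos (mul_pos hNp hDp) hcon
    linarith
  have hrr : rr s = (s - (1 - s ^ 2) * z) / ((1 - s ^ 2) * z) := by
    unfold rr
    rw [← hzz]
    field_simp
  calc hh s * rr s ≤ ((1 - s) * ((3 + s) / (4 * (1 + s)) + z)) * rr s :=
        mul_le_mul_of_nonneg_right hhU hr0
    _ = ((3 + s) / 4 + (1 + s) * z) * (s - (1 - s ^ 2) * z) / ((1 + s) ^ 2 * z) := by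
        rw [hrr, div_eq_mul_inv, div_eq_mul_inv]
        have e : (1 - s ^ 2) = (1 + s) * (1 - s) := by ring
        rw [e]
        field_simp
    _ ≤ 61 / 100 * s ^ 2 := by
        rw [div_le_iff₀ (by positivity)]
        have e : ((3 + s) / 4 + (1 + s) * z) * (s - (1 - s ^ 2) * z) -
            61 / 100 * s ^ 2 * ((1 + s) ^ 2 * z) = -α * z ^ 2 + β * z + κ := by
          rw [hα, hβ, hκ]; ring
        linarith

/-- (W4) with constant `0.61`, in the variable `z`. -/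
theorem chi_le {z : ℝ} (h0 : 0 < z) :
    hz z * (Real.sinh (2 * z) / (2 * z) - 1) ≤ 61 / 100 * Real.tanh z ^ 2 := by
  have hs : Real.tanh z ∈ Set.Ioo (0 : ℝ) 1 :=
    ⟨by rw [Real.tanh_eq_sinh_div_cosh]; exact div_pos (Real.sinh_pos_iff.2 h0) (Real.cosh_pos z), (L1_tanh_mem z).2⟩
  have h := chi_s hs
  rw [hz_eq] at h
  have e : rr (Real.tanh z) = Real.sinh (2 * z) / (2 * z) - 1 := by
    unfold rr
    rw [L1_ath_tanh, L1_one_sub_tanh, Real.tanh_eq_sinh_div_cosh, Real.sinh_two_mul]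
    have hc : 0 < Real.cosh z := Real.cosh_pos z
    field_simp
  rwa [e] at h

end P322
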