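import Vale.Agent.P322.CornerDefs

/-! P322: the corner bound, ray part (helper8) -/

namespace P322

theorem ray_hasDeriv_Hn {x τ : ℝ} (hx : 0 < x) (hτ : 0 < τ) (h1 : τ * x < 1) :
    HasDerivAt (fun τ => Hn (τ * x)) (-(x * Real.log (τ * x)) + x * Real.log (1 - τ * x)) τ := by
  have hX : HasDerivAt (fun τ : ℝ => τ * x) x τ := by
    simpa using (hasDerivAt_id' τ).mul_const x
  have hX0 : τ * x ≠ 0 := (mul_pos hτ hx).ne'
  have hP0 : 1 - τ * x ≠ 0 := by linarith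
  have hP : HasDerivAt (fun τ : ℝ => 1 - τ * x) (-x) τ := hX.const_sub 1
  have h := ((hX.mul (hX.log hX0)).neg).sub (hP.mul (hP.log hP0))
  have e1 : τ * x * (x / (τ * x)) = x := mul_div_cancel₀ x hX0
  have e2 : (1 - τ * x) * (-x / (1 - τ * x)) = -x := mul_div_cancel₀ (-x) hP0
  rw [e1, e2] at h
  refine HasDerivAt.congr_deriv h ?_
  ring

theorem ray_hasDeriv {c x y τ : ℝ} (hx : 0 < x) (hy : 0 < y) (hτ : 0 < τ) (h1 : τ * x < 1)
    (h2 : τ * y < 1) :
    HasDerivAt (fun τ => DD c (τ * x) (τ * y) / τ)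
      ((y - x) ^ 2 / (4 * (1 - τ * x) * (1 - τ * y)) - c / 2 * cF (τ * x) (τ * y) / τ ^ 2) τ := by
  have hX : HasDerivAt (fun τ : ℝ => τ * x) x τ := by
    simpa using (hasDerivAt_id' τ).mul_const x
  have hY : HasDerivAt (fun τ : ℝ => τ * y) y τ := by
    simpa using (hasDerivAt_id' τ).mul_const y
  have hX0 : τ * x ≠ 0 := (mul_pos hτ hx).ne'
  have hY0 : τ * y ≠ 0 := (mul_pos hτ hy).ne'
  have hP0 : 1 - τ * x ≠ 0 := by linarith
  have hQ0 : 1 - τ * y ≠ 0 := by linarith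
  have hP : HasDerivAt (fun τ : ℝ => 1 - τ * x) (-x) τ := hX.const_sub 1
  have hQ : HasDerivAt (fun τ : ℝ => 1 - τ * y) (-y) τ := hY.const_sub 1
  have hA := (((hY.sub hX).mul ((((hP.log hP0).sub (hQ.log hQ0)).add (hY.log hY0)).sub
    (hX.log hX0))).div_const 4).add
    (((ray_hasDeriv_Hn hx hτ h1).add (ray_hasDeriv_Hn hy hτ h2)).const_mul (c / 2))
  have h := hA.div (hasDerivAt_id' τ) hτ.ne'
  refine HasDerivAt.congr_deriv h ?_
  have e1 : y / (τ * y) = 1 / τ := by field_simp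
  have e2 : x / (τ * x) = 1 / τ := by field_simp
  have e3 : -x / (1 - τ * x) - -y / (1 - τ * y) + 1 / τ - 1 / τ =
      (y - x) / ((1 - τ * x) * (1 - τ * y)) := by
    rw [add_sub_cancel_right, div_sub_div _ _ hP0 hQ0]
    congr 1
    ring
  simp only [Pi.add_apply, Pi.sub_apply, Pi.mul_apply, Hn, cF]
  rw [e1, e2, e3]
  have e4 : (y - x) ^ 2 / (4 * (1 - τ * x) * (1 - τ * y)) =
      (y - x) * ((y - x) / ((1 - τ * x) * (1 - τ * y))) / 4 := by
    field_simp
  rw [e4]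
  generalize (y - x) / ((1 - τ * x) * (1 - τ * y)) = K
  field_simp
  ring

/-- the sign of the derivative is the sign of `c₃ - c` -/
theorem ray_deriv_eq {c x y τ : ℝ} (hτ : 0 < τ) (h1 : τ * x < 1) (h2 : τ * y < 1)
    (hF : 0 < cF (τ * x) (τ * y)) :
    (y - x) ^ 2 / (4 * (1 - τ * x) * (1 - τ * y)) - c / 2 * cF (τ * x) (τ * y) / τ ^ 2 =
      cF (τ * x) (τ * y) / (2 * τ ^ 2) * (c3 (τ * x) (τ * y) - c) := by
  have hP0 : 1 - τ * x ≠ 0 := by linarith
  have hQ0 : 1 - τ * y ≠ 0 := by linarith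
  unfold c3
  generalize cF (τ * x) (τ * y) = F at hF ⊢
  generalize hP : 1 - τ * x = P at hP0 ⊢
  generalize hQ : 1 - τ * y = Q at hQ0 ⊢
  field_simp
  ring

theorem cF_ge {X Y : ℝ} (hX : X < 1) (hY : Y < 1) : X + Y ≤ cF X Y := by
  unfold cF
  have h1 := Real.log_le_sub_one_of_pos (show 0 < 1 - X by linarith)
  have h2 := Real.log_le_sub_one_of_pos (show 0 < 1 - Y by linarith)
  linarith

/-- `(1-X)(1-Y) F / τ²` along the ray -/
noncomputable def rayK (x y τ : ℝ) : ℝ := (1 - τ * x) * (1 - τ * y) * cF (τ * x) (τ * y) / τ ^ 2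

theorem ray_hasDeriv_K {x y τ : ℝ} (hτ : 0 < τ) (h1 : τ * x < 1) (h2 : τ * y < 1) :
    HasDerivAt (rayK x y)
      ((τ * (x * (1 - τ * y) + y * (1 - τ * x)) * (1 - cF (τ * x) (τ * y))
        - 2 * (1 - τ * x) * (1 - τ * y) * cF (τ * x) (τ * y)) / τ ^ 3) τ := by
  have hX : HasDerivAt (fun τ : ℝ => τ * x) x τ := by
    simpa using (hasDerivAt_id' τ).mul_const x
  have hY : HasDerivAt (fun τ : ℝ => τ * y) y τ := by
    simpa using (hasDerivAt_id' τ).mul_const y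
  have hP0 : 1 - τ * x ≠ 0 := by linarith
  have hQ0 : 1 - τ * y ≠ 0 := by linarith
  have hP : HasDerivAt (fun τ : ℝ => 1 - τ * x) (-x) τ := hX.const_sub 1
  have hQ : HasDerivAt (fun τ : ℝ => 1 - τ * y) (-y) τ := hY.const_sub 1
  have hF : HasDerivAt (fun τ => cF (τ * x) (τ * y)) (-(-x / (1 - τ * x)) - -y / (1 - τ * y)) τ :=
    (hP.log hP0).neg.sub (hQ.log hQ0)
  have hT : HasDerivAt (fun τ : ℝ => τ ^ 2) (2 * τ) τ := by
    simpa using hasDerivAt_pow 2 τ
  have h := ((hP.mul hQ).mul hF).div hT (by positivity)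
  refine HasDerivAt.congr_deriv h ?_
  simp only [Pi.mul_apply]
  generalize cF (τ * x) (τ * y) = F
  generalize 1 - τ * x = P at hP0 ⊢
  generalize 1 - τ * y = Q at hQ0 ⊢
  field_simp
  ring

theorem ray_K_deriv_nonpos {x y τ : ℝ} (hx : 0 < x) (hy : 0 < y) (hτ : 0 < τ)
    (h : τ * (x + y) ≤ 1) :
    (τ * (x * (1 - τ * y) + y * (1 - τ * x)) * (1 - cF (τ * x) (τ * y))
        - 2 * (1 - τ * x) * (1 - τ * y) * cF (τ * x) (τ * y)) / τ ^ 3 ≤ 0 := by
  have hX0 : 0 < τ * x := mul_pos hτ hx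
  have hY0 : 0 < τ * y := mul_pos hτ hy
  have hXY : τ * x + τ * y ≤ 1 := by rw [← mul_add]; exact h
  have hF := cF_ge (X := τ * x) (Y := τ * y) (by linarith) (by linarith)
  have e : τ * (x * (1 - τ * y) + y * (1 - τ * x)) = τ * x * (1 - τ * y) + τ * y * (1 - τ * x) := by
    ring
  rw [e]
  generalize cF (τ * x) (τ * y) = F at hF ⊢
  generalize τ * x = X at hX0 hXY hF ⊢
  generalize τ * y = Y at hY0 hXY hF ⊢
  refine div_nonpos_of_nonpos_of_nonneg ?_ (by positivity)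
  have hS : 0 ≤ 2 - X - Y := by linarith
  have h1 := mul_le_mul_of_nonneg_left hF hS
  nlinarith [mul_nonneg hX0.le hY0.le, mul_nonneg (add_pos hX0 hY0).le (sub_nonneg.2 hXY)]

theorem ray_K_anti {x y : ℝ} (hx : 0 < x) (hy : 0 < y) {s t : ℝ} (hs : 0 < s) (hst : s ≤ t)
    (h : t * (x + y) ≤ 1) : rayK x y t ≤ rayK x y s := by
  have hlt : ∀ r ∈ Set.Icc s t, 0 < r ∧ r * (x + y) ≤ 1 ∧ r * x < 1 ∧ r * y < 1 := by
    intro r hr
    have hr0 : 0 < r := hs.trans_le hr.1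
    have hr1 : r * (x + y) ≤ 1 :=
      (mul_le_mul_of_nonneg_right hr.2 (add_pos hx hy).le).trans h
    have h1 := mul_pos hr0 hx
    have h2 := mul_pos hr0 hy
    rw [mul_add] at hr1
    exact ⟨hr0, by rw [mul_add]; exact hr1, by linarith, by linarith⟩
  have hanti : AntitoneOn (rayK x y) (Set.Icc s t) := by
    refine antitoneOn_of_deriv_nonpos (convex_Icc s t) ?_ ?_ ?_
    · intro r hr
      obtain ⟨h0, _, h1, h2⟩ := hlt r hr
      exact (ray_hasDeriv_K h0 h1 h2).continuousAt.continuousWithinAt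
    · intro r hr
      obtain ⟨h0, _, h1, h2⟩ := hlt r (interior_subset hr)
      exact (ray_hasDeriv_K h0 h1 h2).differentiableAt.differentiableWithinAt
    · intro r hr
      obtain ⟨h0, h3, h1, h2⟩ := hlt r (interior_subset hr)
      rw [(ray_hasDeriv_K h0 h1 h2).deriv]
      exact ray_K_deriv_nonpos hx hy h0 h3
  exact hanti (Set.left_mem_Icc.2 hst) (Set.right_mem_Icc.2 hst) hst

theorem ray_c3_eq {x y τ : ℝ} (hτ : 0 < τ) :
    c3 (τ * x) (τ * y) = (y - x) ^ 2 / (2 * rayK x y τ) := by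
  unfold c3 rayK
  rw [← mul_sub, mul_pow, mul_div_assoc', div_div_eq_mul_div]
  congr 1
  · ring
  · ring

theorem ray_K_pos {x y τ : ℝ} (hx : 0 < x) (hy : 0 < y) (hτ : 0 < τ) (h : τ * (x + y) ≤ 1) :
    0 < rayK x y τ ∧ 0 < cF (τ * x) (τ * y) ∧ τ * x < 1 ∧ τ * y < 1 := by
  have h1 := mul_pos hτ hx
  have h2 := mul_pos hτ hy
  have h3 : τ * x + τ * y ≤ 1 := by rw [← mul_add]; exact h
  have hF := cF_ge (X := τ * x) (Y := τ * y) (by linarith) (by linarith)
  have hF0 : 0 < cF (τ * x) (τ * y) := by linarith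
  refine ⟨?_, hF0, by linarith, by linarith⟩
  unfold rayK
  have : 0 < 1 - τ * x := by linarith
  have : 0 < 1 - τ * y := by linarith
  positivity

theorem ray_c3_mono {x y : ℝ} (hx : 0 < x) (hy : 0 < y) {s t : ℝ} (hs : 0 < s) (hst : s ≤ t)
    (h : t * (x + y) ≤ 1) : c3 (s * x) (s * y) ≤ c3 (t * x) (t * y) := by
  have ht : 0 < t := hs.trans_le hst
  rw [ray_c3_eq hs, ray_c3_eq ht]
  have h1 := ray_K_anti hx hy hs hst h
  have h2 := (ray_K_pos hx hy ht h).1
  exact div_le_div_of_nonneg_left (sq_nonneg _) (by positivity) (by linarith)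

/-- if `c₃ ≤ c` on `[s,t]`, the normalised function decreases -/
theorem ray_anti {c x y : ℝ} (hx : 0 < x) (hy : 0 < y) {s t : ℝ} (hs : 0 < s) (hst : s ≤ t)
    (h : t * (x + y) ≤ 1) (hc : c3 (t * x) (t * y) ≤ c) :
    DD c (t * x) (t * y) / t ≤ DD c (s * x) (s * y) / s := by
  have hlt : ∀ r ∈ Set.Icc s t, 0 < r ∧ r * (x + y) ≤ 1 := fun r hr =>
    ⟨hs.trans_le hr.1, (mul_le_mul_of_nonneg_right hr.2 (add_pos hx hy).le).trans h⟩
  have hanti : AntitoneOn (fun τ => DD c (τ * x) (τ * y) / τ) (Set.Icc s t) := by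
    refine antitoneOn_of_deriv_nonpos (convex_Icc s t) ?_ ?_ ?_
    · intro r hr
      obtain ⟨h0, h1⟩ := hlt r hr
      obtain ⟨_, _, h2, h3⟩ := ray_K_pos hx hy h0 h1
      exact (ray_hasDeriv hx hy h0 h2 h3).continuousAt.continuousWithinAt
    · intro r hr
      obtain ⟨h0, h1⟩ := hlt r (interior_subset hr)
      obtain ⟨_, _, h2, h3⟩ := ray_K_pos hx hy h0 h1
      exact (ray_hasDeriv hx hy h0 h2 h3).differentiableAt.differentiableWithinAt
    · intro r hr
      obtain ⟨h0, h1⟩ := hlt r (interior_subset hr)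
      obtain ⟨_, hF, h2, h3⟩ := ray_K_pos hx hy h0 h1
      rw [(ray_hasDeriv hx hy h0 h2 h3).deriv, ray_deriv_eq h0 h2 h3 hF]
      refine mul_nonpos_of_nonneg_of_nonpos (by positivity) (sub_nonpos.2 ?_)
      exact (ray_c3_mono hx hy h0 (interior_subset hr).2 h).trans hc
  exact hanti (Set.left_mem_Icc.2 hst) (Set.right_mem_Icc.2 hst) hst

/-- if `c ≤ c₃` on `[s,t]`, the normalised function increases -/
theorem ray_mono {c x y : ℝ} (hx : 0 < x) (hy : 0 < y) {s t : ℝ} (hs : 0 < s) (hst : s ≤ t)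
    (h : t * (x + y) ≤ 1) (hc : c ≤ c3 (s * x) (s * y)) :
    DD c (s * x) (s * y) / s ≤ DD c (t * x) (t * y) / t := by
  have hlt : ∀ r ∈ Set.Icc s t, 0 < r ∧ r * (x + y) ≤ 1 := fun r hr =>
    ⟨hs.trans_le hr.1, (mul_le_mul_of_nonneg_right hr.2 (add_pos hx hy).le).trans h⟩
  have hmono : MonotoneOn (fun τ => DD c (τ * x) (τ * y) / τ) (Set.Icc s t) := by
    refine monotoneOn_of_deriv_nonneg (convex_Icc s t) ?_ ?_ ?_
    · intro r hr
      obtain ⟨h0, h1⟩ := hlt r hr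
      obtain ⟨_, _, h2, h3⟩ := ray_K_pos hx hy h0 h1
      exact (ray_hasDeriv hx hy h0 h2 h3).continuousAt.continuousWithinAt
    · intro r hr
      obtain ⟨h0, h1⟩ := hlt r (interior_subset hr)
      obtain ⟨_, _, h2, h3⟩ := ray_K_pos hx hy h0 h1
      exact (ray_hasDeriv hx hy h0 h2 h3).differentiableAt.differentiableWithinAt
    · intro r hr
      obtain ⟨h0, h1⟩ := hlt r (interior_subset hr)
      obtain ⟨_, hF, h2, h3⟩ := ray_K_pos hx hy h0 h1
      rw [(ray_hasDeriv hx hy h0 h2 h3).deriv, ray_deriv_eq h0 h2 h3 hF]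
      refine mul_nonneg (by positivity) (sub_nonneg.2 ?_)
      exact hc.trans (ray_c3_mono hx hy hs (interior_subset hr).1 h1)
  exact hmono (Set.left_mem_Icc.2 hst) (Set.right_mem_Icc.2 hst) hst

/-- there are points of the ray near the corner with `c₃ ≤ c` -/
theorem ray_small {c x y : ℝ} (hc : 0 < c) (hx : 0 < x) (hy : 0 < y) (h1 : x + y ≤ 1) :
    ∃ τ, 0 < τ ∧ τ ≤ 1 ∧ c3 (τ * x) (τ * y) ≤ c := by
  have hm : 0 < min (1 / 2) c := lt_min (by norm_num) hc
  refine ⟨min (1 / 2) c, hm, (min_le_left _ _).trans (by norm_num), ?_⟩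
  have hm1 : min (1 / 2) c ≤ 1 / 2 := min_le_left _ _
  have hm2 : min (1 / 2) c ≤ c := min_le_right _ _
  generalize min (1 / 2) c = τ at hm hm1 hm2
  have hX := mul_pos hm hx
  have hY := mul_pos hm hy
  have hXY : τ * x + τ * y ≤ 1 / 2 := by
    rw [← mul_add]
    nlinarith [add_pos hx hy]
  have hXYt : τ * x + τ * y ≤ τ := by
    rw [← mul_add]
    nlinarith [add_pos hx hy]
  have hF := cF_ge (X := τ * x) (Y := τ * y) (by linarith) (by linarith)
  unfold c3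
  generalize cF (τ * x) (τ * y) = F at hF ⊢
  generalize τ * x = X at hX hXY hXYt hF ⊢
  generalize τ * y = Y at hY hXY hXYt hF ⊢
  have hF0 : 0 < F := by linarith
  have hP : 0 < 1 - X := by linarith
  have hQ : 0 < 1 - Y := by linarith
  rw [div_le_iff₀ (by positivity)]
  have hPQ : 1 / 2 ≤ (1 - X) * (1 - Y) := by nlinarith
  have h2 : (Y - X) ^ 2 ≤ (X + Y) * (X + Y) := by nlinarith [mul_pos hX hY]
  have h3 : (X + Y) * (X + Y) ≤ c * F := mul_le_mul (hXYt.trans hm2) hF (by positivity) hc.le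
  have h4 : c * F ≤ c * (2 * (1 - X) * (1 - Y) * F) := by
    have : c * F * 1 ≤ c * F * (2 * ((1 - X) * (1 - Y))) :=
      mul_le_mul_of_nonneg_left (by linarith) (by positivity)
    calc c * F = c * F * 1 := by ring
      _ ≤ _ := this
      _ = _ := by ring
  exact h2.trans (h3.trans h4)

theorem ray_c3_continuousOn {x y : ℝ} (hx : 0 < x) (hy : 0 < y) {s t : ℝ} (hs : 0 < s)
    (h : t * (x + y) ≤ 1) : ContinuousOn (fun τ => c3 (τ * x) (τ * y)) (Set.Icc s t) := by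
  have hlt : ∀ r ∈ Set.Icc s t, 0 < r ∧ r * (x + y) ≤ 1 := fun r hr =>
    ⟨hs.trans_le hr.1, (mul_le_mul_of_nonneg_right hr.2 (add_pos hx hy).le).trans h⟩
  have hc : ContinuousOn (fun τ => (y - x) ^ 2 / (2 * rayK x y τ)) (Set.Icc s t) := by
    refine continuousOn_const.div (continuousOn_const.mul ?_) ?_
    · intro r hr
      obtain ⟨h0, h1⟩ := hlt r hr
      obtain ⟨_, _, h2, h3⟩ := ray_K_pos hx hy h0 h1
      exact (ray_hasDeriv_K h0 h2 h3).continuousAt.continuousWithinAt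
    · intro r hr
      obtain ⟨h0, h1⟩ := hlt r hr
      have := (ray_K_pos hx hy h0 h1).1
      positivity
  refine hc.congr fun r hr => ?_
  exact ray_c3_eq (hlt r hr).1

/-- along rays from the corner it is enough to look at the curve `c₃ = c` and at the diagonal
`x + y = 1`. -/
theorem ray_min {c a1 a2 : ℝ} (hc : 0 < c)
    (hcurve : ∀ x y, 0 < x → x < y → x + y ≤ 1 → c3 x y = c → a1 * (x + y) + a2 * (y - x) ≤ DD c x y)
    (hdiag : ∀ s, 0 < s → s < 1 → c3 ((1 - s) / 2) ((1 + s) / 2) ≤ c →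
      a1 + a2 * s ≤ DD c ((1 - s) / 2) ((1 + s) / 2))
    {x y : ℝ} (hx : 0 < x) (hxy : x < y) (h1 : x + y ≤ 1) :
    a1 * (x + y) + a2 * (y - x) ≤ DD c x y := by
  have hy : 0 < y := hx.trans hxy
  have hS : 0 < x + y := add_pos hx hy
  have hT0 : 0 < 1 / (x + y) := by positivity
  have hT1 : 1 ≤ 1 / (x + y) := by rw [le_div_iff₀ hS]; linarith
  have hT2 : 1 / (x + y) * (x + y) = 1 := div_mul_cancel₀ 1 hS.ne'
  have hone : DD c (1 * x) (1 * y) / 1 = DD c x y := by rw [one_mul, one_mul, div_one]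
  by_cases hcase : c3 (1 / (x + y) * x) (1 / (x + y) * y) ≤ c
  · have h2 := ray_anti hx hy zero_lt_one hT1 hT2.le hcase
    rw [hone] at h2
    have e1 : 1 / (x + y) * x = (1 - (y - x) / (x + y)) / 2 := by field_simp; ring
    have e2 : 1 / (x + y) * y = (1 + (y - x) / (x + y)) / 2 := by field_simp; ring
    have h3 := hdiag ((y - x) / (x + y)) (div_pos (sub_pos.2 hxy) hS)
      ((div_lt_one hS).2 (by linarith)) (by rw [← e1, ← e2]; exact hcase)
    rw [← e1, ← e2] at h3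
    refine le_trans ?_ h2
    rw [le_div_iff₀ hT0]
    refine le_trans (le_of_eq ?_) h3
    field_simp
  · push Not at hcase
    obtain ⟨τ0, h0, h01, h0c⟩ := ray_small hc hx hy h1
    have hivt := intermediate_value_Icc (h01.trans hT1)
      (ray_c3_continuousOn hx hy h0 hT2.le)
    obtain ⟨τ, hτ, hτc⟩ := hivt ⟨h0c, hcase.le⟩
    have hτ0 : 0 < τ := h0.trans_le hτ.1
    have hτ1 : τ * (x + y) ≤ 1 := by
      rw [← hT2]
      exact mul_le_mul_of_nonneg_right hτ.2 hS.le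
    have hτc' : c3 (τ * x) (τ * y) = c := hτc
    have h3 := hcurve (τ * x) (τ * y) (mul_pos hτ0 hx) (mul_lt_mul_of_pos_left hxy hτ0)
      (by rw [← mul_add]; exact hτ1) hτc'
    have h4 : a1 * (x + y) + a2 * (y - x) ≤ DD c (τ * x) (τ * y) / τ := by
      rw [le_div_iff₀ hτ0]
      refine le_trans (le_of_eq ?_) h3
      ring
    refine h4.trans ?_
    rw [← hone]
    rcases le_total τ 1 with h5 | h5
    · exact ray_mono hx hy hτ0 h5 (by rw [one_mul]; exact h1) hτc'.ge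
    · exact ray_anti hx hy zero_lt_one h5 hτ1 hτc'.le

end P322
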