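import Vale.Agent.P322.L1
namespace P322

theorem av_mono' {n : ℕ} {f g : (Fin n → Bool) → ℝ} (h : ∀ x, f x ≤ g x) : av f ≤ av g := by
  unfold av
  exact div_le_div_of_nonneg_right (Finset.sum_le_sum fun x _ => h x) (by positivity)

theorem av_comb {n : ℕ} (A B : ℝ) (v w p q : (Fin n → Bool) → ℝ) :
    av (fun x => A * (v x - w x) / 2 - B * (p x + q x) / 2)
      = A * ((av v - av w) / 2) - B * ((av p + av q) / 2) := by
  have e : (fun x => A * (v x - w x) / 2 - B * (p x + q x) / 2)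
      = fun x => (A / 2) * v x - (A / 2) * w x - ((B / 2) * p x + (B / 2) * q x) := by
    funext x; ring
  rw [e]
  unfold av
  rw [Finset.sum_sub_distrib, Finset.sum_sub_distrib, Finset.sum_add_distrib,
    ← Finset.mul_sum, ← Finset.mul_sum, ← Finset.mul_sum, ← Finset.mul_sum]
  ring

/-- the homogeneous lower bound `E j ≥ d artanh s`, `h(s)/s = H/d`. -/
theorem J0_bound {n : ℕ} (v w : (Fin n → Bool) → ℝ) (hv : InI v) (hw : InI w) {s d H : ℝ}
    (hs : s ∈ Set.Ioo (0 : ℝ) 1) (hd : d = (av v - av w) / 2)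
    (hH : H = (av (fun x => hh (v x)) + av (fun x => hh (w x))) / 2)
    (hsH : hh s * d = s * H) :
    d * ath s ≤ av (fun x => jj (v x) (w x)) := by
  have h1 : av (fun x => AA s * (v x - w x) / 2 - BB s * (hh (v x) + hh (w x)) / 2)
      ≤ av (fun x => jj (v x) (w x)) := av_mono' fun x => L1 (hv x) (hw x) hs
  rw [av_comb, ← hd, ← hH] at h1
  have hs0 : s ≠ 0 := hs.1.ne'
  have hH' : H = hh s * d / s := by
    rw [hsH]; field_simp
  have h2 : AA s * d - BB s * H = d * ath s := by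
    rw [hH', AA]; field_simp; ring
  rw [← h2]; exact h1

theorem exists_s {d H : ℝ} (hd : 0 < d) (hH : 0 < H) : ∃ s ∈ Set.Ioo (0 : ℝ) 1, hh s * d = s * H := by
  have hc : ContinuousOn (fun s : ℝ => hh s * d - s * H) (Set.Icc 0 1) :=
    ((hh_continuous.mul continuous_const).sub (continuous_id.mul continuous_const)).continuousOn
  have hl : 0 < Real.log 2 := Real.log_pos one_lt_two
  have hsub := intermediate_value_Icc' (zero_le_one : (0 : ℝ) ≤ 1) hc
  simp only [hh_zero, hh_one, zero_mul, one_mul, sub_zero, zero_sub] at hsub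
  obtain ⟨s, hs, hs0⟩ := hsub (⟨by linarith, by positivity⟩ : (0 : ℝ) ∈ Set.Icc (-H) (Real.log 2 * d))
  have hs0' : hh s * d - s * H = 0 := hs0
  refine ⟨s, ⟨lt_of_le_of_ne hs.1 ?_, lt_of_le_of_ne hs.2 ?_⟩, by linarith⟩
  · rintro rfl
    rw [hh_zero] at hs0'
    have : 0 < Real.log 2 * d := by positivity
    linarith
  · rintro rfl
    rw [hh_one] at hs0'
    linarith
end P322
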