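import Vale.Agent.P322.CornerCurve
import Vale.Agent.P322.CornerRay
import Vale.Agent.P322.J0

/-! P322: the corner bound, assembly -/

namespace P322

theorem cF_pos {x y : ℝ} (hx : 0 < x) (hx1 : x < 1) (hy : 0 < y) (hy1 : y < 1) : 0 < cF x y := by
  unfold cF
  have h1 := Real.log_neg (show 0 < 1 - x by linarith) (by linarith)
  have h2 := Real.log_neg (show 0 < 1 - y by linarith) (by linarith)
  linarith

theorem c3_mul {x y : ℝ} (hx : 0 < x) (hx1 : x < 1) (hy : 0 < y) (hy1 : y < 1) :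
    c3 x y * cF x y = (y - x) ^ 2 / (2 * (1 - x) * (1 - y)) := by
  have h := cF_pos hx hx1 hy hy1
  have h1 : 0 < 1 - x := by linarith
  have h2 : 0 < 1 - y := by linarith
  unfold c3
  field_simp

theorem c3_pos {x y : ℝ} (hx : 0 < x) (hxy : x < y) (hy1 : y < 1) : 0 < c3 x y := by
  have h := cF_pos hx (hxy.trans hy1) (hx.trans hxy) hy1
  have h1 : 0 < 1 - x := by linarith
  have h2 : 0 < 1 - y := by linarith
  have h3 : 0 < y - x := by linarith
  unfold c3
  positivity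

/-- on the curve the tangent plane is exact -/
theorem DD_eq {x y : ℝ} (hx : 0 < x) (hx1 : x < 1) (hy : 0 < y) (hy1 : y < 1) :
    DD (c3 x y) x y = cc1 (c3 x y) x y * (x + y) + cc2 (c3 x y) x y * (y - x) := by
  have h := c3_mul hx hx1 hy hy1
  have h1 : 0 < 1 - x := by linarith
  have h2 : 0 < 1 - y := by linarith
  have h3 : DD (c3 x y) x y - (cc1 (c3 x y) x y * (x + y) + cc2 (c3 x y) x y * (y - x))
      = (2 - x - y) / 4 * (c3 x y * cF x y - (y - x) ^ 2 / (2 * (1 - x) * (1 - y))) := by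
    unfold DD cc1 cc2 cF Hn
    generalize c3 x y = c
    generalize Real.log (1 - x) = a
    generalize Real.log (1 - y) = b
    generalize Real.log x = u
    generalize Real.log y = v
    field_simp
    ring
  rw [h, sub_self, mul_zero] at h3
  linarith

theorem cu_of_xy {x y : ℝ} (hx : 0 < x) (hxy : x < y) (h1 : x + y ≤ 1) :
    ∃ t, cuT (c3 x y) t ∧ cuP (c3 x y) t = 1 - x ∧ cuQ (c3 x y) t = 1 - y ∧
      2 * t = Real.log (1 - x) - Real.log (1 - y) := by
  have hy1 : y < 1 := by linarith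
  have hx1 : x < 1 := by linarith
  have hy : 0 < y := by linarith
  have hX : 0 < 1 - x := by linarith
  have hY : 0 < 1 - y := by linarith
  have hc := c3_pos hx hxy hy1
  have hm := c3_mul hx hx1 hy hy1
  have hF := cF_pos hx hx1 hy hy1
  set c := c3 x y with hcd
  set t := (Real.log (1 - x) - Real.log (1 - y)) / 2 with htd
  have ht : 0 < t := by
    have := Real.log_lt_log hY (show 1 - y < 1 - x by linarith)
    rw [htd]; linarith
  have e1 : Real.exp t ^ 2 = (1 - x) / (1 - y) := by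
    rw [← Real.exp_nat_mul, htd]
    push_cast
    rw [show (2 : ℝ) * ((Real.log (1 - x) - Real.log (1 - y)) / 2)
      = Real.log (1 - x) - Real.log (1 - y) by ring, Real.exp_sub, Real.exp_log hX, Real.exp_log hY]
  have e2 : Real.exp (-t) ^ 2 = (1 - y) / (1 - x) := by
    rw [Real.exp_neg, inv_pow, e1, inv_div]
  have e3 : Real.exp t * Real.exp (-t) = 1 := by rw [← Real.exp_add]; simp
  have hs : 4 * Real.sinh t ^ 2 = (1 - x) / (1 - y) + (1 - y) / (1 - x) - 2 := by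
    rw [← e1, ← e2, Real.sinh_eq]
    nlinarith [e3]
  have hs2 : Real.sinh t ^ 2 = c * (cF x y / 2) := by
    have h4 : c * (cF x y / 2) = (y - x) ^ 2 / (2 * (1 - x) * (1 - y)) / 2 := by
      rw [← hm]; ring
    rw [h4]
    have h5 : (1 - x) / (1 - y) + (1 - y) / (1 - x) - 2 = (y - x) ^ 2 / ((1 - x) * (1 - y)) := by
      field_simp
      ring
    rw [h5] at hs
    have h6 : Real.sinh t ^ 2 = (y - x) ^ 2 / ((1 - x) * (1 - y)) / 4 := by linarith
    rw [h6]
    field_simp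
    ring
  have hphi : Real.sinh t ^ 2 / c = cF x y / 2 := by
    rw [hs2]; field_simp
  have hP : cuP c t = 1 - x := by
    unfold cuP
    rw [hphi, htd]
    unfold cF
    rw [show (Real.log (1 - x) - Real.log (1 - y)) / 2
      - (-Real.log (1 - x) - Real.log (1 - y)) / 2 = Real.log (1 - x) by ring, Real.exp_log hX]
  have hQ : cuQ c t = 1 - y := by
    unfold cuQ
    rw [hphi, htd]
    unfold cF
    rw [show -((Real.log (1 - x) - Real.log (1 - y)) / 2)
      - (-Real.log (1 - x) - Real.log (1 - y)) / 2 = Real.log (1 - y) by ring, Real.exp_log hY]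
  refine ⟨t, ⟨ht, ?_, ?_⟩, hP, hQ, by rw [htd]; ring⟩
  · rw [hs2]
    apply mul_lt_mul_of_pos_left _ hc
    have := Real.log_neg hX (by linarith)
    rw [htd]; unfold cF; linarith
  · rw [hs2]
    apply mul_le_mul_of_nonneg_left _ hc.le
    have hch := Real.cosh_pos t
    rw [← Real.log_exp (cF x y / 2)]
    apply Real.log_le_log (Real.exp_pos _)
    have e : cuP c t + cuQ c t = (2 * Real.cosh t) * Real.exp (-(Real.sinh t ^ 2 / c)) := by
      unfold cuP cuQ
      rw [Real.cosh_eq, show t - Real.sinh t ^ 2 / c = t + -(Real.sinh t ^ 2 / c) by ring,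
        show -t - Real.sinh t ^ 2 / c = -t + -(Real.sinh t ^ 2 / c) by ring, Real.exp_add,
        Real.exp_add]
      ring
    rw [hP, hQ, hphi, Real.exp_neg, ← div_eq_mul_inv, eq_div_iff (Real.exp_ne_zero _)] at e
    rw [← e]
    have := Real.exp_pos (cF x y / 2)
    nlinarith

theorem cuC1_eq {c x y t : ℝ} (hP : cuP c t = 1 - x) (hQ : cuQ c t = 1 - y) :
    cuC1 c t = cc1 c x y := by
  unfold cuC1 cc1
  rw [hP, hQ]
  have e1 : (1 : ℝ) - (1 - x) = x := by ring
  have e2 : (1 : ℝ) - (1 - y) = y := by ring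
  rw [e1, e2]

theorem cuC2_eq {c x y t : ℝ} (hP : cuP c t = 1 - x) (hQ : cuQ c t = 1 - y)
    (ht : 2 * t = Real.log (1 - x) - Real.log (1 - y)) :
    cuC2 c t = cc2 c x y := by
  unfold cuC2 cc2
  rw [cu_PQ c t, cu_QP c t, hP, hQ, ht]
  have e1 : (1 : ℝ) - (1 - x) = x := by ring
  have e2 : (1 : ℝ) - (1 - y) = y := by ring
  rw [e1, e2]

theorem cuS_eq {c x y t : ℝ} (hP : cuP c t = 1 - x) (hQ : cuQ c t = 1 - y) :
    cuS c t = (y - x) / (x + y) := by
  unfold cuS
  rw [hP, hQ]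
  congr 1 <;> ring

/-- the tangent plane at a point of the curve lies below at the other points of the curve -/
theorem curve_le {x0 y0 x y : ℝ} (hx0 : 0 < x0) (hxy0 : x0 < y0) (h0 : x0 + y0 ≤ 1)
    (hx : 0 < x) (hxy : x < y) (h1 : x + y ≤ 1) (hc : c3 x y = c3 x0 y0) :
    cc1 (c3 x0 y0) x0 y0 * (x + y) + cc2 (c3 x0 y0) x0 y0 * (y - x) ≤ DD (c3 x0 y0) x y := by
  obtain ⟨s, hs, hPs, hQs, hs2⟩ := cu_of_xy hx0 hxy0 h0
  obtain ⟨t, ht, hPt, hQt, ht2⟩ := cu_of_xy hx hxy h1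
  have hD := DD_eq hx (by linarith) (by linarith) (show y < 1 by linarith)
  rw [hc] at ht hPt hQt hD
  have hc0 := c3_pos hx0 hxy0 (by linarith : y0 < 1)
  have h := cu_psi hc0 hs ht
  rw [cuC1_eq hPs hQs, cuC1_eq hPt hQt, cuC2_eq hPs hQs hs2, cuC2_eq hPt hQt ht2,
    cuS_eq hPt hQt] at h
  rw [hD]
  have hxy' : 0 < x + y := by linarith
  have h2 := mul_le_mul_of_nonneg_right h hxy'.le
  have e1 : ∀ A B : ℝ, (A + (y - x) / (x + y) * B) * (x + y) = A * (x + y) + B * (y - x) := by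
    intro A B
    field_simp
  rw [e1, e1] at h2
  exact h2


theorem cu_exists_top {c t0 t1 : ℝ} (hc : 0 < c) (ht0 : 0 < t0) (ht1 : 0 < t1)
    (h0 : Real.sinh t0 ^ 2 ≤ c * Real.log (2 * Real.cosh t0))
    (h1 : Real.sinh t1 ^ 2 ≤ c * Real.log (2 * Real.cosh t1)) :
    ∃ T, t0 ≤ T ∧ t1 ≤ T ∧ Real.sinh T ^ 2 = c * Real.log (2 * Real.cosh T) := by
  have hm : Real.sinh (max t0 t1) ^ 2 ≤ c * Real.log (2 * Real.cosh (max t0 t1)) := by
    rcases max_choice t0 t1 with h | h <;> rw [h] <;> assumption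
  have hm0 : 0 < max t0 t1 := lt_max_of_lt_left ht0
  set U := max (max t0 t1) (c + 1) with hU
  have hU1 : c + 1 ≤ U := le_max_right _ _
  have hU2 : max t0 t1 ≤ U := le_max_left _ _
  have hU0 : 0 < U := by linarith
  have hbig : c * Real.log (2 * Real.cosh U) ≤ Real.sinh U ^ 2 := by
    have hs : U ≤ Real.sinh U := Real.self_le_sinh_iff.2 hU0.le
    have hcs : 2 * Real.cosh U ≤ 2 * Real.exp U := by
      rw [Real.cosh_eq]
      have := Real.exp_le_exp.2 (show -U ≤ U by linarith)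
      linarith
    have hl : Real.log (2 * Real.cosh U) ≤ 1 + U := by
      have hch := Real.cosh_pos U
      have h2 := Real.log_le_log (by positivity) hcs
      rw [Real.log_mul two_ne_zero (Real.exp_ne_zero _), Real.log_exp] at h2
      have := Real.log_two_lt_d9
      linarith
    have h3 : c * Real.log (2 * Real.cosh U) ≤ c * (1 + U) := mul_le_mul_of_nonneg_left hl hc.le
    have h4 : U ^ 2 ≤ Real.sinh U ^ 2 := pow_le_pow_left₀ hU0.le hs 2
    nlinarith
  have hcont : ContinuousOn (fun t => Real.sinh t ^ 2 - c * Real.log (2 * Real.cosh t))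
      (Set.Icc (max t0 t1) U) := by
    have hne : ∀ t : ℝ, 2 * Real.cosh t ≠ 0 := fun t => by
      have := Real.cosh_pos t; positivity
    have h5 : Continuous (fun t => Real.sinh t ^ 2 - c * Real.log (2 * Real.cosh t)) :=
      (Real.continuous_sinh.pow 2).sub
        (continuous_const.mul ((continuous_const.mul Real.continuous_cosh).log hne))
    exact h5.continuousOn
  have hiv := intermediate_value_Icc hU2 hcont
  obtain ⟨T, hT, hT2⟩ := hiv (show (0 : ℝ) ∈ Set.Icc _ _ from ⟨by linarith, by linarith⟩)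
  refine ⟨T, (le_max_left _ _).trans hT.1, (le_max_right _ _).trans hT.1, ?_⟩
  simp only at hT2
  linarith

theorem cu_top_vals {c T : ℝ} (hc : 0 < c) (hT0 : 0 < T)
    (hT : Real.sinh T ^ 2 = c * Real.log (2 * Real.cosh T)) :
    cuC1 c T = 0 ∧ cuC2 c T = AA (Real.tanh T) ∧ cuS c T = Real.tanh T ∧ BB (Real.tanh T) = c := by
  have hch := Real.cosh_pos T
  have hsh : 0 < Real.sinh T := Real.sinh_pos_iff.2 hT0
  have hl : 0 < Real.log (2 * Real.cosh T) := by
    apply Real.log_pos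
    linarith [Real.one_le_cosh T]
  have hphi : Real.sinh T ^ 2 / c = Real.log (2 * Real.cosh T) := by
    rw [hT]; field_simp
  have hPQ : cuP c T + cuQ c T = 1 := by
    have e : cuP c T + cuQ c T = (2 * Real.cosh T) * Real.exp (-(Real.sinh T ^ 2 / c)) := by
      unfold cuP cuQ
      rw [Real.cosh_eq, show T - Real.sinh T ^ 2 / c = T + -(Real.sinh T ^ 2 / c) by ring,
        show -T - Real.sinh T ^ 2 / c = -T + -(Real.sinh T ^ 2 / c) by ring, Real.exp_add,
        Real.exp_add]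
      ring
    rw [e, hphi, Real.exp_neg, Real.exp_log (by positivity)]
    field_simp
  have hP1 : 1 - cuP c T = cuQ c T := by linarith
  have hQ1 : 1 - cuQ c T = cuP c T := by linarith
  have hlogP : Real.log (cuP c T) = T - Real.sinh T ^ 2 / c := Real.log_exp _
  have hlogQ : Real.log (cuQ c T) = -T - Real.sinh T ^ 2 / c := Real.log_exp _
  have hPQ2 := cu_PQ c T
  have hQP2 := cu_QP c T
  have e1 : Real.exp T * Real.exp (-T) = 1 := by rw [← Real.exp_add]; simp
  have hsq : 4 * Real.sinh T ^ 2 = cuP c T / cuQ c T + cuQ c T / cuP c T - 2 := by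
    rw [← hPQ2, ← hQP2, Real.sinh_eq]
    nlinarith [e1]
  have hBB : BB (Real.tanh T) = c := by
    rw [cu_BB T hT0, hT]; field_simp
  refine ⟨?_, ?_, ?_, hBB⟩
  · unfold cuC1
    rw [hP1, hQ1, hlogP, hlogQ]
    have h4 : -(c / 4) * (-T - Real.sinh T ^ 2 / c + (T - Real.sinh T ^ 2 / c))
        = Real.sinh T ^ 2 / 2 := by
      field_simp
      ring
    rw [h4, show cuP c T / cuQ c T + cuQ c T / cuP c T - 2 = 4 * Real.sinh T ^ 2 by rw [hsq]]
    ring
  · unfold cuC2 AA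
    rw [hP1, hQ1, hlogP, hlogQ, ← hPQ2, ← hQP2, hBB, L1_hh_tanh, L1_ath_tanh]
    have h5 : c * (Real.log (2 * Real.cosh T) - T * Real.tanh T) / Real.tanh T
        = Real.sinh T * Real.cosh T - c * T := by
      have h6 : c * (Real.log (2 * Real.cosh T) - T * Real.tanh T)
          = Real.sinh T ^ 2 - c * T * Real.tanh T := by rw [hT]; ring
      rw [h6, Real.tanh_eq_sinh_div_cosh]
      field_simp
    rw [h5]
    have h7 : Real.exp T ^ 2 - Real.exp (-T) ^ 2 = 4 * (Real.sinh T * Real.cosh T) := by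
      rw [Real.sinh_eq, Real.cosh_eq]; ring
    have h8 : Real.exp T ^ 2 - Real.exp (-T) ^ 2 + Real.exp T ^ 2 - Real.exp (-T) ^ 2
        = 8 * (Real.sinh T * Real.cosh T) := by linarith
    rw [h8]
    ring
  · unfold cuS
    rw [show 2 - cuP c T - cuQ c T = 1 by linarith, div_one]
    have e : cuP c T - cuQ c T = (2 * Real.sinh T) * Real.exp (-(Real.sinh T ^ 2 / c)) := by
      unfold cuP cuQ
      rw [Real.sinh_eq, show T - ((Real.exp T - Real.exp (-T)) / 2) ^ 2 / c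
          = T + -(((Real.exp T - Real.exp (-T)) / 2) ^ 2 / c) by ring,
        show -T - ((Real.exp T - Real.exp (-T)) / 2) ^ 2 / c
          = -T + -(((Real.exp T - Real.exp (-T)) / 2) ^ 2 / c) by ring, Real.exp_add,
        Real.exp_add]
      ring
    rw [e, hphi, Real.exp_neg, Real.exp_log (by positivity), Real.tanh_eq_sinh_div_cosh]
    field_simp

/-- `DD` in terms of `jj`, `hh` -/
theorem DD_jj (c : ℝ) {v w : ℝ} (hv : v ∈ Set.Ioo (-1 : ℝ) 1) (hw : w ∈ Set.Ioo (-1 : ℝ) 1) :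
    DD c ((1 - v) / 2) ((1 - w) / 2) = jj v w + c / 2 * (hh v + hh w) := by
  have h1 : 0 < (1 - v) / 2 := by linarith [hv.2]
  have h2 : 0 < (1 + v) / 2 := by linarith [hv.1]
  have h3 : 0 < (1 - w) / 2 := by linarith [hw.2]
  have h4 : 0 < (1 + w) / 2 := by linarith [hw.1]
  have ev : 1 - (1 - v) / 2 = (1 + v) / 2 := by ring
  have ew : 1 - (1 - w) / 2 = (1 + w) / 2 := by ring
  have hhn : ∀ u : ℝ, hh u = Hn ((1 - u) / 2) := by
    intro u
    unfold hh Hn
    rw [Real.binEntropy]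
    rw [show (1 : ℝ) - (1 + u) / 2 = (1 - u) / 2 by ring,
      show (1 : ℝ) - (1 - u) / 2 = (1 + u) / 2 by ring, Real.log_inv, Real.log_inv]
    ring
  have hath : ∀ u : ℝ, 0 < (1 - u) / 2 → 0 < (1 + u) / 2 →
      ath u = (Real.log ((1 + u) / 2) - Real.log ((1 - u) / 2)) / 2 := by
    intro u hu1 hu2
    unfold ath
    rw [← Real.log_div hu2.ne' hu1.ne']
    congr 2
    field_simp
  unfold DD jj
  rw [hhn v, hhn w, hath v h1 h2, hath w h3 h4, ev, ew]
  ring

theorem c3_diag {s : ℝ} (hs0 : 0 < s) (hs1 : s < 1) : c3 ((1 - s) / 2) ((1 + s) / 2) = BB s := by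
  unfold c3 BB cF ell
  have h1 : 0 < (1 - s) / 2 := by linarith
  have h2 : 0 < (1 + s) / 2 := by linarith
  have h3 : 0 < 1 - s ^ 2 := by nlinarith
  rw [show (1 : ℝ) - (1 - s) / 2 = (1 + s) / 2 by ring,
    show (1 : ℝ) - (1 + s) / 2 = (1 - s) / 2 by ring,
    show (1 + s) / 2 - (1 - s) / 2 = s by ring]
  have e : -Real.log ((1 + s) / 2) - Real.log ((1 - s) / 2)
      = 2 * (Real.log 2 - Real.log (1 - s ^ 2) / 2) := by
    have e1 : (1 + s) / 2 * ((1 - s) / 2) = (1 - s ^ 2) / 4 := by ring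
    have e2 : Real.log ((1 + s) / 2) + Real.log ((1 - s) / 2) = Real.log (1 - s ^ 2) - Real.log 4 := by
      rw [← Real.log_mul h2.ne' h1.ne', e1, Real.log_div h3.ne' (by norm_num)]
    have e3 : Real.log 4 = 2 * Real.log 2 := by
      rw [show (4 : ℝ) = 2 ^ 2 by norm_num, Real.log_pow]; push_cast; ring
    linarith
  rw [e]
  have hell : 0 < Real.log 2 - Real.log (1 - s ^ 2) / 2 := by
    have := L1_ell_pos hs0.le hs1
    unfold ell at this
    linarith
  have e4 : 2 * ((1 + s) / 2) * ((1 - s) / 2) * (2 * (Real.log 2 - Real.log (1 - s ^ 2) / 2))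
      = (1 - s ^ 2) * (Real.log 2 - Real.log (1 - s ^ 2) / 2) := by ring
  rw [e4]

/-- the two facts at the diagonal -/
theorem diag_le {x0 y0 : ℝ} (hx0 : 0 < x0) (hxy0 : x0 < y0) (h0 : x0 + y0 ≤ 1) {s : ℝ}
    (hs0 : 0 < s) (hs1 : s < 1) (hc3 : c3 ((1 - s) / 2) ((1 + s) / 2) ≤ c3 x0 y0) :
    cc1 (c3 x0 y0) x0 y0 + cc2 (c3 x0 y0) x0 y0 * s ≤
      DD (c3 x0 y0) ((1 - s) / 2) ((1 + s) / 2) := by
  obtain ⟨t0, ht0, hP, hQ, h2t⟩ := cu_of_xy hx0 hxy0 h0
  have hc := c3_pos hx0 hxy0 (by linarith : y0 < 1)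
  rw [c3_diag hs0 hs1] at hc3
  have hsI : s ∈ Set.Ioo (-1 : ℝ) 1 := ⟨by linarith, hs1⟩
  have hts : 0 < ath s := ath_pos hs0 hs1
  have hBs : Real.sinh (ath s) ^ 2 ≤ c3 x0 y0 * Real.log (2 * Real.cosh (ath s)) := by
    have h1 := cu_BB (ath s) hts
    rw [L1_tanh_ath hsI] at h1
    have hl : 0 < Real.log (2 * Real.cosh (ath s)) := by
      apply Real.log_pos
      linarith [Real.one_le_cosh (ath s)]
    rw [h1, div_le_iff₀ hl] at hc3
    exact hc3
  obtain ⟨T, hT0, hT1, hT⟩ := cu_exists_top hc ht0.1 hts ht0.2.2 hBs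
  have hTpos : 0 < T := ht0.1.trans_le hT0
  obtain ⟨v1, v2, v3, v4⟩ := cu_top_vals hc hTpos hT
  have hTT : cuT (c3 x0 y0) T := ⟨hTpos, cu_up ht0.1 hT0 ht0.2.1, hT.le⟩
  have hsT : s ≤ Real.tanh T := by
    rw [← L1_tanh_ath hsI]
    rw [Real.tanh_eq_sinh_div_cosh, Real.tanh_eq_sinh_div_cosh,
      div_le_div_iff₀ (Real.cosh_pos _) (Real.cosh_pos _)]
    have := Real.sinh_nonneg_iff.2 (show 0 ≤ T - ath s by linarith)
    rw [Real.sinh_sub] at this
    linarith
  have h3 := cu_psi_up hc ht0 hTT hT0 (σ := s) (by rw [v3]; exact hsT)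
  rw [v1, v2, cuC1_eq hP hQ, cuC2_eq hP hQ h2t] at h3
  have hTI : Real.tanh T ∈ Set.Ioo (0 : ℝ) 1 := ⟨hs0.trans_le hsT, (L1_tanh_mem T).2⟩
  have hns : -s ∈ Set.Ioo (-1 : ℝ) 1 := ⟨by linarith, by linarith⟩
  have h4 := L1 hsI hns hTI
  rw [hh_neg, v4] at h4
  have h5 := DD_jj (c3 x0 y0) hsI hns
  rw [hh_neg, show (1 - -s) / 2 = (1 + s) / 2 by ring] at h5
  rw [h5]
  linarith

theorem cc1_nonpos {x0 y0 : ℝ} (hx0 : 0 < x0) (hxy0 : x0 < y0) (h0 : x0 + y0 ≤ 1) :
    cc1 (c3 x0 y0) x0 y0 ≤ 0 := by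
  obtain ⟨t0, ht0, hP, hQ, h2t⟩ := cu_of_xy hx0 hxy0 h0
  have hc := c3_pos hx0 hxy0 (by linarith : y0 < 1)
  obtain ⟨T, hT0, hT1, hT⟩ := cu_exists_top hc ht0.1 ht0.1 ht0.2.2 ht0.2.2
  have hTpos : 0 < T := ht0.1.trans_le hT0
  obtain ⟨v1, v2, v3, v4⟩ := cu_top_vals hc hTpos hT
  have hTT : cuT (c3 x0 y0) T := ⟨hTpos, cu_up ht0.1 hT0 ht0.2.1, hT.le⟩
  have htanh : 0 ≤ Real.tanh T := by
    rw [Real.tanh_eq_sinh_div_cosh]
    exact (div_pos (Real.sinh_pos_iff.2 hTpos) (Real.cosh_pos T)).le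
  have h3 := cu_psi_up hc ht0 hTT hT0 (σ := 0) (by rw [v3]; exact htanh)
  rw [v1, cuC1_eq hP hQ] at h3
  linarith


theorem cc2_nonneg {x0 y0 : ℝ} (hx0 : 0 < x0) (hxy0 : x0 < y0) (h0 : x0 + y0 ≤ 1) :
    0 ≤ cc2 (c3 x0 y0) x0 y0 := by
  have h1 := cc1_nonpos hx0 hxy0 h0
  have h2 := DD_eq hx0 (by linarith) (by linarith) (show y0 < 1 by linarith)
  have hc := c3_pos hx0 hxy0 (by linarith : y0 < 1)
  have hv : 1 - 2 * x0 ∈ Set.Ioo (-1 : ℝ) 1 := ⟨by linarith, by linarith⟩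
  have hw : 1 - 2 * y0 ∈ Set.Ioo (-1 : ℝ) 1 := ⟨by linarith, by linarith⟩
  have h3 := DD_jj (c3 x0 y0) hv hw
  rw [show (1 - (1 - 2 * x0)) / 2 = x0 by ring, show (1 - (1 - 2 * y0)) / 2 = y0 by ring] at h3
  have hhv := hh_pos hv
  have hhw := hh_pos hw
  have hj : 0 ≤ jj (1 - 2 * x0) (1 - 2 * y0) := by
    have h4 : ath (1 - 2 * y0) ≤ ath (1 - 2 * x0) := by
      unfold ath
      apply div_le_div_of_nonneg_right _ (by norm_num)
      apply Real.log_le_log
      · apply div_pos <;> linarith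
      · rw [div_le_div_iff₀ (by linarith) (by linarith)]
        nlinarith
    unfold jj
    have : 0 ≤ ath (1 - 2 * x0) - ath (1 - 2 * y0) := by linarith
    have h5 : 0 ≤ (1 - 2 * x0) - (1 - 2 * y0) := by linarith
    positivity
  have h6 : 0 ≤ DD (c3 x0 y0) x0 y0 := by
    rw [h3]; positivity
  rw [h2] at h6
  have h7 : 0 ≤ cc2 (c3 x0 y0) x0 y0 * (y0 - x0) := by
    have : cc1 (c3 x0 y0) x0 y0 * (x0 + y0) ≤ 0 :=
      mul_nonpos_of_nonpos_of_nonneg h1 (by linarith)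
    linarith
  exact nonneg_of_mul_nonneg_left h7 (by linarith)

theorem DD_swap (c x y : ℝ) : DD c x y = DD c y x := by
  unfold DD; ring

theorem DD_refl (c x y : ℝ) : DD c (1 - y) (1 - x) = DD c x y := by
  unfold DD Hn
  rw [show (1 : ℝ) - (1 - y) = y by ring, show (1 : ℝ) - (1 - x) = x by ring]
  ring

/-- the corner bound, pointwise -/
theorem corner_pt {x0 y0 : ℝ} (hx0 : 0 < x0) (hxy0 : x0 < y0) (h0 : x0 + y0 ≤ 1) {x y : ℝ}
    (hx : 0 < x) (hx1 : x < 1) (hy : 0 < y) (hy1 : y < 1) :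
    cc1 (c3 x0 y0) x0 y0 * (x + y) + cc2 (c3 x0 y0) x0 y0 * (y - x) ≤ DD (c3 x0 y0) x y := by
  have hc := c3_pos hx0 hxy0 (by linarith : y0 < 1)
  have h1 := cc1_nonpos hx0 hxy0 h0
  have h2 := cc2_nonneg hx0 hxy0 h0
  -- the main region
  have main : ∀ x y : ℝ, 0 < x → x < y → x + y ≤ 1 →
      cc1 (c3 x0 y0) x0 y0 * (x + y) + cc2 (c3 x0 y0) x0 y0 * (y - x) ≤ DD (c3 x0 y0) x y := by
    intro x y hx hxy hs
    exact ray_min hc (fun x y a b d e => curve_le hx0 hxy0 h0 a b d e)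
      (fun s a b d => diag_le hx0 hxy0 h0 a b d) hx hxy hs
  have half : ∀ x y : ℝ, 0 < x → x < y → y < 1 →
      cc1 (c3 x0 y0) x0 y0 * (x + y) + cc2 (c3 x0 y0) x0 y0 * (y - x) ≤ DD (c3 x0 y0) x y := by
    intro x y hx hxy hy1
    rcases le_total (x + y) 1 with h | h
    · exact main x y hx hxy h
    · have h3 := main (1 - y) (1 - x) (by linarith) (by linarith) (by linarith)
      rw [DD_refl] at h3
      refine le_trans ?_ h3
      have h4 : cc1 (c3 x0 y0) x0 y0 * (x + y) ≤ cc1 (c3 x0 y0) x0 y0 * (1 - y + (1 - x)) :=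
        mul_le_mul_of_nonpos_left (by linarith) h1
      have h5 : (1 - x - (1 - y)) = y - x := by ring
      rw [h5]
      linarith
  rcases lt_trichotomy x y with h | h | h
  · exact half x y hx h hy1
  · subst h
    have hv : 1 - 2 * x ∈ Set.Ioo (-1 : ℝ) 1 := ⟨by linarith, by linarith⟩
    have h3 := DD_jj (c3 x0 y0) hv hv
    rw [show (1 - (1 - 2 * x)) / 2 = x by ring] at h3
    have hhv := hh_pos hv
    have hj : jj (1 - 2 * x) (1 - 2 * x) = 0 := by unfold jj; ring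
    rw [h3, hj, sub_self, mul_zero, add_zero, zero_add]
    have h4 : cc1 (c3 x0 y0) x0 y0 * (x + x) ≤ 0 :=
      mul_nonpos_of_nonpos_of_nonneg h1 (by linarith)
    have h5 : 0 ≤ c3 x0 y0 / 2 * (hh (1 - 2 * x) + hh (1 - 2 * x)) := by positivity
    linarith
  · have h3 := half y x hy h hx1
    rw [DD_swap]
    refine le_trans ?_ h3
    have h4 : cc2 (c3 x0 y0) x0 y0 * (y - x) ≤ cc2 (c3 x0 y0) x0 y0 * (x - y) :=
      mul_le_mul_of_nonneg_left (by linarith) h2
    have h5 : x + y = y + x := add_comm x y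
    rw [h5]
    linarith

theorem corner_av_lin {n : ℕ} (A B C : ℝ) (v w p q r : (Fin n → Bool) → ℝ)
    (h : ∀ x, A * (1 - (v x + w x) / 2) + B * ((v x - w x) / 2) ≤ r x + C / 2 * (p x + q x)) :
    A * (1 - (av v + av w) / 2) + B * ((av v - av w) / 2) ≤ av r + C / 2 * (av p + av q) := by
  have h1 : av (fun x => A * (1 - (v x + w x) / 2) + B * ((v x - w x) / 2))
      ≤ av (fun x => r x + C / 2 * (p x + q x)) := av_mono' h
  have e1 : av (fun x => A * (1 - (v x + w x) / 2) + B * ((v x - w x) / 2))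
      = A * (1 - (av v + av w) / 2) + B * ((av v - av w) / 2) := by
    have e : (fun x => A * (1 - (v x + w x) / 2) + B * ((v x - w x) / 2))
        = fun x => A + ((B - A) / 2) * v x - ((A + B) / 2) * w x := by
      funext x; ring
    rw [e]
    unfold av
    rw [Finset.sum_sub_distrib, Finset.sum_add_distrib, ← Finset.mul_sum, ← Finset.mul_sum,
      Finset.sum_const, Finset.card_univ, Fintype.card_pi_const, Fintype.card_bool,
      nsmul_eq_mul]
    push_cast
    have : (2 : ℝ) ^ n ≠ 0 := by positivity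
    field_simp
    ring
  have e2 : av (fun x => r x + C / 2 * (p x + q x)) = av r + C / 2 * (av p + av q) := by
    have e : (fun x => r x + C / 2 * (p x + q x))
        = fun x => r x + ((C / 2) * p x + (C / 2) * q x) := by
      funext x; ring
    rw [e]
    unfold av
    rw [Finset.sum_add_distrib, Finset.sum_add_distrib, ← Finset.mul_sum, ← Finset.mul_sum]
    ring
  rw [e1, e2] at h1
  exact h1

/-- the corner bound: if `(av v, av w, av h(v) + av h(w)) = (1-r)(1,1,0) + r (a, b, h(a)+h(b))`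
with `a > b`, `a + b ≥ 0`, then `av j(v,w) ≥ r j(a,b)`. -/
theorem corner_av {n : ℕ} (v w : (Fin n → Bool) → ℝ) (hv : InI v) (hw : InI w) {a b r : ℝ}
    (ha : a < 1) (hb : -1 < b) (hba : b < a) (hab : 0 ≤ a + b)
    (h1 : 1 - av v = r * (1 - a)) (h2 : 1 - av w = r * (1 - b))
    (h3 : av (fun x => hh (v x)) + av (fun x => hh (w x)) = r * (hh a + hh b)) :
    r * jj a b ≤ av (fun x => jj (v x) (w x)) := by
  have hx0 : 0 < (1 - a) / 2 := by linarith
  have hxy0 : (1 - a) / 2 < (1 - b) / 2 := by linarith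
  have h0 : (1 - a) / 2 + (1 - b) / 2 ≤ 1 := by linarith
  have haI : a ∈ Set.Ioo (-1 : ℝ) 1 := ⟨by linarith, ha⟩
  have hbI : b ∈ Set.Ioo (-1 : ℝ) 1 := ⟨hb, by linarith⟩
  set c := c3 ((1 - a) / 2) ((1 - b) / 2) with hc
  set A := cc1 c ((1 - a) / 2) ((1 - b) / 2) with hA
  set B := cc2 c ((1 - a) / 2) ((1 - b) / 2) with hB
  have hpt : ∀ x, A * (1 - (v x + w x) / 2) + B * ((v x - w x) / 2)
      ≤ jj (v x) (w x) + c / 2 * (hh (v x) + hh (w x)) := by
    intro x
    have hvx := hv x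
    have hwx := hw x
    have h := corner_pt hx0 hxy0 h0 (x := (1 - v x) / 2) (y := (1 - w x) / 2)
      (by linarith [hvx.2]) (by linarith [hvx.1]) (by linarith [hwx.2]) (by linarith [hwx.1])
    rw [← hc, ← hA, ← hB, DD_jj c hvx hwx] at h
    have e1 : (1 - v x) / 2 + (1 - w x) / 2 = 1 - (v x + w x) / 2 := by ring
    have e2 : (1 - w x) / 2 - (1 - v x) / 2 = (v x - w x) / 2 := by ring
    rw [e1, e2] at h
    exact h
  have hav := corner_av_lin A B c v w (fun x => hh (v x)) (fun x => hh (w x))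
    (fun x => jj (v x) (w x)) hpt
  have hD := DD_eq hx0 (by linarith) (show 0 < (1 - b) / 2 by linarith)
    (show (1 - b) / 2 < 1 by linarith)
  rw [← hc, ← hA, ← hB, DD_jj c haI hbI] at hD
  have e3 : 1 - (av v + av w) / 2 = r * ((1 - a) / 2 + (1 - b) / 2) := by
    linarith
  have e4 : (av v - av w) / 2 = r * ((1 - b) / 2 - (1 - a) / 2) := by
    linarith
  rw [e3, e4, h3] at hav
  have e5 : A * (r * ((1 - a) / 2 + (1 - b) / 2)) + B * (r * ((1 - b) / 2 - (1 - a) / 2))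
      = r * (A * ((1 - a) / 2 + (1 - b) / 2) + B * ((1 - b) / 2 - (1 - a) / 2)) := by ring
  rw [e5, ← hD] at hav
  linarith

end P322
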