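import Vale.Agent.P322.GenAv

/-! P322: the four black boxes of the one-step inequality with weight `1 - m²`. -/
namespace P322

/-- left side of the one-step inequality, weight `1 - m²` -/
noncomputable def EF (m d H : ℝ) : ℝ :=
  2 * (hh m - (hh (m + d) + hh (m - d)) / 2) + (1 - m ^ 2) * RR (H / (1 - m ^ 2))
    - (1 - m ^ 2 - d ^ 2) * RR (H / (1 - m ^ 2 - d ^ 2))

/-- RAY: `EF/(1-m)` is nonincreasing along rays from the corner `(1,0,0)` -/
def RayProp : Prop := ∀ μ m d H : ℝ, 0 ≤ μ → μ ≤ m → 0 < d → m + d < 1 → 0 < H →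
  EF m d H ≤ (1 - m) / (1 - μ) * EF μ (d * (1 - μ) / (1 - m)) (H * (1 - μ) / (1 - m))

/-- SCALING: the case `m = 0` -/
def Scal0Prop : Prop := ∀ d H s : ℝ, 0 < d → d < 1 → 0 < H → H ≤ hh d → s ∈ Set.Ioo (0 : ℝ) 1 →
  hh s * d = s * H → EF 0 d H ≤ d * ath s

/-- E1: the case of constants -/
def E1Prop : Prop := ∀ m d : ℝ, 0 ≤ m → 0 < d → m + d < 1 →
  2 * (hh m - (hh (m + d) + hh (m - d)) / 2)
    + (1 - m ^ 2) * RR ((hh (m + d) + hh (m - d)) / 2 / (1 - m ^ 2)) ≤ jj (m + d) (m - d)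

/-- CORNER: lower bound for the average energy in region III -/
def CornerProp : Prop := ∀ (n : ℕ) (v w : (Fin n → Bool) → ℝ), InI v → InI w →
  ∀ μ δ r : ℝ, 0 ≤ μ → 0 < δ → μ + δ < 1 → 0 < r → r ≤ 1 →
    av v = 1 - r * (1 - μ) + r * δ → av w = 1 - r * (1 - μ) - r * δ →
    (av (fun x => hh (v x)) + av (fun x => hh (w x))) / 2 = r * ((hh (μ + δ) + hh (μ - δ)) / 2) →
    r * jj (μ + δ) (μ - δ) ≤ av (fun x => jj (v x) (w x))

end P322
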