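import Vale.Agent.P322.CornerDefs
import Vale.Agent.P322.T1Defs

/-! P322: from the pointwise corner inequality to the averaged one. -/
namespace P322

/-- the pointwise corner inequality: the tangent plane at a point with `c = c₃` lies below -/
def PlaneProp : Prop := ∀ x0 y0 : ℝ, 0 < x0 → x0 < y0 → x0 + y0 ≤ 1 →
  ∀ x y : ℝ, 0 < x → x < 1 → 0 < y → y < 1 →
    cc1 (c3 x0 y0) x0 y0 * (x + y) + cc2 (c3 x0 y0) x0 y0 * (y - x) ≤ DD (c3 x0 y0) x y

theorem cav_cF_pos {x y : ℝ} (hx : 0 < x) (hx1 : x < 1) (hy : 0 < y) (hy1 : y < 1) :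
    0 < cF x y := by
  unfold cF
  have h1 : Real.log (1 - x) < 0 := Real.log_neg (by linarith) (by linarith)
  have h2 : Real.log (1 - y) < 0 := Real.log_neg (by linarith) (by linarith)
  linarith

theorem cav_touch_alg {x y lx ly p q : ℝ} (hx : x ≠ 0) (hy : y ≠ 0) (hx1 : 1 - x ≠ 0)
    (hy1 : 1 - y ≠ 0) {c : ℝ}
    (hc : (y - x) ^ 2 / ((1 - x) * (1 - y)) / 8 + c / 4 * (p + q) = 0) :
    (-(c / 4) * (lx + ly) - (y / x + x / y - 2) / 8) * (x + y)
      + ((1 - c) / 4 * (p - q + ly - lx)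
    + ((1 - x) / (1 - y) - (1 - y) / (1 - x) + y / x - x / y) / 8) * (y - x)
    = (y - x) * (p - q + ly - lx) / 4
    + c / 2 * ((-(x * lx) - (1 - x) * p) + (-(y * ly) - (1 - y) * q)) := by
  have e1 : -((y / x + x / y - 2) / 8) * (x + y)
      + (((1 - x) / (1 - y) - (1 - y) / (1 - x) + y / x - x / y) / 8) * (y - x)
      = (2 - x - y) * ((y - x) ^ 2 / ((1 - x) * (1 - y)) / 8) := by
    field_simp
    ring
  have e2 : (y - x) ^ 2 / ((1 - x) * (1 - y)) / 8 = -(c / 4 * (p + q)) := by linarith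
  rw [e2] at e1
  linear_combination e1

/-- the plane touches -/
theorem cav_touch {x y : ℝ} (hx : 0 < x) (hx1 : x < 1) (hy : 0 < y) (hy1 : y < 1) :
    cc1 (c3 x y) x y * (x + y) + cc2 (c3 x y) x y * (y - x) = DD (c3 x y) x y := by
  have hF := cav_cF_pos hx hx1 hy hy1
  have h1 : 1 - x ≠ 0 := by linarith
  have h2 : 1 - y ≠ 0 := by linarith
  have hc : (y - x) ^ 2 / ((1 - x) * (1 - y)) / 8
      + c3 x y / 4 * (Real.log (1 - x) + Real.log (1 - y)) = 0 := by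
    have e : Real.log (1 - x) + Real.log (1 - y) = -cF x y := by unfold cF; ring
    rw [e]
    unfold c3
    have := hF.ne'
    field_simp
    ring
  exact cav_touch_alg hx.ne' hy.ne' h1 h2 hc

theorem cav_DD_eq {c v w : ℝ} (hv : v ∈ Set.Ioo (-1 : ℝ) 1) (hw : w ∈ Set.Ioo (-1 : ℝ) 1) :
    DD c ((1 - v) / 2) ((1 - w) / 2) = jj v w + c / 2 * (hh v + hh w) := by
  have hv1 : 0 < 1 - v := by linarith [hv.2]
  have hv2 : 0 < 1 + v := by linarith [hv.1]
  have hw1 : 0 < 1 - w := by linarith [hw.2]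
  have hw2 : 0 < 1 + w := by linarith [hw.1]
  have eH : ∀ u ∈ Set.Ioo (-1 : ℝ) 1, Hn ((1 - u) / 2) = hh u := by
    intro u hu
    unfold Hn hh Real.binEntropy
    have e1 : (1 : ℝ) - (1 - u) / 2 = (1 + u) / 2 := by ring
    have e2 : (1 : ℝ) - (1 + u) / 2 = (1 - u) / 2 := by ring
    rw [e1, e2, Real.log_inv, Real.log_inv]
    ring
  unfold DD
  rw [eH v hv, eH w hw]
  have e1 : (1 : ℝ) - (1 - v) / 2 = (1 + v) / 2 := by ring
  have e2 : (1 : ℝ) - (1 - w) / 2 = (1 + w) / 2 := by ring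
  have ev : Real.log ((1 + v) / 2) - Real.log ((1 - v) / 2) = 2 * ath v := by
    unfold ath
    rw [Real.log_div hv2.ne' two_ne_zero, Real.log_div hv1.ne' two_ne_zero,
      Real.log_div hv2.ne' hv1.ne']
    ring
  have ew : Real.log ((1 + w) / 2) - Real.log ((1 - w) / 2) = 2 * ath w := by
    unfold ath
    rw [Real.log_div hw2.ne' two_ne_zero, Real.log_div hw1.ne' two_ne_zero,
      Real.log_div hw2.ne' hw1.ne']
    ring
  rw [e1, e2]
  have e3 : Real.log ((1 + v) / 2) - Real.log ((1 + w) / 2) + Real.log ((1 - w) / 2)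
      - Real.log ((1 - v) / 2) = 2 * ath v - 2 * ath w := by
    rw [← ev, ← ew]; ring
  rw [e3]
  unfold jj
  ring

theorem cav_av_lin {n : ℕ} (A B C : ℝ) (v w p q : (Fin n → Bool) → ℝ) :
    av (fun x => A * ((1 - v x) / 2 + (1 - w x) / 2) + B * ((1 - w x) / 2 - (1 - v x) / 2)
        - C / 2 * (p x + q x))
      = A * (1 - (av v + av w) / 2) + B * ((av v - av w) / 2) - C * ((av p + av q) / 2) := by
  have h2 : (2 : ℝ) ^ n ≠ 0 := by positivity
  have e : (fun x => A * ((1 - v x) / 2 + (1 - w x) / 2) + B * ((1 - w x) / 2 - (1 - v x) / 2)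
        - C / 2 * (p x + q x))
      = fun x => ((A + (B - A) / 2 * v x) - ((A + B) / 2 * w x)) - (C / 2 * p x + C / 2 * q x) := by
    funext x; ring
  rw [e]
  unfold av
  rw [Finset.sum_sub_distrib, Finset.sum_sub_distrib, Finset.sum_add_distrib,
    Finset.sum_add_distrib, ← Finset.mul_sum, ← Finset.mul_sum, ← Finset.mul_sum,
    ← Finset.mul_sum, Finset.sum_const, Finset.card_univ, Fintype.card_fun, Fintype.card_bool,
    Fintype.card_fin, nsmul_eq_mul, Nat.cast_pow, Nat.cast_ofNat]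
  field_simp
  ring

theorem CornerProp_of_plane (hP : PlaneProp) : CornerProp := by
  intro n v w hv hw μ δ r hμ hδ hμδ hr hr1 hav haw hH
  set x0 : ℝ := (1 - (μ + δ)) / 2 with hx0
  set y0 : ℝ := (1 - (μ - δ)) / 2 with hy0
  have h1 : 0 < x0 := by rw [hx0]; linarith
  have h2 : x0 < y0 := by rw [hx0, hy0]; linarith
  have h3 : x0 + y0 ≤ 1 := by rw [hx0, hy0]; linarith
  have h4 : x0 < 1 := by linarith
  have h5 : y0 < 1 := by linarith
  have h6 : 0 < y0 := by linarith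
  have hmem1 : μ + δ ∈ Set.Ioo (-1 : ℝ) 1 := ⟨by linarith, hμδ⟩
  have hmem2 : μ - δ ∈ Set.Ioo (-1 : ℝ) 1 := ⟨by linarith, by linarith⟩
  have htouch := cav_touch h1 h4 h6 h5
  have hDD := cav_DD_eq (c := c3 x0 y0) hmem1 hmem2
  rw [← hx0, ← hy0] at hDD
  rw [hDD] at htouch
  have hpt : ∀ z, cc1 (c3 x0 y0) x0 y0 * ((1 - v z) / 2 + (1 - w z) / 2)
      + cc2 (c3 x0 y0) x0 y0 * ((1 - w z) / 2 - (1 - v z) / 2)
      - c3 x0 y0 / 2 * (hh (v z) + hh (w z)) ≤ jj (v z) (w z) := by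
    intro z
    have hz := hP x0 y0 h1 h2 h3 ((1 - v z) / 2) ((1 - w z) / 2)
      (by linarith [(hv z).2]) (by linarith [(hv z).1]) (by linarith [(hw z).2])
      (by linarith [(hw z).1])
    rw [cav_DD_eq (hv z) (hw z)] at hz
    linarith
  have havg := av_mono' hpt
  rw [cav_av_lin, hH, hav, haw] at havg
  have e1 : 1 - (1 - r * (1 - μ) + r * δ + (1 - r * (1 - μ) - r * δ)) / 2 = r * (x0 + y0) := by
    rw [hx0, hy0]; ring
  have e2 : (1 - r * (1 - μ) + r * δ - (1 - r * (1 - μ) - r * δ)) / 2 = r * (y0 - x0) := by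
    rw [hx0, hy0]; ring
  rw [e1, e2] at havg
  have e3 : cc1 (c3 x0 y0) x0 y0 * (r * (x0 + y0)) + cc2 (c3 x0 y0) x0 y0 * (r * (y0 - x0))
      = r * (jj (μ + δ) (μ - δ) + c3 x0 y0 / 2 * (hh (μ + δ) + hh (μ - δ))) := by
    rw [← htouch]; ring
  rw [e3] at havg
  linarith

end P322
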