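import Vale.Agent.P322.CornerDefs

/-! P322: the corner bound, curve part -/

namespace P322

/-- `1 - x` along the curve `c₃ = c` -/
noncomputable def cuP (c t : ℝ) : ℝ := Real.exp (t - Real.sinh t ^ 2 / c)
/-- `1 - y` along the curve `c₃ = c` -/
noncomputable def cuQ (c t : ℝ) : ℝ := Real.exp (-t - Real.sinh t ^ 2 / c)
/-- derivative of `sinh² t / c` -/
noncomputable def cuK (c t : ℝ) : ℝ := (Real.exp t ^ 2 - (Real.exp (-t)) ^ 2) / (2 * c)

noncomputable def cuC1 (c t : ℝ) : ℝ :=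
  -(c / 4) * (Real.log (1 - cuP c t) + Real.log (1 - cuQ c t))
    - ((1 - cuQ c t) / (1 - cuP c t) + (1 - cuP c t) / (1 - cuQ c t) - 2) / 8

noncomputable def cuC2 (c t : ℝ) : ℝ :=
  (1 - c) / 4 * (2 * t + Real.log (1 - cuQ c t) - Real.log (1 - cuP c t))
    + (Real.exp t ^ 2 - Real.exp (-t) ^ 2 + (1 - cuQ c t) / (1 - cuP c t)
      - (1 - cuP c t) / (1 - cuQ c t)) / 8

/-- the direction `σ` -/
noncomputable def cuS (c t : ℝ) : ℝ := (cuP c t - cuQ c t) / (2 - cuP c t - cuQ c t)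

theorem cu_hasDerivAt_phi (c t : ℝ) : HasDerivAt (fun t => Real.sinh t ^ 2 / c) (cuK c t) t := by
  have h := ((Real.hasDerivAt_sinh t).pow 2).div_const c
  refine h.congr_deriv ?_
  unfold cuK
  rw [Real.sinh_eq, Real.cosh_eq]
  push_cast
  have e1 : Real.exp (-t) = (Real.exp t)⁻¹ := Real.exp_neg t
  rw [e1]
  have e0 := Real.exp_ne_zero t
  rcases eq_or_ne c 0 with hc | hc
  · simp [hc]
  · field_simp
    ring

theorem cu_hasDerivAt_P (c t : ℝ) : HasDerivAt (cuP c) (cuP c t * (1 - cuK c t)) t := by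
  have h := ((hasDerivAt_id' t).sub (cu_hasDerivAt_phi c t)).exp
  exact h

theorem cu_hasDerivAt_Q (c t : ℝ) : HasDerivAt (cuQ c) (cuQ c t * (-1 - cuK c t)) t := by
  have h := ((hasDerivAt_id' t).neg.sub (cu_hasDerivAt_phi c t)).exp
  exact h

/-- the value of the derivative of `cuC2` -/
noncomputable def cuD2 (c t : ℝ) : ℝ :=
  (1 - c) / 4 * (2 + cuQ c t * (1 + cuK c t) / (1 - cuQ c t)
      - cuP c t * (cuK c t - 1) / (1 - cuP c t))
    + (2 * Real.exp t ^ 2 + 2 * Real.exp (-t) ^ 2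
      + (cuQ c t * (1 + cuK c t) * (1 - cuP c t) - (1 - cuQ c t) * (cuP c t * (cuK c t - 1)))
          / (1 - cuP c t) ^ 2
      - (cuP c t * (cuK c t - 1) * (1 - cuQ c t) - (1 - cuP c t) * (cuQ c t * (1 + cuK c t)))
          / (1 - cuQ c t) ^ 2) / 8

theorem cu_hasDerivAt_C2 {c t : ℝ} (hP : cuP c t < 1) (hQ : cuQ c t < 1) :
    HasDerivAt (cuC2 c) (cuD2 c t) t := by
  have dP := (cu_hasDerivAt_P c t).const_sub 1
  have dQ := (cu_hasDerivAt_Q c t).const_sub 1
  have nP : (1 - cuP c t) ≠ 0 := by linarith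
  have nQ : (1 - cuQ c t) ≠ 0 := by linarith
  have lP := dP.log nP
  have lQ := dQ.log nQ
  have e1 : HasDerivAt (fun t => Real.exp t ^ 2) (2 * Real.exp t ^ 2) t := by
    refine ((Real.hasDerivAt_exp t).pow 2).congr_deriv ?_
    push_cast; ring
  have e2 : HasDerivAt (fun t => Real.exp (-t) ^ 2) (-(2 * Real.exp (-t) ^ 2)) t := by
    have h0 : HasDerivAt (fun t : ℝ => Real.exp (-t)) (Real.exp (-t) * -1) t :=
      (hasDerivAt_neg' t).exp
    refine (h0.pow 2).congr_deriv ?_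
    push_cast; ring
  have h1 := (((hasDerivAt_id' t).const_mul 2).add lQ).sub lP
  have h2 := ((e1.sub e2).add (dQ.div dP nP)).sub (dP.div dQ nQ)
  have h3 := (h1.const_mul ((1 - c) / 4)).add (h2.div_const 8)
  refine h3.congr_deriv ?_
  unfold cuD2
  field_simp
  ring

theorem cu_PQ (c t : ℝ) : Real.exp t ^ 2 = cuP c t / cuQ c t := by
  unfold cuP cuQ
  rw [← Real.exp_sub, ← Real.exp_nat_mul]
  congr 1
  push_cast; ring

theorem cu_QP (c t : ℝ) : Real.exp (-t) ^ 2 = cuQ c t / cuP c t := by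
  unfold cuP cuQ
  rw [← Real.exp_sub, ← Real.exp_nat_mul]
  congr 1
  push_cast; ring

theorem cu_alg1 (P Q A B c k : ℝ) (hA : A = 1 - P) (hB : B = 1 - Q) (nP : P ≠ 0) (nQ : Q ≠ 0)
    (nA : A ≠ 0) (nB : B ≠ 0) (nc : c ≠ 0) (nS : A + B ≠ 0) (hk : k = (P / Q - Q / P) / (2 * c)) :
    -(c / 4) * (P * (k - 1) / A + Q * (1 + k) / B)
      - ((Q * (1 + k) * A - B * (P * (k - 1))) / A ^ 2
        + (P * (k - 1) * B - A * (Q * (1 + k))) / B ^ 2) / 8 =
    -((P - Q) / (A + B) * ((1 - c) / 4 * (2 + Q * (1 + k) / B - P * (k - 1) / A)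
    + (2 * (P / Q) + 2 * (Q / P)
      + (Q * (1 + k) * A - B * (P * (k - 1))) / A ^ 2
      - (P * (k - 1) * B - A * (Q * (1 + k))) / B ^ 2) / 8)) := by
  rw [hk]
  field_simp
  subst hA hB
  ring

theorem cu_hasDerivAt_C1 {c t : ℝ} (hc : 0 < c) (hP : cuP c t < 1) (hQ : cuQ c t < 1) :
    HasDerivAt (cuC1 c) (-(cuS c t * cuD2 c t)) t := by
  have dP := (cu_hasDerivAt_P c t).const_sub 1
  have dQ := (cu_hasDerivAt_Q c t).const_sub 1
  have nP : (1 - cuP c t) ≠ 0 := by linarith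
  have nQ : (1 - cuQ c t) ≠ 0 := by linarith
  have nS : (1 - cuP c t + (1 - cuQ c t)) ≠ 0 := by linarith
  have lP := dP.log nP
  have lQ := dQ.log nQ
  have h1 := lP.add lQ
  have h2 := ((dQ.div dP nP).add (dP.div dQ nQ)).sub_const 2
  have h3 := (h1.const_mul (-(c / 4))).sub (h2.div_const 8)
  refine h3.congr_deriv ?_
  have h0 := cu_alg1 (cuP c t) (cuQ c t) (1 - cuP c t) (1 - cuQ c t) c (cuK c t) rfl rfl
    (Real.exp_ne_zero _) (Real.exp_ne_zero _) nP nQ hc.ne' nS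
    (by unfold cuK; rw [cu_PQ c t, cu_QP c t])
  unfold cuS cuD2
  rw [cu_PQ c t, cu_QP c t]
  rw [show 2 - cuP c t - cuQ c t = 1 - cuP c t + (1 - cuQ c t) by ring, ← h0]
  generalize cuP c t = P
  generalize cuQ c t = Q
  ring

/-- the sign of `cuD2` -/
theorem cu_alg2 (P Q A B c k F : ℝ) (hA : A = 1 - P) (hB : B = 1 - Q) (nP : P ≠ 0) (nQ : Q ≠ 0)
    (nA : A ≠ 0) (nB : B ≠ 0) (nF : F ≠ 0) (nD : P - Q ≠ 0)
    (hc : c = (P - Q) ^ 2 / (2 * P * Q * F)) (hk : k = F * (P + Q) / (P - Q)) :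
    (1 - c) / 4 * (2 + Q * (1 + k) / B - P * (k - 1) / A)
    + (2 * (P / Q) + 2 * (Q / P)
      + (Q * (1 + k) * A - B * (P * (k - 1))) / A ^ 2
      - (P * (k - 1) * B - A * (Q * (1 + k))) / B ^ 2) / 8 =
    -((A + B) * ((P + Q) * (A + B) * (P * Q) * F ^ 2
      - (P * B + Q * A) * (P * A + Q * B) * F + (P - Q) ^ 2 * (A * B)))
        / (8 * (P * Q) * F * (A * B) ^ 2) := by
  rw [hk, hc]
  field_simp
  subst hA hB
  ring

theorem cu_sign {P Q F : ℝ} (hQ : 0 < Q) (hQP : Q < P) (hP : P < 1) (hs : 1 ≤ P + Q)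
    (hF : (1 - P) + (1 - Q) ≤ F) :
    0 ≤ (P + Q) * ((1 - P) + (1 - Q)) * (P * Q) * F ^ 2
      - (P * (1 - Q) + Q * (1 - P)) * (P * (1 - P) + Q * (1 - Q)) * F
      + (P - Q) ^ 2 * ((1 - P) * (1 - Q)) := by
  have hP0 : 0 < P := hQ.trans hQP
  have hA : 0 < 1 - P := by linarith
  have hB : 0 < 1 - Q := by linarith
  have hF0 : (1 - Q) / P ≤ F := by
    refine le_trans ?_ hF
    rw [div_le_iff₀ hP0]
    nlinarith [mul_nonneg hA.le (show 0 ≤ P + Q - 1 by linarith)]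
  have hqp : 0 ≤ Q * (1 - Q) - P * (1 - P) := by
    nlinarith [mul_nonneg (show 0 ≤ P - Q by linarith) (show 0 ≤ P + Q - 1 by linarith)]
  set F0 := (1 - Q) / P with hF0d
  have hPF0 : P * F0 = 1 - Q := by rw [hF0d]; field_simp
  have hF00 : 0 < F0 := div_pos hB hP0
  set a := (P + Q) * ((1 - P) + (1 - Q)) * (P * Q) with ha
  set b := (P * (1 - Q) + Q * (1 - P)) * (P * (1 - P) + Q * (1 - Q)) with hb
  have ha0 : 0 < a := by positivity
  -- value at F0
  have hv : 0 ≤ P * (a * F0 ^ 2 - b * F0 + (P - Q) ^ 2 * ((1 - P) * (1 - Q))) := by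
    have e : P * (a * F0 ^ 2 - b * F0 + (P - Q) ^ 2 * ((1 - P) * (1 - Q)))
        = (1 - Q) * ((P * (1 - P) + Q * (1 - Q)) * (Q * (1 - Q) - P * (1 - P))) := by
      have e1 : P * (a * F0 ^ 2) = (P + Q) * ((1 - P) + (1 - Q)) * Q * (P * F0) ^ 2 := by
        rw [ha]; ring
      have e2 : P * (b * F0) = b * (P * F0) := by ring
      have : P * (a * F0 ^ 2 - b * F0 + (P - Q) ^ 2 * ((1 - P) * (1 - Q)))
          = P * (a * F0 ^ 2) - P * (b * F0) + P * ((P - Q) ^ 2 * ((1 - P) * (1 - Q))) := by ring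
      rw [this, e1, e2, hPF0, hb]
      ring
    rw [e]
    positivity
  have hv' : 0 ≤ a * F0 ^ 2 - b * F0 + (P - Q) ^ 2 * ((1 - P) * (1 - Q)) :=
    nonneg_of_mul_nonneg_right (by linarith [hv]) hP0
  -- slope
  have hsl : 0 ≤ 2 * a * F0 - b := by
    have e : 2 * a * F0 - b = 2 * (Q * (1 - Q)) * (P * (1 - P) + Q * (1 - Q))
        + (P * (1 - Q) + Q * (1 - P)) * (Q * (1 - Q) - P * (1 - P)) := by
      have : 2 * a * F0 = 2 * ((P + Q) * ((1 - P) + (1 - Q)) * Q) * (P * F0) := by rw [ha]; ring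
      rw [this, hPF0, hb]
      ring
    rw [e]
    positivity
  have h1 : a * F ^ 2 - b * F + (P - Q) ^ 2 * ((1 - P) * (1 - Q))
      = (a * F0 ^ 2 - b * F0 + (P - Q) ^ 2 * ((1 - P) * (1 - Q)))
        + (F - F0) * ((2 * a * F0 - b) + a * (F - F0)) := by ring
  rw [h1]
  have h2 : 0 ≤ F - F0 := by linarith
  positivity


/-- the parameter range -/
def cuT (c t : ℝ) : Prop :=
  0 < t ∧ c * t < Real.sinh t ^ 2 ∧ Real.sinh t ^ 2 ≤ c * Real.log (2 * Real.cosh t)

theorem cu_Q_lt_P {c t : ℝ} (ht : 0 < t) : cuQ c t < cuP c t := by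
  unfold cuP cuQ
  apply Real.exp_lt_exp.2
  linarith

theorem cu_P_lt {c t : ℝ} (hc : 0 < c) (h : c * t < Real.sinh t ^ 2) : cuP c t < 1 := by
  unfold cuP
  have : t < Real.sinh t ^ 2 / c := by rw [lt_div_iff₀ hc]; linarith
  calc Real.exp (t - Real.sinh t ^ 2 / c) < Real.exp 0 := Real.exp_lt_exp.2 (by linarith)
    _ = 1 := Real.exp_zero

theorem cu_sum {c t : ℝ} (hc : 0 < c)
    (h : Real.sinh t ^ 2 ≤ c * Real.log (2 * Real.cosh t)) : 1 ≤ cuP c t + cuQ c t := by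
  have e : cuP c t + cuQ c t = (2 * Real.cosh t) * Real.exp (-(Real.sinh t ^ 2 / c)) := by
    unfold cuP cuQ
    rw [Real.cosh_eq, show t - Real.sinh t ^ 2 / c = t + -(Real.sinh t ^ 2 / c) by ring,
      show -t - Real.sinh t ^ 2 / c = -t + -(Real.sinh t ^ 2 / c) by ring, Real.exp_add,
      Real.exp_add]
    ring
  have h1 : Real.sinh t ^ 2 / c ≤ Real.log (2 * Real.cosh t) := by
    rw [div_le_iff₀ hc]; linarith
  have hch := Real.cosh_pos t
  have h2 : Real.exp (Real.sinh t ^ 2 / c) ≤ 2 * Real.cosh t := by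
    rw [← Real.exp_log (show 0 < 2 * Real.cosh t by positivity)]
    exact Real.exp_le_exp.2 h1
  rw [e, Real.exp_neg, ← div_eq_mul_inv, le_div_iff₀ (Real.exp_pos _)]
  linarith

theorem cu_D2_nonpos {c t : ℝ} (hc : 0 < c) (hT : cuT c t) : cuD2 c t ≤ 0 := by
  obtain ⟨ht, h1, h2⟩ := hT
  have hP := cu_P_lt hc h1
  have hs := cu_sum hc h2
  have hQP := cu_Q_lt_P (c := c) ht
  have hQ0 : 0 < cuQ c t := Real.exp_pos _
  have hP0 : 0 < cuP c t := Real.exp_pos _
  have hsh : 0 < Real.sinh t := Real.sinh_pos_iff.2 ht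
  set F := 2 * (Real.sinh t ^ 2 / c) with hFd
  have hF0 : 0 < F := by positivity
  have hlogP : Real.log (cuP c t) = t - Real.sinh t ^ 2 / c := Real.log_exp _
  have hlogQ : Real.log (cuQ c t) = -t - Real.sinh t ^ 2 / c := Real.log_exp _
  have hF : (1 - cuP c t) + (1 - cuQ c t) ≤ F := by
    have g1 := Real.log_le_sub_one_of_pos hP0
    have g2 := Real.log_le_sub_one_of_pos hQ0
    rw [hlogP] at g1
    rw [hlogQ] at g2
    rw [hFd]
    linarith
  have hsign := cu_sign hQ0 hQP hP hs hF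
  have hPQ := cu_PQ c t
  have hQPe := cu_QP c t
  have e1 : Real.exp t * Real.exp (-t) = 1 := by rw [← Real.exp_add]; simp
  have hsq : 4 * Real.sinh t ^ 2 = cuP c t / cuQ c t + cuQ c t / cuP c t - 2 := by
    rw [← hPQ, ← hQPe, Real.sinh_eq]
    nlinarith [e1]
  have hcF : c * F = 2 * Real.sinh t ^ 2 := by rw [hFd]; field_simp
  have hcc : c = (cuP c t - cuQ c t) ^ 2 / (2 * cuP c t * cuQ c t * F) := by
    have : c = 2 * Real.sinh t ^ 2 / F := by rw [← hcF]; field_simp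
    rw [eq_div_iff (by positivity)]
    have h3 : c * (2 * cuP c t * cuQ c t * F) = (c * F) * (2 * (cuP c t * cuQ c t)) := by ring
    rw [h3, hcF]
    have h4 : 2 * Real.sinh t ^ 2 * (2 * (cuP c t * cuQ c t))
        = (4 * Real.sinh t ^ 2) * (cuP c t * cuQ c t) := by ring
    rw [h4, hsq]
    field_simp
    ring
  have hkk : cuK c t = F * (cuP c t + cuQ c t) / (cuP c t - cuQ c t) := by
    have hD : cuP c t - cuQ c t ≠ 0 := by linarith
    unfold cuK
    rw [hPQ, hQPe, eq_div_iff hD, div_mul_eq_mul_div, div_eq_iff (by positivity)]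
    have h3 : F * (cuP c t + cuQ c t) * (2 * c) = (c * F) * (2 * (cuP c t + cuQ c t)) := by ring
    rw [h3, hcF]
    have h4 : 2 * Real.sinh t ^ 2 * (2 * (cuP c t + cuQ c t))
        = (4 * Real.sinh t ^ 2) * (cuP c t + cuQ c t) := by ring
    rw [h4, hsq]
    field_simp
    ring
  have hA : (1 - cuP c t) ≠ 0 := by linarith
  have hB : (1 - cuQ c t) ≠ 0 := by linarith
  have h0 := cu_alg2 (cuP c t) (cuQ c t) (1 - cuP c t) (1 - cuQ c t) c (cuK c t) F rfl rfl
    hP0.ne' hQ0.ne' hA hB hF0.ne' (by linarith) hcc hkk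
  unfold cuD2
  rw [hPQ, hQPe, h0]
  have hA' : 0 < 1 - cuP c t := by linarith
  have hB' : 0 < 1 - cuQ c t := by linarith
  rw [neg_div]
  apply neg_nonpos.2
  positivity


theorem cu_hasDerivAt_S {c t : ℝ} (hP : cuP c t < 1) (hQ : cuQ c t < 1) :
    HasDerivAt (cuS c) (((cuP c t * (1 - cuK c t) - cuQ c t * (-1 - cuK c t))
      * (2 - cuP c t - cuQ c t) - (cuP c t - cuQ c t)
      * (-(cuP c t * (1 - cuK c t)) - cuQ c t * (-1 - cuK c t))) / (2 - cuP c t - cuQ c t) ^ 2) t := by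
  have dP := cu_hasDerivAt_P c t
  have dQ := cu_hasDerivAt_Q c t
  have h1 := dP.sub dQ
  have h2 := (dP.const_sub 2).sub dQ
  have nS : (2 - cuP c t - cuQ c t) ≠ 0 := by linarith
  exact h1.div h2 nS

theorem cu_S_deriv_nonpos {c t : ℝ} (hc : 0 < c) (hT : cuT c t) :
    ((cuP c t * (1 - cuK c t) - cuQ c t * (-1 - cuK c t))
      * (2 - cuP c t - cuQ c t) - (cuP c t - cuQ c t)
      * (-(cuP c t * (1 - cuK c t)) - cuQ c t * (-1 - cuK c t))) / (2 - cuP c t - cuQ c t) ^ 2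
      ≤ 0 := by
  obtain ⟨ht, h1, h2⟩ := hT
  have hP := cu_P_lt hc h1
  have hQP := cu_Q_lt_P (c := c) ht
  have hQ0 : 0 < cuQ c t := Real.exp_pos _
  have hP0 : 0 < cuP c t := Real.exp_pos _
  have hsh : 0 < Real.sinh t := Real.sinh_pos_iff.2 ht
  set F := 2 * (Real.sinh t ^ 2 / c) with hFd
  have hF0 : 0 < F := by positivity
  have hlogP : Real.log (cuP c t) = t - Real.sinh t ^ 2 / c := Real.log_exp _
  have hlogQ : Real.log (cuQ c t) = -t - Real.sinh t ^ 2 / c := Real.log_exp _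
  have hF : 1 - cuP c t * cuQ c t ≤ F := by
    have g1 := Real.log_le_sub_one_of_pos (mul_pos hP0 hQ0)
    rw [Real.log_mul hP0.ne' hQ0.ne', hlogP, hlogQ] at g1
    rw [hFd]
    linarith
  have hPQ := cu_PQ c t
  have hQPe := cu_QP c t
  have e1 : Real.exp t * Real.exp (-t) = 1 := by rw [← Real.exp_add]; simp
  have hsq : 4 * Real.sinh t ^ 2 = cuP c t / cuQ c t + cuQ c t / cuP c t - 2 := by
    rw [← hPQ, ← hQPe, Real.sinh_eq]
    nlinarith [e1]
  have hcF : c * F = 2 * Real.sinh t ^ 2 := by rw [hFd]; field_simp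
  have hkk : cuK c t * (cuP c t - cuQ c t) = F * (cuP c t + cuQ c t) := by
    unfold cuK
    rw [hPQ, hQPe, div_mul_eq_mul_div, div_eq_iff (by positivity)]
    have h3 : F * (cuP c t + cuQ c t) * (2 * c) = (c * F) * (2 * (cuP c t + cuQ c t)) := by ring
    rw [h3, hcF]
    have h4 : 2 * Real.sinh t ^ 2 * (2 * (cuP c t + cuQ c t))
        = (4 * Real.sinh t ^ 2) * (cuP c t + cuQ c t) := by ring
    rw [h4, hsq]
    field_simp
    ring
  apply div_nonpos_of_nonpos_of_nonneg _ (sq_nonneg _)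
  generalize cuP c t = P at *
  generalize cuQ c t = Q at *
  generalize cuK c t = k at *
  have e : (P * (1 - k) - Q * (-1 - k)) * (2 - P - Q) - (P - Q) * (-(P * (1 - k)) - Q * (-1 - k))
      = 2 * ((P + Q) - 2 * (P * Q) - k * (P - Q)) := by ring
  rw [e, hkk]
  have h5 : (1 - P * Q) * (P + Q) ≤ F * (P + Q) := mul_le_mul_of_nonneg_right hF (by linarith)
  have h6 : 0 ≤ P * Q * (2 - (P + Q)) := by
    have : 0 ≤ 2 - (P + Q) := by linarith
    positivity
  nlinarith [h5, h6]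

/-- `sinh² t > c t` propagates upwards -/
theorem cu_up {c s t : ℝ} (hs : 0 < s) (hst : s ≤ t) (h : c * s < Real.sinh s ^ 2) :
    c * t < Real.sinh t ^ 2 := by
  have hd : ∀ x : ℝ, HasDerivAt (fun x => Real.sinh x ^ 2 - c * x)
      (2 * Real.sinh x * Real.cosh x - c) x := by
    intro x
    have h1 := (Real.hasDerivAt_sinh x).pow 2
    have h2 := h1.sub ((hasDerivAt_id' x).const_mul c)
    refine h2.congr_deriv ?_
    push_cast; ring
  obtain ⟨ξ, hξ, hξ'⟩ := exists_hasDerivAt_eq_slope (fun x => Real.sinh x ^ 2 - c * x)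
    (fun x => 2 * Real.sinh x * Real.cosh x - c) hs
    (fun x _ => (hd x).continuousAt.continuousWithinAt) (fun x _ => hd x)
  have h0 : 0 < 2 * Real.sinh ξ * Real.cosh ξ - c := by
    rw [hξ']
    simp only [Real.sinh_zero, mul_zero, sub_zero]
    apply div_pos _ hs
    norm_num
    linarith
  have hmono : MonotoneOn (fun x => Real.sinh x ^ 2 - c * x) (Set.Ici s) := by
    apply monotoneOn_of_deriv_nonneg (convex_Ici s)
    · exact fun x _ => (hd x).continuousAt.continuousWithinAt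
    · exact fun x _ => (hd x).differentiableAt.differentiableWithinAt
    · intro x hx
      rw [interior_Ici] at hx
      rw [(hd x).deriv]
      have hx' : s < x := hx
      have hξx : ξ ≤ x := by linarith [hξ.2]
      have h1 : Real.sinh ξ ≤ Real.sinh x := Real.sinh_le_sinh.2 hξx
      have h2 : Real.cosh ξ ≤ Real.cosh x := by
        rw [Real.cosh_le_cosh, abs_of_pos hξ.1, abs_of_pos (hs.trans hx')]
        exact hξx
      have h3 : 0 < Real.sinh ξ := Real.sinh_pos_iff.2 hξ.1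
      have h4 := Real.cosh_pos ξ
      have h5 : Real.sinh ξ * Real.cosh ξ ≤ Real.sinh x * Real.cosh x :=
        mul_le_mul h1 h2 h4.le (h3.le.trans h1)
      nlinarith
  have := hmono (Set.self_mem_Ici) (show t ∈ Set.Ici s from hst) hst
  simp only at this
  linarith

theorem cu_BB (t : ℝ) (ht : 0 < t) :
    BB (Real.tanh t) = Real.sinh t ^ 2 / Real.log (2 * Real.cosh t) := by
  unfold BB
  rw [L1_one_sub_tanh, L1_ell_tanh, Real.tanh_eq_sinh_div_cosh]
  have hc := Real.cosh_pos t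
  have hl : 0 < Real.log (2 * Real.cosh t) := by
    apply Real.log_pos
    linarith [Real.one_le_cosh t]
  field_simp

/-- `sinh² t ≤ c log (2 cosh t)` propagates downwards -/
theorem cu_down {c s t : ℝ} (hs : 0 < s) (hst : s ≤ t)
    (h : Real.sinh t ^ 2 ≤ c * Real.log (2 * Real.cosh t)) :
    Real.sinh s ^ 2 ≤ c * Real.log (2 * Real.cosh s) := by
  have hls : 0 < Real.log (2 * Real.cosh s) := by
    apply Real.log_pos
    linarith [Real.one_le_cosh s]
  have hlt : 0 < Real.log (2 * Real.cosh t) := by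
    apply Real.log_pos
    linarith [Real.one_le_cosh t]
  have h0 : 0 < Real.tanh s := by
    rw [Real.tanh_eq_sinh_div_cosh]
    exact div_pos (Real.sinh_pos_iff.2 hs) (Real.cosh_pos s)
  have h1 : Real.tanh s ≤ Real.tanh t := by
    rw [Real.tanh_eq_sinh_div_cosh, Real.tanh_eq_sinh_div_cosh,
      div_le_div_iff₀ (Real.cosh_pos s) (Real.cosh_pos t)]
    have := Real.sinh_nonneg_iff.2 (show 0 ≤ t - s by linarith)
    rw [Real.sinh_sub] at this
    linarith
  have h2 := L1_BB_mono h0 h1 (L1_tanh_mem t).2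
  rw [cu_BB s hs, cu_BB t (hs.trans_le hst)] at h2
  have h3 : Real.sinh t ^ 2 / Real.log (2 * Real.cosh t) ≤ c := by
    rw [div_le_iff₀ hlt]; exact h
  have h4 := h2.trans h3
  rwa [div_le_iff₀ hls] at h4

theorem cuT_ordConnected {c s t u : ℝ} (hs : cuT c s) (ht : cuT c t) (hsu : s ≤ u) (hut : u ≤ t) :
    cuT c u :=
  ⟨hs.1.trans_le hsu, cu_up hs.1 hsu hs.2.1, cu_down (hs.1.trans_le hsu) hut ht.2.2⟩

theorem cu_S_anti {c s t : ℝ} (hc : 0 < c) (hs : cuT c s) (ht : cuT c t) (hst : s ≤ t) :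
    cuS c t ≤ cuS c s := by
  have hT : ∀ u ∈ Set.Icc s t, cuT c u := fun u hu => cuT_ordConnected hs ht hu.1 hu.2
  have hP : ∀ u ∈ Set.Icc s t, cuP c u < 1 := fun u hu => cu_P_lt hc (hT u hu).2.1
  have hQ : ∀ u ∈ Set.Icc s t, cuQ c u < 1 := fun u hu =>
    (cu_Q_lt_P (hT u hu).1).trans (hP u hu)
  have hanti : AntitoneOn (cuS c) (Set.Icc s t) := by
    apply antitoneOn_of_deriv_nonpos (convex_Icc s t)
    · exact fun x hx => (cu_hasDerivAt_S (hP x hx) (hQ x hx)).continuousAt.continuousWithinAt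
    · intro x hx
      have hx' := interior_subset hx
      exact (cu_hasDerivAt_S (hP x hx') (hQ x hx')).differentiableAt.differentiableWithinAt
    · intro x hx
      have hx' := interior_subset hx
      rw [(cu_hasDerivAt_S (hP x hx') (hQ x hx')).deriv]
      exact cu_S_deriv_nonpos hc (hT x hx')
  exact hanti (Set.left_mem_Icc.2 hst) (Set.right_mem_Icc.2 hst) hst

/-- going up in the parameter, for directions `σ ≤ σ(t)` -/
theorem cu_psi_up {c s t σ : ℝ} (hc : 0 < c) (hs : cuT c s) (ht : cuT c t) (hst : s ≤ t)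
    (hσ : σ ≤ cuS c t) : cuC1 c s + σ * cuC2 c s ≤ cuC1 c t + σ * cuC2 c t := by
  have hT : ∀ u ∈ Set.Icc s t, cuT c u := fun u hu => cuT_ordConnected hs ht hu.1 hu.2
  have hP : ∀ u ∈ Set.Icc s t, cuP c u < 1 := fun u hu => cu_P_lt hc (hT u hu).2.1
  have hQ : ∀ u ∈ Set.Icc s t, cuQ c u < 1 := fun u hu =>
    (cu_Q_lt_P (hT u hu).1).trans (hP u hu)
  have hd : ∀ u ∈ Set.Icc s t, HasDerivAt (fun u => cuC1 c u + σ * cuC2 c u)
      (-(cuS c u * cuD2 c u) + σ * cuD2 c u) u := fun u hu =>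
    (cu_hasDerivAt_C1 hc (hP u hu) (hQ u hu)).add
      ((cu_hasDerivAt_C2 (hP u hu) (hQ u hu)).const_mul σ)
  have hmono : MonotoneOn (fun u => cuC1 c u + σ * cuC2 c u) (Set.Icc s t) := by
    apply monotoneOn_of_deriv_nonneg (convex_Icc s t)
    · exact fun x hx => (hd x hx).continuousAt.continuousWithinAt
    · intro x hx
      have hx' := interior_subset hx
      exact (hd x hx').differentiableAt.differentiableWithinAt
    · intro x hx
      have hx' := interior_subset hx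
      rw [(hd x hx').deriv]
      have h1 := cu_D2_nonpos hc (hT x hx')
      have h2 := cu_S_anti hc (hT x hx') ht hx'.2
      nlinarith [mul_nonneg (neg_nonneg.2 h1) (show 0 ≤ cuS c x - σ by linarith)]
  exact hmono (Set.left_mem_Icc.2 hst) (Set.right_mem_Icc.2 hst) hst

/-- going down in the parameter, for directions `σ(t) ≤ σ`, `t` the lower end -/
theorem cu_psi_down {c s t σ : ℝ} (hc : 0 < c) (hs : cuT c s) (ht : cuT c t) (hst : s ≤ t)
    (hσ : cuS c s ≤ σ) : cuC1 c t + σ * cuC2 c t ≤ cuC1 c s + σ * cuC2 c s := by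
  have hT : ∀ u ∈ Set.Icc s t, cuT c u := fun u hu => cuT_ordConnected hs ht hu.1 hu.2
  have hP : ∀ u ∈ Set.Icc s t, cuP c u < 1 := fun u hu => cu_P_lt hc (hT u hu).2.1
  have hQ : ∀ u ∈ Set.Icc s t, cuQ c u < 1 := fun u hu =>
    (cu_Q_lt_P (hT u hu).1).trans (hP u hu)
  have hd : ∀ u ∈ Set.Icc s t, HasDerivAt (fun u => cuC1 c u + σ * cuC2 c u)
      (-(cuS c u * cuD2 c u) + σ * cuD2 c u) u := fun u hu =>
    (cu_hasDerivAt_C1 hc (hP u hu) (hQ u hu)).add
      ((cu_hasDerivAt_C2 (hP u hu) (hQ u hu)).const_mul σ)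
  have hanti : AntitoneOn (fun u => cuC1 c u + σ * cuC2 c u) (Set.Icc s t) := by
    apply antitoneOn_of_deriv_nonpos (convex_Icc s t)
    · exact fun x hx => (hd x hx).continuousAt.continuousWithinAt
    · intro x hx
      have hx' := interior_subset hx
      exact (hd x hx').differentiableAt.differentiableWithinAt
    · intro x hx
      have hx' := interior_subset hx
      rw [(hd x hx').deriv]
      have h1 := cu_D2_nonpos hc (hT x hx')
      have h2 := cu_S_anti hc hs (hT x hx') hx'.1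
      nlinarith [mul_nonneg (neg_nonneg.2 h1) (show 0 ≤ σ - cuS c x by linarith)]
  exact hanti (Set.left_mem_Icc.2 hst) (Set.right_mem_Icc.2 hst) hst

theorem cu_psi {c s t : ℝ} (hc : 0 < c) (hs : cuT c s) (ht : cuT c t) :
    cuC1 c s + cuS c t * cuC2 c s ≤ cuC1 c t + cuS c t * cuC2 c t := by
  rcases le_total s t with h | h
  · exact cu_psi_up hc hs ht h le_rfl
  · exact cu_psi_down hc ht hs h le_rfl

end P322
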