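import Vale.Agent.P322.L1

/-! P322: the corner bound, definitions and interface.
Coordinates `x = (1 - v)/2`, `y = (1 - w)/2` (so the corner `(v,w) = (1,1)` is `(x,y) = (0,0)`,
`v > w` is `x < y`, and `v + w ≥ 0` is `x + y ≤ 1`). -/

namespace P322

/-- `F = log (1/((1-x)(1-y)))` -/
noncomputable def cF (x y : ℝ) : ℝ := -Real.log (1 - x) - Real.log (1 - y)

/-- `c₃` -/
noncomputable def c3 (x y : ℝ) : ℝ := (y - x) ^ 2 / (2 * (1 - x) * (1 - y) * cF x y)

/-- entropy of a bit with probability `x` -/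
noncomputable def Hn (x : ℝ) : ℝ := -(x * Real.log x) - (1 - x) * Real.log (1 - x)

/-- `jj + (c/2)(h + h)` in the coordinates `x, y` -/
noncomputable def DD (c x y : ℝ) : ℝ :=
  (y - x) * (Real.log (1 - x) - Real.log (1 - y) + Real.log y - Real.log x) / 4
    + c / 2 * (Hn x + Hn y)

/-- coefficient of `x + y` of the tangent plane at `(x,y)` -/
noncomputable def cc1 (c x y : ℝ) : ℝ :=
  -(c / 4) * (Real.log x + Real.log y) - (y / x + x / y - 2) / 8

/-- coefficient of `y - x` of the tangent plane at `(x,y)` -/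
noncomputable def cc2 (c x y : ℝ) : ℝ :=
  (1 - c) / 4 * (Real.log (1 - x) - Real.log (1 - y) + Real.log y - Real.log x)
    + ((1 - x) / (1 - y) - (1 - y) / (1 - x) + y / x - x / y) / 8

end P322
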