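import Vale.Agent.P322.Corner
import Vale.Agent.P322.CornerAv

/-! P322: the corner bound in the form used by the glue -/

namespace P322

theorem planeProp_holds : PlaneProp :=
  fun _ _ hx0 hxy0 h0 _ _ h1 h2 h3 h4 => corner_pt hx0 hxy0 h0 h1 h2 h3 h4

theorem cornerProp_holds : CornerProp := CornerProp_of_plane planeProp_holds

end P322
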