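import Vale.Agent.P322.CornerAv
import Vale.Agent.P322.CornerRay

/-! P322: the plane inequality from the curve inequality. -/
namespace P322

/-- the plane inequality between two points of one curve `c₃ = c` -/
def CurveIneq : Prop := ∀ x0 y0 x y : ℝ, 0 < x0 → x0 < y0 → x0 + y0 ≤ 1 → 0 < x → x < y →
  x + y ≤ 1 → c3 x y = c3 x0 y0 →
  cc1 (c3 x0 y0) x0 y0 * (x + y) + cc2 (c3 x0 y0) x0 y0 * (y - x) ≤ DD (c3 x0 y0) x y

theorem cp_phi {p q : ℝ} (hp : 0 < p) (hpq : p ≤ q) (hq : q < 1) :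
    (1 - q) * (-(p * Real.log p)) ≤ (1 - p) * (-(q * Real.log q)) := by
  have hq0 : 0 < q := hp.trans_le hpq
  have h1 := Real.log_le_sub_one_of_pos (show 0 < q / p by positivity)
  rw [Real.log_div hq0.ne' hp.ne'] at h1
  have h2 := Real.log_le_sub_one_of_pos hq0
  have h3 : p * (Real.log q - Real.log p) ≤ q - p := by
    have := mul_le_mul_of_nonneg_left h1 hp.le
    have e : p * (q / p - 1) = q - p := by field_simp
    linarith
  have h4 := mul_le_mul_of_nonneg_left h3 (show 0 ≤ 1 - q by linarith)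
  have h5 := mul_le_mul_of_nonneg_left (show 1 - q ≤ -Real.log q by linarith)
    (show 0 ≤ q - p by linarith)
  nlinarith

theorem cp_G {x y : ℝ} (hx : 0 < x) (hy : 0 < y) (h : x + y ≤ 1) :
    x * y * (-Real.log x - Real.log y) ≤ (1 - x) * (1 - y) * cF x y := by
  have h1 := cp_phi (p := y) (q := 1 - x) hy (by linarith) (by linarith)
  have h2 := cp_phi (p := x) (q := 1 - y) hx (by linarith) (by linarith)
  unfold cF
  nlinarith

theorem cp_cc1_nonpos {x y : ℝ} (hx : 0 < x) (hxy : x < y) (h : x + y ≤ 1) :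
    cc1 (c3 x y) x y ≤ 0 := by
  have hy : 0 < y := hx.trans hxy
  have hF := cav_cF_pos hx (by linarith) hy (by linarith)
  have hG := cp_G hx hy h
  have p : 0 < 1 - x := by linarith
  have q : 0 < 1 - y := by linarith
  have e : cc1 (c3 x y) x y = (y - x) ^ 2 / 8 *
      ((x * y * (-Real.log x - Real.log y) - (1 - x) * (1 - y) * cF x y)
        / ((x * y) * ((1 - x) * (1 - y) * cF x y))) := by
    unfold cc1 c3
    have h1 := hx.ne'
    have h2 := hy.ne'
    have h3 := p.ne'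
    have h4 := q.ne'
    have h5 := hF.ne'
    generalize cF x y = F at *
    field_simp
    ring
  rw [e]
  apply mul_nonpos_of_nonneg_of_nonpos (by positivity)
  apply div_nonpos_of_nonpos_of_nonneg (by linarith)
  positivity

theorem cp_cF_diag {s : ℝ} (h0 : 0 < s) (h1 : s < 1) :
    cF ((1 - s) / 2) ((1 + s) / 2) = 2 * ell s := by
  unfold cF ell
  rw [show 1 - (1 - s) / 2 = (1 + s) / 2 by ring, show 1 - (1 + s) / 2 = (1 - s) / 2 by ring,
    Real.log_div (by linarith) two_ne_zero, Real.log_div (by linarith) two_ne_zero,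
    show 1 - s ^ 2 = (1 + s) * (1 - s) by ring, Real.log_mul (by linarith) (by linarith)]
  ring

theorem cp_c3_diag {s : ℝ} (h0 : 0 < s) (h1 : s < 1) :
    c3 ((1 - s) / 2) ((1 + s) / 2) = BB s := by
  unfold c3 BB
  rw [cp_cF_diag h0 h1]
  have hs : 0 < 1 - s ^ 2 := by nlinarith
  have he : 0 < ell s := by linarith [L1_ell_pos h0.le h1]
  rw [show 2 * (1 - (1 - s) / 2) * (1 - (1 + s) / 2) * (2 * ell s) = (1 - s ^ 2) * ell s by ring,
    show (1 + s) / 2 - (1 - s) / 2 = s by ring]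

theorem cp_DD_diag {c s : ℝ} (h0 : 0 < s) (h1 : s < 1) :
    DD c ((1 - s) / 2) ((1 + s) / 2) = s * ath s + c * hh s := by
  have h := cav_DD_eq (c := c) (v := s) (w := -s) ⟨by linarith, h1⟩ ⟨by linarith, by linarith⟩
  rw [show (1 - -s) / 2 = (1 + s) / 2 by ring] at h
  rw [h, hh_neg]
  unfold jj
  rw [ath_neg ⟨by linarith, h1⟩]
  ring

theorem cp_cc1_diag {s : ℝ} (h0 : 0 < s) (h1 : s < 1) :
    cc1 (BB s) ((1 - s) / 2) ((1 + s) / 2) = 0 := by
  have hs : 0 < 1 - s ^ 2 := by nlinarith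
  have he : 0 < ell s := by linarith [L1_ell_pos h0.le h1]
  have e1 : Real.log ((1 - s) / 2) + Real.log ((1 + s) / 2) = -(2 * ell s) := by
    have := cp_cF_diag h0 h1
    unfold cF at this
    rw [show 1 - (1 - s) / 2 = (1 + s) / 2 by ring, show 1 - (1 + s) / 2 = (1 - s) / 2 by ring] at this
    linarith
  unfold cc1
  rw [e1]
  unfold BB
  have h3 : (1 - s) ≠ 0 := by linarith
  have h4 : (1 + s) ≠ 0 := by linarith
  have h5 := hs.ne'
  have h6 := he.ne'
  have e2 : (1 + s) / 2 / ((1 - s) / 2) + (1 - s) / 2 / ((1 + s) / 2) - 2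
      = 4 * s ^ 2 / (1 - s ^ 2) := by
    rw [show 1 - s ^ 2 = (1 - s) * (1 + s) by ring]
    field_simp
    ring
  rw [e2]
  field_simp
  ring

theorem cp_cc2_diag {s : ℝ} (h0 : 0 < s) (h1 : s < 1) :
    cc2 (BB s) ((1 - s) / 2) ((1 + s) / 2) = AA s := by
  have h := cav_touch (x := (1 - s) / 2) (y := (1 + s) / 2) (by linarith) (by linarith)
    (by linarith) (by linarith)
  rw [cp_c3_diag h0 h1, cp_cc1_diag h0 h1, cp_DD_diag h0 h1] at h
  have h2 : cc2 (BB s) ((1 - s) / 2) ((1 + s) / 2) * s = s * ath s + BB s * hh s := by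
    rw [← h]; ring
  have h3 : cc2 (BB s) ((1 - s) / 2) ((1 + s) / 2) = (s * ath s + BB s * hh s) / s := by
    rw [eq_div_iff h0.ne', h2]
  rw [h3]
  unfold AA
  field_simp

theorem cp_BB_cont {a b : ℝ} (ha : 0 < a) (hb : b < 1) : ContinuousOn BB (Set.Icc a b) := by
  intro s hs
  apply ContinuousAt.continuousWithinAt
  have h0 : 0 < s := ha.trans_le hs.1
  have h1 : s < 1 := lt_of_le_of_lt hs.2 hb
  have hs2 : 0 < 1 - s ^ 2 := by nlinarith
  have he : 0 < ell s := by linarith [L1_ell_pos h0.le h1]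
  have c1 : ContinuousAt (fun s : ℝ => 1 - s ^ 2) s := by fun_prop
  have c2 : ContinuousAt ell s := by
    unfold ell
    exact continuousAt_const.sub ((c1.log hs2.ne').div_const 2)
  unfold BB
  exact (continuousAt_id.pow 2).div (c1.mul c2) (mul_pos hs2 he).ne'

/-- the curve meets the diagonal -/
theorem cp_exists {c s1 : ℝ} (hc : 0 < c) (h0 : 0 < s1) (h1 : s1 < 1) (h : c ≤ BB s1) :
    ∃ s, 0 < s ∧ s < 1 ∧ BB s = c := by
  obtain ⟨e, he0, he1, hes, hec⟩ : ∃ e : ℝ, 0 < e ∧ e ≤ 1 / 2 ∧ e ≤ s1 ∧ e ≤ c / 4 :=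
    ⟨min (min (1 / 2) s1) (c / 4), lt_min (lt_min (by norm_num) h0) (by linarith),
      (min_le_left _ _).trans (min_le_left _ _), (min_le_left _ _).trans (min_le_right _ _),
      min_le_right _ _⟩
  have hBe : BB e ≤ c := by
    unfold BB
    have h3 := L1_ell_pos he0.le (by linarith : e < 1)
    have h4 : 3 / 4 ≤ 1 - e ^ 2 := by nlinarith
    have h5 : 3 / 8 ≤ (1 - e ^ 2) * ell e := by nlinarith
    rw [div_le_iff₀ (by linarith)]
    nlinarith
  obtain ⟨s, hs, hsc⟩ := intermediate_value_Icc hes (cp_BB_cont he0 h1) ⟨hBe, h⟩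
  exact ⟨s, he0.trans_le hs.1, lt_of_le_of_lt hs.2 h1, hsc⟩

theorem cp_DD_swap (c x y : ℝ) : DD c y x = DD c x y := by
  unfold DD; ring

theorem cp_Hn_symm (x : ℝ) : Hn (1 - x) = Hn x := by
  unfold Hn
  rw [show 1 - (1 - x) = x by ring]
  ring

theorem cp_DD_refl (c x y : ℝ) : DD c (1 - y) (1 - x) = DD c x y := by
  unfold DD
  rw [cp_Hn_symm, cp_Hn_symm, show 1 - (1 - x) = x by ring, show 1 - (1 - y) = y by ring]
  ring

theorem PlaneProp_of_curve (hCI : CurveIneq) : PlaneProp := by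
  intro x0 y0 hx0 hxy0 hs0 x y hx hx1 hy hy1
  have hy0 : 0 < y0 := hx0.trans hxy0
  have hF0 := cav_cF_pos hx0 (by linarith) hy0 (by linarith)
  have hcpos : 0 < c3 x0 y0 := by
    unfold c3
    have p : 0 < 1 - x0 := by linarith
    have q : 0 < 1 - y0 := by linarith
    have : 0 < (y0 - x0) ^ 2 := pow_pos (by linarith) 2
    positivity
  have hA1 := cp_cc1_nonpos hx0 hxy0 hs0
  have htouch := cav_touch (x := x0) (y := y0) hx0 (by linarith) hy0 (by linarith)
  have hCI0 := hCI x0 y0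
  -- the ray through (x0,y0) up to the diagonal
  set S : ℝ := x0 + y0 with hS
  have hSpos : 0 < S := by positivity
  set σ : ℝ := (y0 - x0) / S with hσ
  have hσ0 : 0 < σ := div_pos (by linarith) hSpos
  have hσ1 : σ < 1 := by rw [hσ, div_lt_one hSpos]; linarith
  have hcσ : c3 x0 y0 ≤ BB σ := by
    have h1 : (1 : ℝ) ≤ 1 / S := by rw [le_div_iff₀ hSpos]; linarith
    have h2 : 1 / S * (x0 + y0) ≤ 1 := by rw [← hS, one_div_mul_cancel hSpos.ne']
    have h3 := ray_c3_mono hx0 hy0 one_pos h1 h2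
    rw [one_mul, one_mul] at h3
    have e1 : 1 / S * x0 = (1 - σ) / 2 := by rw [hσ, hS]; field_simp; ring
    have e2 : 1 / S * y0 = (1 + σ) / 2 := by rw [hσ, hS]; field_simp; ring
    rw [e1, e2, cp_c3_diag hσ0 hσ1] at h3
    exact h3
  obtain ⟨sc, hsc0, hsc1, hscB⟩ := cp_exists hcpos hσ0 hσ1 hcσ
  -- plane of the end point at (x0,y0)
  have hII := hCI ((1 - sc) / 2) ((1 + sc) / 2) x0 y0 (by linarith) (by linarith) (by linarith)
    hx0 hxy0 hs0 (by rw [cp_c3_diag hsc0 hsc1, hscB])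
  rw [cp_c3_diag hsc0 hsc1, cp_cc1_diag hsc0 hsc1, cp_cc2_diag hsc0 hsc1, hscB, zero_mul, zero_add,
    ← htouch] at hII
  -- plane of (x0,y0) at the end point
  have hI := hCI0 ((1 - sc) / 2) ((1 + sc) / 2) hx0 hxy0 hs0 (by linarith) (by linarith)
    (by linarith) (by rw [cp_c3_diag hsc0 hsc1, hscB])
  have hAApos : 0 ≤ AA sc := by
    unfold AA
    have h1 := ath_pos hsc0 hsc1
    have h2 := L1_BB_nonneg hsc0.le hsc1
    have h3 := hh_pos (u := sc) ⟨by linarith, hsc1⟩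
    positivity
  have hDsc : DD (c3 x0 y0) ((1 - sc) / 2) ((1 + sc) / 2) = AA sc * sc := by
    rw [cp_DD_diag hsc0 hsc1, ← hscB]
    unfold AA
    field_simp
  rw [hDsc] at hI
  have hI' : cc1 (c3 x0 y0) x0 y0 + cc2 (c3 x0 y0) x0 y0 * sc ≤ AA sc * sc := by
    have e1 : (1 - sc) / 2 + (1 + sc) / 2 = 1 := by ring
    have e2 : (1 + sc) / 2 - (1 - sc) / 2 = sc := by ring
    rw [e1, e2, mul_one] at hI
    exact hI
  clear hI
  -- one dimensional inequality
  have hone : ∀ s, 0 < s → s < 1 → AA sc * s ≤ DD (c3 x0 y0) ((1 - s) / 2) ((1 + s) / 2) := by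
    intro s h0 h1
    rw [cp_DD_diag h0 h1, ← hscB]
    have h := L1_one_dim hsc0 hsc1 h0 h1
    have h2 := mul_le_mul_of_nonneg_right h h0.le
    have e1 : (ath sc + BB sc * (hh sc / sc)) = AA sc := by unfold AA; ring
    have e2 : (ath s + BB sc * (hh s / s)) * s = s * ath s + BB sc * hh s := by field_simp
    rw [e1, e2] at h2
    exact h2
  have hc2 : AA sc ≤ cc2 (c3 x0 y0) x0 y0 := by
    have h1 : 0 < y0 - x0 := by linarith
    have h2 : cc1 (c3 x0 y0) x0 y0 * (x0 + y0) ≤ 0 :=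
      mul_nonpos_of_nonpos_of_nonneg hA1 (by linarith)
    have h3 : AA sc * (y0 - x0) ≤ cc2 (c3 x0 y0) x0 y0 * (y0 - x0) := by linarith
    exact le_of_mul_le_mul_right h3 h1
  have hcurve : ∀ x y, 0 < x → x < y → x + y ≤ 1 → c3 x y = c3 x0 y0 →
      cc1 (c3 x0 y0) x0 y0 * (x + y) + cc2 (c3 x0 y0) x0 y0 * (y - x) ≤ DD (c3 x0 y0) x y :=
    fun x y h1 h2 h3 h4 => hCI0 x y hx0 hxy0 hs0 h1 h2 h3 h4
  generalize hA : cc1 (c3 x0 y0) x0 y0 = A1 at *
  generalize hB : cc2 (c3 x0 y0) x0 y0 = A2 at *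
  have hdiag : ∀ s, 0 < s → s < 1 → c3 ((1 - s) / 2) ((1 + s) / 2) ≤ c3 x0 y0 →
      A1 + A2 * s ≤ DD (c3 x0 y0) ((1 - s) / 2) ((1 + s) / 2) := by
    intro s h0 h1 hle
    rw [cp_c3_diag h0 h1] at hle
    rcases le_or_gt s sc with h | h
    · have h5 := mul_le_mul_of_nonneg_right hc2 (show 0 ≤ sc - s by linarith)
      have h6 := hone s h0 h1
      nlinarith
    · have h7 := L1_BB_mono hsc0 h.le h1
      rw [hscB] at h7
      have h8 := hcurve ((1 - s) / 2) ((1 + s) / 2) (by linarith) (by linarith) (by linarith)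
        (by rw [cp_c3_diag h0 h1]; exact le_antisymm hle h7)
      have e1 : (1 - s) / 2 + (1 + s) / 2 = 1 := by ring
      have e2 : (1 + s) / 2 - (1 - s) / 2 = s := by ring
      rw [e1, e2, mul_one] at h8
      exact h8
  have hA2 : 0 ≤ A2 := hAApos.trans hc2
  -- region `x < y`
  have hlt : ∀ x y, 0 < x → x < 1 → 0 < y → y < 1 → x < y →
      A1 * (x + y) + A2 * (y - x) ≤ DD (c3 x0 y0) x y := by
    intro x y hx hx1 hy hy1 hxy
    rcases le_or_gt (x + y) 1 with h | h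
    · exact ray_min hcpos hcurve hdiag hx hxy h
    · have h9 := ray_min hcpos hcurve hdiag (x := 1 - y) (y := 1 - x) (by linarith) (by linarith)
        (by linarith)
      rw [cp_DD_refl] at h9
      have h10 : A1 * (x + y) ≤ A1 * (1 - y + (1 - x)) :=
        mul_le_mul_of_nonpos_left (by linarith) hA1
      have e : (1 - x) - (1 - y) = y - x := by ring
      rw [e] at h9
      linarith
  rcases lt_trichotomy x y with h | h | h
  · exact hlt x y hx hx1 hy hy1 h
  · subst h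
    have h11 : 0 ≤ DD (c3 x0 y0) x x := by
      have h := cav_DD_eq (c := c3 x0 y0) (v := 1 - 2 * x) (w := 1 - 2 * x)
        ⟨by linarith, by linarith⟩ ⟨by linarith, by linarith⟩
      rw [show (1 - (1 - 2 * x)) / 2 = x by ring] at h
      rw [h]
      have h12 := hh_pos (u := 1 - 2 * x) ⟨by linarith, by linarith⟩
      have h13 : jj (1 - 2 * x) (1 - 2 * x) = 0 := by unfold jj; ring
      rw [h13]
      positivity
    have h14 : A1 * (x + x) ≤ 0 := mul_nonpos_of_nonpos_of_nonneg hA1 (by linarith)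
    have e : x - x = 0 := by ring
    rw [e, mul_zero]
    linarith
  · have h15 := hlt y x hy hy1 hx hx1 h
    rw [cp_DD_swap] at h15
    have h16 : A2 * (y - x) ≤ A2 * (x - y) := mul_le_mul_of_nonneg_left (by linarith) hA2
    have e : y + x = x + y := by ring
    rw [e] at h15
    linarith

end P322
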