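import Mathlib

/-!
# P322 (Courtade-Kumar): definitions
-/

namespace P322

/-- `n` independent binary symmetric channels with crossover probability `ε`:
the probability of output `y` given input `x`. -/
noncomputable def bsc {n : ℕ} (ε : ℝ) (x y : Fin n → Bool) : ℝ :=
  ∏ i, if x i = y i then 1 - ε else ε

/-- joint probability mass function of `(f(X), Y)`, `X` uniform on `{0,1}^n`
and `Y` the output of the channels on input `X`. -/
noncomputable def joint {n : ℕ} (f : (Fin n → Bool) → Bool) (ε : ℝ)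
    (b : Bool) (y : Fin n → Bool) : ℝ :=
  ∑ x, if f x = b then bsc ε x y / 2 ^ n else 0

/-- mutual information (in bits) of a joint pmf on a finite product. -/
noncomputable def mutualInfo {α β : Type*} [Fintype α] [Fintype β] (p : α → β → ℝ) : ℝ :=
  ∑ a, ∑ b, p a b * Real.logb 2 (p a b / ((∑ b', p a b') * (∑ a', p a' b)))

/-- binary entropy in bits. -/
noncomputable def h2 (p : ℝ) : ℝ := -p * Real.logb 2 p - (1 - p) * Real.logb 2 (1 - p)

/-- `f` takes the two values equally often. -/
def Balanced {n : ℕ} (f : (Fin n → Bool) → Bool) : Prop :=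
  (Finset.univ.filter fun x => f x = true).card = (Finset.univ.filter fun x => f x = false).card

/-! ### analytic definitions -/

/-- entropy (in nats) of a `±1` bit of mean `u`. -/
noncomputable def hh (u : ℝ) : ℝ := Real.binEntropy ((1 + u) / 2)

/-- the inverse hyperbolic tangent. -/
noncomputable def ath (u : ℝ) : ℝ := Real.log ((1 + u) / (1 - u)) / 2

/-- edge energy. -/
noncomputable def jj (a b : ℝ) : ℝ := (a - b) * (ath a - ath b) / 4

/-- average over the cube. -/
noncomputable def av {n : ℕ} (g : (Fin n → Bool) → ℝ) : ℝ := (∑ x, g x) / 2 ^ n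

/-- flip the `i`-th bit. -/
def flipAt {n : ℕ} (i : Fin n) (x : Fin n → Bool) : Fin n → Bool :=
  Function.update x i (!x i)

/-- the total edge energy `I(u)`. -/
noncomputable def II {n : ℕ} (u : (Fin n → Bool) → ℝ) : ℝ :=
  ∑ i, av (fun x => jj (u x) (u (flipAt i x)))

/-- the noise operator. -/
noncomputable def TT {n : ℕ} (ρ : ℝ) (u : (Fin n → Bool) → ℝ) (y : Fin n → Bool) : ℝ :=
  ∑ x, (∏ i, if x i = y i then (1 + ρ) / 2 else (1 - ρ) / 2) * u x

/-- `±1` version of a Boolean function. -/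
noncomputable def sg {n : ℕ} (f : (Fin n → Bool) → Bool) (x : Fin n → Bool) : ℝ :=
  if f x then 1 else -1

/-- values in the open interval. -/
def InI {n : ℕ} (u : (Fin n → Bool) → ℝ) : Prop := ∀ x, u x ∈ Set.Ioo (-1 : ℝ) 1

/-- `lg z = log (2 cosh (ath s))` as a function of `s`: `log 2 - log(1-s^2)/2`. -/
noncomputable def ell (s : ℝ) : ℝ := Real.log 2 - Real.log (1 - s ^ 2) / 2

/-- `B_s = s^2 / ((1-s^2) ell s)`. -/
noncomputable def BB (s : ℝ) : ℝ := s ^ 2 / ((1 - s ^ 2) * ell s)

/-- `A_s = artanh s + B_s h(s)/s`. -/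
noncomputable def AA (s : ℝ) : ℝ := ath s + BB s * hh s / s

/-- the slope function of `R` : `s/((1-s^2) artanh s) - 1 ≥ 0`. -/
noncomputable def rr (s : ℝ) : ℝ := s / ((1 - s ^ 2) * ath s) - 1

/-- `R` along the parametrization `x = hh s`: `s artanh s - 2 (log 2 - hh s)`. -/
noncomputable def Rs (s : ℝ) : ℝ := s * ath s - 2 * (Real.log 2 - hh s)

open Classical in
/-- `R(x)`: equals `Rs s` for `x = hh s`, `s ∈ (0,1)`, and `0` for `x ≥ log 2`. -/
noncomputable def RR (x : ℝ) : ℝ :=
  if h : ∃ s, 0 < s ∧ s < 1 ∧ hh s = x then Rs h.choose else 0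

/-- helper19's Bellman function `B(m,H) = 2 (h(m) - H) + (1-m^2) R(H/(1-m^2))`. -/
noncomputable def Bf (m H : ℝ) : ℝ := 2 * (hh m - H) + (1 - m ^ 2) * RR (H / (1 - m ^ 2))

end P322
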