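import Vale.Agent.P322.Defs
namespace P322

private lemma Deriv_kernel_diff {n : ℕ} (ρ : ℝ) (x y : Fin n → Bool) (i : Fin n) :
    (∏ j, if x j = y j then (1 + ρ) / 2 else (1 - ρ) / 2) -
      (∏ j, if x j = flipAt i y j then (1 + ρ) / 2 else (1 - ρ) / 2) =
    (∏ j ∈ Finset.univ.erase i, if x j = y j then (1 + ρ) / 2 else (1 - ρ) / 2) *
      ((if x i = y i then 1 / 2 else -1 / 2) * (2 * ρ)) := by
  rw [← Finset.mul_prod_erase Finset.univ _ (Finset.mem_univ i),
    ← Finset.mul_prod_erase Finset.univ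
      (fun j => if x j = flipAt i y j then (1 + ρ) / 2 else (1 - ρ) / 2) (Finset.mem_univ i)]
  have h1 : (∏ j ∈ Finset.univ.erase i,
      if x j = flipAt i y j then (1 + ρ) / 2 else (1 - ρ) / 2) =
      ∏ j ∈ Finset.univ.erase i, if x j = y j then (1 + ρ) / 2 else (1 - ρ) / 2 := by
    apply Finset.prod_congr rfl
    intro j hj
    have hji : j ≠ i := (Finset.mem_erase.mp hj).1
    have : flipAt i y j = y j := by
      unfold flipAt
      exact Function.update_of_ne hji _ _
    rw [this]
  rw [h1]
  have h2 : flipAt i y i = !y i := by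
    unfold flipAt
    exact Function.update_self i _ _
  rw [h2]
  rcases hxb : x i with _ | _ <;> rcases hyb : y i with _ | _ <;> simp <;> ring

/-- derivative of the noise operator: `ρ d/dρ T_ρ u = L T_ρ u`. -/
theorem hasDerivAt_TT {n : ℕ} (u : (Fin n → Bool) → ℝ) (y : Fin n → Bool) {ρ : ℝ} (hρ : ρ ≠ 0) :
    HasDerivAt (fun r => TT r u y)
      ((∑ i, (TT ρ u y - TT ρ u (flipAt i y)) / 2) / ρ) ρ := by
  have hk : ∀ (x : Fin n → Bool) (i : Fin n),
      HasDerivAt (fun r : ℝ => if x i = y i then (1 + r) / 2 else (1 - r) / 2)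
        (if x i = y i then 1 / 2 else -1 / 2) ρ := by
    intro x i
    split_ifs
    · have := ((hasDerivAt_id ρ).const_add 1).div_const 2
      simpa using this
    · have := ((hasDerivAt_id ρ).const_sub 1).div_const 2
      simpa using this
  have hprod : ∀ x : Fin n → Bool,
      HasDerivAt (fun r : ℝ => ∏ i, if x i = y i then (1 + r) / 2 else (1 - r) / 2)
        (∑ i, (∏ j ∈ Finset.univ.erase i, if x j = y j then (1 + ρ) / 2 else (1 - ρ) / 2) *
          (if x i = y i then 1 / 2 else -1 / 2)) ρ := by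
    intro x
    have := HasDerivAt.fun_finset_prod (u := Finset.univ) (fun i _ => hk x i)
    simpa [smul_eq_mul] using this
  have hsum : HasDerivAt (fun r => TT r u y)
      (∑ x : Fin n → Bool, (∑ i, (∏ j ∈ Finset.univ.erase i,
        if x j = y j then (1 + ρ) / 2 else (1 - ρ) / 2) *
          (if x i = y i then 1 / 2 else -1 / 2)) * u x) ρ := by
    unfold TT
    exact HasDerivAt.fun_sum (fun x _ => (hprod x).mul_const (u x))
  have heq : (∑ i, (TT ρ u y - TT ρ u (flipAt i y)) / 2) / ρ =
      ∑ x : Fin n → Bool, (∑ i, (∏ j ∈ Finset.univ.erase i,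
        if x j = y j then (1 + ρ) / 2 else (1 - ρ) / 2) *
          (if x i = y i then 1 / 2 else -1 / 2)) * u x := by
    have h1 : ∀ i, (TT ρ u y - TT ρ u (flipAt i y)) / 2 =
        ρ * ∑ x : Fin n → Bool, (∏ j ∈ Finset.univ.erase i,
          if x j = y j then (1 + ρ) / 2 else (1 - ρ) / 2) *
          (if x i = y i then 1 / 2 else -1 / 2) * u x := by
      intro i
      unfold TT
      rw [← Finset.sum_sub_distrib, Finset.sum_div, Finset.mul_sum]
      apply Finset.sum_congr rfl
      intro x _
      rw [← sub_mul, Deriv_kernel_diff]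
      ring
    simp only [h1]
    rw [← Finset.mul_sum, mul_div_assoc, mul_comm, div_mul_cancel₀ _ hρ, Finset.sum_comm]
    apply Finset.sum_congr rfl
    intro x _
    rw [Finset.sum_mul]
  rw [heq]
  exact hsum

end P322
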