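import Vale.Agent.P322.Reduce
namespace P322

/-- half difference of `ath`. -/
noncomputable def zet (m t : ℝ) : ℝ := (ath (m + t) - ath (m - t)) / 2

/-- the average entropy -/
noncomputable def hb (m t : ℝ) : ℝ := (hh (m + t) + hh (m - t)) / 2

theorem e1_mem {m t : ℝ} (h : |m| + |t| < 1) :
    m + t ∈ Set.Ioo (-1 : ℝ) 1 ∧ m - t ∈ Set.Ioo (-1 : ℝ) 1 := by
  have h1 := abs_lt.1 (lt_of_le_of_lt (abs_add_le m t) h)
  have h2 := abs_lt.1 (lt_of_le_of_lt (abs_sub m t) h)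
  exact ⟨⟨h1.1, h1.2⟩, ⟨h2.1, h2.2⟩⟩

theorem e1_fac {m t : ℝ} (h0 : 0 ≤ t) (h : |m| + t < 1) :
    0 < 1 + m + t ∧ 0 < 1 - m - t ∧ 0 < 1 + m - t ∧ 0 < 1 - m + t := by
  have h1 := neg_abs_le m
  have h2 := le_abs_self m
  refine ⟨?_, ?_, ?_, ?_⟩ <;> linarith

theorem e1_zet_eq {m t : ℝ} (h0 : 0 ≤ t) (h : |m| + t < 1) :
    zet m t = (Real.log ((1 + m + t) * (1 - m + t)) - Real.log ((1 - m - t) * (1 + m - t))) / 4 := by
  obtain ⟨h1, h2, h3, h4⟩ := e1_fac h0 h
  unfold zet ath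
  rw [show 1 + (m + t) = 1 + m + t by ring, show 1 - (m + t) = 1 - m - t by ring,
    show 1 + (m - t) = 1 + m - t by ring, show 1 - (m - t) = 1 - m + t by ring,
    Real.log_div h1.ne' h2.ne', Real.log_div h3.ne' h4.ne', Real.log_mul h1.ne' h4.ne',
    Real.log_mul h2.ne' h3.ne']
  ring

theorem e1_ath_eq {a : ℝ} (ha : a ∈ Set.Ioo (-1 : ℝ) 1) :
    ath a = (Real.log ((1 + a) ^ 2) - Real.log ((1 - a) ^ 2)) / 4 := by
  have h1 : 0 < 1 + a := by linarith [ha.1]
  have h2 : 0 < 1 - a := by linarith [ha.2]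
  unfold ath
  rw [Real.log_div h1.ne' h2.ne', Real.log_pow, Real.log_pow]
  push_cast
  ring

/-- `t (1+b²) ≤ b (g+t²)` implies `ζ ≤ artanh b`. -/
theorem e1_Z1 {m t b : ℝ} (h0 : 0 ≤ t) (h : |m| + t < 1) (hb0 : 0 < b) (hb1 : b < 1)
    (hle : t * (1 + b ^ 2) ≤ b * (1 - m ^ 2 + t ^ 2)) : zet m t ≤ ath b := by
  obtain ⟨h1, h2, h3, h4⟩ := e1_fac h0 h
  rw [e1_zet_eq h0 h, e1_ath_eq ⟨by linarith, hb1⟩]
  have p1 : 0 < (1 + m + t) * (1 - m + t) := mul_pos h1 h4
  have p2 : 0 < (1 - m - t) * (1 + m - t) := mul_pos h2 h3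
  have p3 : 0 < (1 + b) ^ 2 := by positivity
  have p4 : 0 < (1 - b) ^ 2 := by
    have : 0 < 1 - b := by linarith
    positivity
  have key : Real.log ((1 + m + t) * (1 - m + t)) + Real.log ((1 - b) ^ 2)
      ≤ Real.log ((1 + b) ^ 2) + Real.log ((1 - m - t) * (1 + m - t)) := by
    rw [← Real.log_mul p1.ne' p4.ne', ← Real.log_mul p3.ne' p2.ne']
    apply Real.log_le_log (mul_pos p1 p4)
    nlinarith [hle]
  linarith

theorem e1_Z2 {m t a : ℝ} (h0 : 0 ≤ t) (h : |m| + t < 1) (ha0 : 0 < a) (ha1 : a < 1)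
    (he : ath a = zet m t) : a * (1 - m ^ 2 + t ^ 2) = t * (1 + a ^ 2) := by
  obtain ⟨h1, h2, h3, h4⟩ := e1_fac h0 h
  rw [e1_zet_eq h0 h, e1_ath_eq ⟨by linarith, ha1⟩] at he
  have p1 : 0 < (1 + m + t) * (1 - m + t) := mul_pos h1 h4
  have p2 : 0 < (1 - m - t) * (1 + m - t) := mul_pos h2 h3
  have p3 : 0 < (1 + a) ^ 2 := by positivity
  have p4 : 0 < (1 - a) ^ 2 := by
    have : 0 < 1 - a := by linarith
    positivity
  have key : Real.log ((1 + m + t) * (1 - m + t)) + Real.log ((1 - a) ^ 2)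
      = Real.log ((1 + a) ^ 2) + Real.log ((1 - m - t) * (1 + m - t)) := by linarith
  rw [← Real.log_mul p1.ne' p4.ne', ← Real.log_mul p3.ne' p2.ne'] at key
  have k2 := Real.log_injOn_pos (Set.mem_Ioi.2 (mul_pos p1 p4)) (Set.mem_Ioi.2 (mul_pos p3 p2)) key
  nlinarith [k2]

/-- from the relation: `t ≤ a` and `t ≤ g a`. -/
theorem e1_F2 {m t a : ℝ} (h0 : 0 < t) (h : |m| + t < 1) (ha0 : 0 < a) (ha1 : a < 1)
    (hr : a * (1 - m ^ 2 + t ^ 2) = t * (1 + a ^ 2)) : t ≤ a ∧ t ≤ (1 - m ^ 2) * a := by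
  have ht1 : t < 1 := by linarith [abs_nonneg m]
  have hat : a * t < 1 := by nlinarith
  have hid : t - (1 - m ^ 2) * a = a * t * (t - a) := by linarith [hr]
  have hta : t ≤ a := by
    by_contra hc
    push Not at hc
    have : t - a ≤ t - (1 - m ^ 2) * a := by nlinarith [sq_nonneg m]
    nlinarith [mul_pos (sub_pos.2 hat) (sub_pos.2 hc)]
  refine ⟨hta, ?_⟩
  nlinarith [mul_nonneg (mul_pos ha0 h0).le (sub_nonneg.2 hta)]

theorem e1_zet_hasDerivAt {m t : ℝ} (h : |m| + |t| < 1) :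
    HasDerivAt (fun t => zet m t) ((1 / (1 - (m + t) ^ 2) + 1 / (1 - (m - t) ^ 2)) / 2) t := by
  obtain ⟨h1, h2⟩ := e1_mem h
  have d1 : HasDerivAt (fun t => ath (m + t)) (1 / (1 - (m + t) ^ 2) * 1) t :=
    (hasDerivAt_ath h1).comp t ((hasDerivAt_id t).const_add m)
  have d2 : HasDerivAt (fun t => ath (m - t)) (1 / (1 - (m - t) ^ 2) * (-1)) t :=
    (hasDerivAt_ath h2).comp t ((hasDerivAt_id t).const_sub m)
  have d3 := (d1.sub d2).div_const 2
  refine d3.congr_deriv ?_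
  ring

theorem e1_hb_hasDerivAt {m t : ℝ} (h : |m| + |t| < 1) :
    HasDerivAt (fun t => hb m t) (-(zet m t)) t := by
  obtain ⟨h1, h2⟩ := e1_mem h
  have d1 : HasDerivAt (fun t => hh (m + t)) (-ath (m + t) * 1) t :=
    (hasDerivAt_hh h1).comp t ((hasDerivAt_id t).const_add m)
  have d2 : HasDerivAt (fun t => hh (m - t)) (-ath (m - t) * (-1)) t :=
    (hasDerivAt_hh h2).comp t ((hasDerivAt_id t).const_sub m)
  have d3 := (d1.add d2).div_const 2
  refine d3.congr_deriv ?_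
  unfold zet
  ring

/-- (F1): `Δ(m,d) ≤ (d/a) (log 2 - h a)`. -/
theorem e1_F1 {m d a : ℝ} (h0 : 0 < d) (h : |m| + d < 1) (ha0 : 0 < a) (ha1 : a < 1)
    (hr : a * (1 - m ^ 2 + d ^ 2) = d * (1 + a ^ 2)) :
    hh m - hb m d ≤ d / a * (Real.log 2 - hh a) := by
  obtain ⟨hda, hdg⟩ := e1_F2 h0 h ha0 ha1 hr
  set Y : ℝ := a / d with hY
  have hYd : Y * d = a := by rw [hY]; field_simp
  have hY0 : 0 < Y := by positivity
  have hY1 : 1 ≤ Y := by rw [hY, le_div_iff₀ h0]; linarith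
  have hrel : Y * (1 - m ^ 2) - 1 = d ^ 2 * Y * (Y - 1) := by
    rw [← hYd] at hr
    have : d * (Y * (1 - m ^ 2) - 1) = d * (d ^ 2 * Y * (Y - 1)) := by linarith
    exact mul_left_cancel₀ h0.ne' this
  let P : ℝ → ℝ := fun t => d / a * (Real.log 2 - hh (Y * t)) - (hh m - hb m t)
  have hP : ∀ t, 0 ≤ t → t ≤ d → HasDerivAt P (ath (Y * t) - zet m t) t := by
    intro t ht0 htd
    have hm1 : |m| + |t| < 1 := by rw [abs_of_nonneg ht0]; linarith
    have hYt : Y * t < 1 := lt_of_le_of_lt (by nlinarith : Y * t ≤ Y * d) (by rw [hYd]; exact ha1)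
    have hYt0 : 0 ≤ Y * t := by positivity
    have e1 : HasDerivAt (fun t => hh (Y * t)) (-ath (Y * t) * (Y * 1)) t :=
      (hasDerivAt_hh ⟨by linarith, hYt⟩).comp t ((hasDerivAt_id t).const_mul Y)
    have e2 := ((e1.const_sub (Real.log 2)).const_mul (d / a)).sub
      ((e1_hb_hasDerivAt hm1).const_sub (hh m))
    refine e2.congr_deriv ?_
    rw [hY]
    field_simp
  have hmono : MonotoneOn P (Set.Icc 0 d) := by
    apply monotoneOn_of_deriv_nonneg (convex_Icc 0 d)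
    · intro t ht
      exact (hP t ht.1 ht.2).continuousAt.continuousWithinAt
    · intro t ht
      rw [interior_Icc] at ht
      exact (hP t ht.1.le ht.2.le).differentiableAt.differentiableWithinAt
    · intro t ht
      rw [interior_Icc] at ht
      rw [(hP t ht.1.le ht.2.le).deriv, sub_nonneg]
      have hYt : Y * t < 1 := lt_of_le_of_lt (by nlinarith [ht.2] : Y * t ≤ Y * d) (by rw [hYd]; exact ha1)
      apply e1_Z1 ht.1.le (by linarith [ht.2]) (mul_pos hY0 ht.1) hYt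
      have h5 : t ^ 2 * (Y * (Y - 1)) ≤ d ^ 2 * (Y * (Y - 1)) := by
        apply mul_le_mul_of_nonneg_right _ (mul_nonneg hY0.le (by linarith))
        exact pow_le_pow_left₀ ht.1.le ht.2.le 2
      have h6 : 1 + Y ^ 2 * t ^ 2 ≤ Y * (1 - m ^ 2 + t ^ 2) := by nlinarith
      calc t * (1 + (Y * t) ^ 2) = t * (1 + Y ^ 2 * t ^ 2) := by ring
        _ ≤ t * (Y * (1 - m ^ 2 + t ^ 2)) := mul_le_mul_of_nonneg_left h6 ht.1.le
        _ = Y * t * (1 - m ^ 2 + t ^ 2) := by ring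
  have hfin := hmono (Set.left_mem_Icc.2 h0.le) (Set.right_mem_Icc.2 h0.le) h0.le
  have hP0 : P 0 = 0 := by
    simp only [P, hb, mul_zero, add_zero, sub_zero, hh_zero]
    ring
  rw [hP0] at hfin
  simp only [P, hYd] at hfin
  linarith

/-- (E1b) -/
theorem e1_E1b {m d a : ℝ} (h0 : 0 < d) (h : |m| + d < 1) (ha0 : 0 < a) (ha1 : a < 1)
    (hr : a * (1 - m ^ 2 + d ^ 2) = d * (1 + a ^ 2)) :
    (1 - m ^ 2) * hh a ≤ hb m d := by
  obtain ⟨hda, hdg⟩ := e1_F2 h0 h ha0 ha1 hr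
  have hF1 := e1_F1 h0 h ha0 ha1 hr
  have hq := hh_ge_quad (m := m) ⟨by linarith [neg_abs_le m], by linarith [le_abs_self m]⟩
  have h3 : d / a ≤ 1 - m ^ 2 := by rw [div_le_iff₀ ha0]; linarith
  have h4 : 0 ≤ Real.log 2 - hh a := by linarith [hh_le (u := a)]
  have h5 := mul_le_mul_of_nonneg_right h3 h4
  nlinarith

/-- **(E1)**: the one-bit case with `G = 1 - m²`. -/
theorem E1 {m d : ℝ} (h0 : 0 < d) (h : |m| + d < 1) :
    2 * (hh m - (hh (m + d) + hh (m - d)) / 2)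
      + (1 - m ^ 2) * RR (((hh (m + d) + hh (m - d)) / 2) / (1 - m ^ 2)) ≤ jj (m + d) (m - d) := by
  have hg : 0 < 1 - m ^ 2 := by
    have : |m| < 1 := by linarith
    have := (sq_lt_one_iff_abs_lt_one m).2 this
    linarith
  let S : ℝ → ℝ := fun t => t * zet m t - 2 * (hh m - hb m t) - (1 - m ^ 2) * RR (hb m t / (1 - m ^ 2))
  have hbpos : ∀ t, 0 ≤ t → t ≤ d → 0 < hb m t := by
    intro t ht0 htd
    obtain ⟨h1, h2⟩ := e1_mem (m := m) (t := t) (by rw [abs_of_nonneg ht0]; linarith)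
    have := hh_pos h1
    have := hh_pos h2
    unfold hb
    linarith
  have hS : ∀ t, 0 ≤ t → t ≤ d → HasDerivAt S
      (t * ((1 / (1 - (m + t) ^ 2) + 1 / (1 - (m - t) ^ 2)) / 2)
        - zet m t * (1 + XX (hb m t / (1 - m ^ 2)))) t := by
    intro t ht0 htd
    have hm1 : |m| + |t| < 1 := by rw [abs_of_nonneg ht0]; linarith
    have d1 := e1_zet_hasDerivAt hm1
    have d2 := e1_hb_hasDerivAt hm1
    have d3 : HasDerivAt (fun t => RR (hb m t / (1 - m ^ 2)))
        (-(XX (hb m t / (1 - m ^ 2))) * (-(zet m t) / (1 - m ^ 2))) t :=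
      HasDerivAt.comp (h₂ := RR) (h := fun t => hb m t / (1 - m ^ 2)) t
        (hasDerivAt_RR (div_pos (hbpos t ht0 htd) hg)) (d2.div_const (1 - m ^ 2))
    have d4 := (((hasDerivAt_id t).mul d1).sub ((d2.const_sub (hh m)).const_mul 2)).sub
      (d3.const_mul (1 - m ^ 2))
    refine d4.congr_deriv ?_
    simp only [id]
    field_simp
    ring
  have hmono : MonotoneOn S (Set.Icc 0 d) := by
    apply monotoneOn_of_deriv_nonneg (convex_Icc 0 d)
    · intro t ht
      exact (hS t ht.1 ht.2).continuousAt.continuousWithinAt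
    · intro t ht
      rw [interior_Icc] at ht
      exact (hS t ht.1.le ht.2.le).differentiableAt.differentiableWithinAt
    · intro t ht
      rw [interior_Icc] at ht
      rw [(hS t ht.1.le ht.2.le).deriv, sub_nonneg]
      have ht0 : 0 < t := ht.1
      have htm : |m| + t < 1 := by linarith [ht.2]
      obtain ⟨f1, f2, f3, f4⟩ := e1_fac ht0.le htm
      -- the point a
      have hzpos : 0 < zet m t := by
        unfold zet
        have := ath_strictMono (x := m - t) (y := m + t) (by linarith) (by linarith) (by linarith)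
        linarith
      obtain ⟨a, ha, hae⟩ := exists_ath hzpos
      have hr := e1_Z2 ht0.le htm ha.1 ha.2 hae
      have hE := e1_E1b ht0 htm ha.1 ha.2 hr
      have hX : XX (hb m t / (1 - m ^ 2)) ≤ rr a := by
        rw [← XX_hh ha]
        apply XX_anti (hh_pos ⟨by linarith [ha.1], ha.2⟩)
        rw [le_div_iff₀ hg]
        linarith
      have ha2 : 0 < 1 - a ^ 2 := by nlinarith [ha.1, ha.2]
      have h7 : zet m t * (1 + XX (hb m t / (1 - m ^ 2))) ≤ a / (1 - a ^ 2) := by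
        calc zet m t * (1 + XX (hb m t / (1 - m ^ 2))) ≤ zet m t * (1 + rr a) :=
              mul_le_mul_of_nonneg_left (by linarith) hzpos.le
          _ = a / (1 - a ^ 2) := by
              unfold rr
              rw [← hae]
              have : 0 < ath a := ath_pos ha.1 ha.2
              field_simp
              ring
      refine h7.trans ?_
      have q1 : 0 < 1 - (m + t) ^ 2 := by nlinarith [mul_pos f1 f2]
      have q2 : 0 < 1 - (m - t) ^ 2 := by nlinarith [mul_pos f3 f4]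
      have hQ : (1 - (m + t) ^ 2) * (1 - (m - t) ^ 2) = (1 - m ^ 2 + t ^ 2) ^ 2 - 4 * t ^ 2 := by ring
      have hQpos := mul_pos q1 q2
      have hQa : a ^ 2 * ((1 - (m + t) ^ 2) * (1 - (m - t) ^ 2)) = (t * (1 - a ^ 2)) ^ 2 := by
        rw [hQ]
        have : a ^ 2 * ((1 - m ^ 2 + t ^ 2) ^ 2 - 4 * t ^ 2)
            = (a * (1 - m ^ 2 + t ^ 2)) ^ 2 - 4 * a ^ 2 * t ^ 2 := by ring
        rw [this, hr]
        ring
      have hA : 0 < 1 - m ^ 2 - t ^ 2 := by nlinarith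
      have hkey : t * (1 - a ^ 2) ≤ a * (1 - m ^ 2 - t ^ 2) := by
        apply le_of_sq_le_sq _ (mul_pos ha.1 hA).le
        rw [← hQa, mul_pow]
        apply mul_le_mul_of_nonneg_left _ (sq_nonneg a)
        rw [hQ]
        nlinarith [sq_nonneg m, sq_nonneg t, mul_nonneg (sq_nonneg m) (sq_nonneg t)]
      have hrhs : t * ((1 / (1 - (m + t) ^ 2) + 1 / (1 - (m - t) ^ 2)) / 2)
          = t * (1 - m ^ 2 - t ^ 2) / ((1 - (m + t) ^ 2) * (1 - (m - t) ^ 2)) := by
        field_simp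
        ring
      rw [hrhs, div_le_div_iff₀ ha2 hQpos]
      have h8 : a * (a * ((1 - (m + t) ^ 2) * (1 - (m - t) ^ 2)))
          ≤ a * (t * (1 - m ^ 2 - t ^ 2) * (1 - a ^ 2)) := by
        calc a * (a * ((1 - (m + t) ^ 2) * (1 - (m - t) ^ 2)))
            = (t * (1 - a ^ 2)) * (t * (1 - a ^ 2)) := by rw [← mul_assoc, ← sq, hQa]; ring
          _ ≤ (t * (1 - a ^ 2)) * (a * (1 - m ^ 2 - t ^ 2)) :=
              mul_le_mul_of_nonneg_left hkey (mul_pos ht0 ha2).le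
          _ = a * (t * (1 - m ^ 2 - t ^ 2) * (1 - a ^ 2)) := by ring
      exact le_of_mul_le_mul_left h8 ha.1
  have hfin := hmono (Set.left_mem_Icc.2 h0.le) (Set.right_mem_Icc.2 h0.le) h0.le
  have hS0 : S 0 = 0 := by
    have hz : zet m 0 = 0 := by unfold zet; simp
    have hbz : hb m 0 = hh m := by unfold hb; simp
    have hq := hh_ge_quad (m := m) ⟨by linarith [neg_abs_le m], by linarith [le_abs_self m]⟩
    have : RR (hh m / (1 - m ^ 2)) = 0 := by
      apply RR_zero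
      rw [le_div_iff₀ hg]
      linarith
    simp only [S, hz, hbz, this]
    ring
  rw [hS0] at hfin
  have hj : jj (m + d) (m - d) = d * zet m d := by unfold jj zet; ring
  rw [hj]
  simp only [S] at hfin
  unfold hb at hfin
  linarith

end P322
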