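import Vale.Agent.P322.H2
namespace P322

theorem L1_ath_eq {a : ℝ} (ha : a ∈ Set.Ioo (-1 : ℝ) 1) : ath a = Real.artanh a := by
  rw [Real.artanh_eq_half_log ⟨ha.1.le, ha.2.le⟩, ath]; ring

theorem L1_tanh_mem (z : ℝ) : Real.tanh z ∈ Set.Ioo (-1 : ℝ) 1 :=
  Real.tanh_bijOn.mapsTo (Set.mem_univ z)

theorem L1_ath_tanh (z : ℝ) : ath (Real.tanh z) = z := by
  rw [L1_ath_eq (L1_tanh_mem z), Real.artanh_tanh]

theorem L1_tanh_ath {a : ℝ} (ha : a ∈ Set.Ioo (-1 : ℝ) 1) : Real.tanh (ath a) = a := by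
  rw [L1_ath_eq ha, Real.tanh_artanh ha]

/-- `1 - tanh² = 1/cosh²` -/
theorem L1_one_sub_tanh (z : ℝ) : 1 - Real.tanh z ^ 2 = 1 / Real.cosh z ^ 2 := by
  rw [Real.tanh_eq_sinh_div_cosh]
  have hc : Real.cosh z ≠ 0 := (Real.cosh_pos z).ne'
  have := Real.cosh_sq z
  field_simp
  linarith

theorem L1_ell_tanh (z : ℝ) : ell (Real.tanh z) = Real.log (2 * Real.cosh z) := by
  unfold ell
  rw [L1_one_sub_tanh, Real.log_div one_ne_zero (by positivity), Real.log_one, Real.log_pow,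
    Real.log_mul two_ne_zero (Real.cosh_pos z).ne']
  push_cast; ring

/-- `h(tanh z) = log(2 cosh z) - z tanh z` -/
theorem L1_hh_tanh (z : ℝ) :
    hh (Real.tanh z) = Real.log (2 * Real.cosh z) - z * Real.tanh z := by
  rw [hh_eq (L1_tanh_mem z), L1_ath_tanh, L1_ell_tanh]; ring

theorem L1_log_two : (1 : ℝ) / 2 < Real.log 2 := by
  have := Real.log_two_gt_d9; linarith

/-- `(1-u²) artanh u ≤ 2 u h(u)` on `[0,1)`. -/
theorem L1_phi {u : ℝ} (h0 : 0 ≤ u) (h1 : u < 1) : (1 - u ^ 2) * ath u ≤ 2 * u * hh u := by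
  have hp : 0 < 1 + u := by linarith
  have hm : 0 < 1 - u := by linarith
  rw [hh_eq ⟨by linarith, h1⟩]
  have e1 : ell u = Real.log 2 - (Real.log (1 - u) + Real.log (1 + u)) / 2 := by
    unfold ell
    rw [show (1 : ℝ) - u ^ 2 = (1 - u) * (1 + u) by ring, Real.log_mul hm.ne' hp.ne']
  have e2 : ath u = (Real.log (1 + u) - Real.log (1 - u)) / 2 := by
    unfold ath; rw [Real.log_div hp.ne' hm.ne']
  have i1 : (1 - u) / 2 ≤ Real.log 2 - Real.log (1 + u) := by
    have := Real.one_sub_inv_le_log_of_pos (show (0 : ℝ) < 2 / (1 + u) by positivity)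
    rw [Real.log_div two_ne_zero hp.ne'] at this
    have e : (1 : ℝ) - (2 / (1 + u))⁻¹ = (1 - u) / 2 := by
      field_simp; ring
    rw [e] at this; exact this
  have i2 : -(2 * u) ≤ (Real.log (1 - u) - Real.log (1 + u)) * (1 - u) := by
    have := Real.one_sub_inv_le_log_of_pos (show (0 : ℝ) < (1 - u) / (1 + u) by positivity)
    rw [Real.log_div hm.ne' hp.ne'] at this
    have e : ((1 : ℝ) - ((1 - u) / (1 + u))⁻¹) * (1 - u) = -(2 * u) := by
      field_simp; ring
    have := mul_le_mul_of_nonneg_right this hm.le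
    rw [e] at this; exact this
  have key : 2 * u * (ell u - u * ath u) - (1 - u ^ 2) * ath u
      = 2 * u * (Real.log 2 - Real.log (1 + u))
        + (1 - u) / 2 * ((Real.log (1 - u) - Real.log (1 + u)) * (1 - u)) := by
    rw [e1, e2]; ring
  have j1 := mul_le_mul_of_nonneg_left i1 (show 0 ≤ 2 * u by linarith)
  have j2 := mul_le_mul_of_nonneg_left i2 (show 0 ≤ (1 - u) / 2 by linarith)
  nlinarith [key, j1, j2]

/-- `K(p) = D log (4 D) - p sinh 2p`, `D = (cosh 2p + cosh 2q)/2`. -/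
noncomputable def L1_D (q p : ℝ) : ℝ := (Real.cosh (2 * p) + Real.cosh (2 * q)) / 2

noncomputable def L1_K (q p : ℝ) : ℝ :=
  L1_D q p * Real.log (4 * L1_D q p) - p * Real.sinh (2 * p)

theorem L1_D_pos (q p : ℝ) : 0 < L1_D q p := by
  unfold L1_D
  have := Real.cosh_pos (2 * p)
  have := Real.cosh_pos (2 * q)
  linarith

theorem L1_D_ge (q p : ℝ) : Real.cosh p ^ 2 ≤ L1_D q p := by
  unfold L1_D
  have h1 := Real.one_le_cosh (2 * q)
  have h2 := Real.cosh_two_mul p
  have h3 := Real.cosh_sq p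
  linarith

theorem L1_hasDerivAt_D (q p : ℝ) : HasDerivAt (L1_D q) (Real.sinh (2 * p)) p := by
  have h : HasDerivAt (fun p : ℝ => 2 * p) 2 p := by
    simpa using (hasDerivAt_id p).const_mul (2 : ℝ)
  have h2 := ((h.cosh).add_const (Real.cosh (2 * q))).div_const 2
  refine h2.congr_deriv ?_
  ring

theorem L1_hasDerivAt_K (q p : ℝ) : HasDerivAt (L1_K q)
    (Real.sinh (2 * p) * Real.log (4 * L1_D q p) - 2 * p * Real.cosh (2 * p)) p := by
  have hD := L1_hasDerivAt_D q p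
  have h : HasDerivAt (fun p : ℝ => 2 * p) 2 p := by
    simpa using (hasDerivAt_id p).const_mul (2 : ℝ)
  have hlog := (hD.const_mul (4 : ℝ)).log (by have := L1_D_pos q p; positivity)
  have h2 := (hD.mul hlog).sub ((hasDerivAt_id p).mul h.sinh)
  refine h2.congr_deriv ?_
  have hDp := (L1_D_pos q p).ne'
  simp only [id]
  field_simp
  ring

theorem L1_K_deriv_nonneg (q : ℝ) {p : ℝ} (hp : 0 ≤ p) :
    0 ≤ Real.sinh (2 * p) * Real.log (4 * L1_D q p) - 2 * p * Real.cosh (2 * p) := by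
  have hu0 : 0 ≤ Real.tanh p := by
    rw [Real.tanh_eq_sinh_div_cosh]
    exact div_nonneg (Real.sinh_nonneg_iff.2 hp) (Real.cosh_pos p).le
  have h := L1_phi hu0 (L1_tanh_mem p).2
  rw [L1_hh_tanh, L1_ath_tanh] at h
  have hc := Real.cosh_pos p
  have hlog : 2 * Real.log (2 * Real.cosh p) ≤ Real.log (4 * L1_D q p) := by
    have : 2 * Real.log (2 * Real.cosh p) = Real.log (4 * Real.cosh p ^ 2) := by
      rw [show (4 : ℝ) * Real.cosh p ^ 2 = (2 * Real.cosh p) ^ 2 by ring, Real.log_pow]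
      push_cast; ring
    rw [this]
    exact Real.log_le_log (by positivity) (by linarith [L1_D_ge q p])
  have hs : 0 ≤ Real.sinh (2 * p) := Real.sinh_nonneg_iff.2 (by linarith)
  have h3 := mul_le_mul_of_nonneg_left hlog hs
  -- cosh 2p * p ≤ sinh 2p * log (2 cosh p)
  have h4 : Real.cosh (2 * p) * p ≤ Real.sinh (2 * p) * Real.log (2 * Real.cosh p) := by
    have e1 : Real.sinh (2 * p) = 2 * Real.tanh p * Real.cosh p ^ 2 := by
      rw [Real.sinh_two_mul, Real.tanh_eq_sinh_div_cosh]; field_simp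
    have e2 : Real.cosh (2 * p) = (1 + Real.tanh p ^ 2) * Real.cosh p ^ 2 := by
      rw [Real.cosh_two_mul, Real.tanh_eq_sinh_div_cosh]; field_simp
    rw [e1, e2]
    have hc2 : 0 < Real.cosh p ^ 2 := by positivity
    have : (1 + Real.tanh p ^ 2) * p ≤ 2 * Real.tanh p * Real.log (2 * Real.cosh p) := by
      nlinarith [h]
    nlinarith [mul_le_mul_of_nonneg_left this hc2.le]
  linarith

theorem L1_K_ge {q p : ℝ} (hp : 0 ≤ p) : L1_K q 0 ≤ L1_K q p := by
  have hmono : MonotoneOn (L1_K q) (Set.Ici 0) := by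
    apply monotoneOn_of_deriv_nonneg (convex_Ici 0)
    · exact fun x _ => (L1_hasDerivAt_K q x).continuousAt.continuousWithinAt
    · exact fun x _ => (L1_hasDerivAt_K q x).differentiableAt.differentiableWithinAt
    · intro x hx
      rw [interior_Ici] at hx
      rw [(L1_hasDerivAt_K q x).deriv]
      exact L1_K_deriv_nonneg q (le_of_lt hx)
  exact hmono (Set.self_mem_Ici) hp hp

theorem L1_K_even (q p : ℝ) : L1_K q (-p) = L1_K q p := by
  unfold L1_K L1_D
  rw [show 2 * -p = -(2 * p) by ring, Real.cosh_neg, Real.sinh_neg]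
  ring

theorem L1_K_ge' (q p : ℝ) : L1_K q 0 ≤ L1_K q p := by
  rcases le_total 0 p with hp | hp
  · exact L1_K_ge hp
  · rw [← L1_K_even q p]; exact L1_K_ge (by linarith)

theorem L1_D_eq (q p : ℝ) : L1_D q p = Real.cosh (p + q) * Real.cosh (p - q) := by
  unfold L1_D
  have h1 := Real.cosh_add p q
  have h2 := Real.cosh_sub p q
  rw [h1, h2, Real.cosh_two_mul, Real.cosh_two_mul]
  have h3 := Real.cosh_sq p
  have h4 := Real.cosh_sq q
  nlinarith [h3, h4]

/-- reduction to `p = 0`. -/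
theorem L1_red {a b t : ℝ} (ha : a ∈ Set.Ioo (-1 : ℝ) 1) (hb : b ∈ Set.Ioo (-1 : ℝ) 1)
    (ht : t ∈ Set.Ioo (-1 : ℝ) 1) (ht0 : 0 ≤ t) (h : ath t = (ath a - ath b) / 2) :
    hh t * (a - b) ≤ t * (hh a + hh b) := by
  obtain ⟨q, hq⟩ : ∃ q, q = (ath a - ath b) / 2 := ⟨_, rfl⟩
  obtain ⟨p, hp⟩ : ∃ p, p = (ath a + ath b) / 2 := ⟨_, rfl⟩
  have hza : ath a = p + q := by rw [hp, hq]; ring
  have hzb : ath b = p - q := by rw [hp, hq]; ring
  have hzt : ath t = q := by rw [h, hq]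
  have ea : a = Real.tanh (p + q) := by rw [← hza, L1_tanh_ath ha]
  have eb : b = Real.tanh (p - q) := by rw [← hzb, L1_tanh_ath hb]
  have et : t = Real.tanh q := by rw [← hzt, L1_tanh_ath ht]
  clear h hq hp hza hzb hzt
  subst ea eb et
  have hcp := Real.cosh_pos (p + q)
  have hcm := Real.cosh_pos (p - q)
  have hcq := Real.cosh_pos q
  have hD := L1_D_eq q p
  have hDpos := L1_D_pos q p
  -- (a - b) D = sinh 2q, (a+b) D = sinh 2p
  have h1 : (Real.tanh (p + q) - Real.tanh (p - q)) * L1_D q p = Real.sinh (2 * q) := by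
    rw [hD, Real.tanh_eq_sinh_div_cosh, Real.tanh_eq_sinh_div_cosh,
      show 2 * q = (p + q) - (p - q) by ring, Real.sinh_sub (p + q) (p - q)]
    field_simp
  have h2 : (Real.tanh (p + q) + Real.tanh (p - q)) * L1_D q p = Real.sinh (2 * p) := by
    rw [hD, Real.tanh_eq_sinh_div_cosh, Real.tanh_eq_sinh_div_cosh,
      show 2 * p = (p + q) + (p - q) by ring, Real.sinh_add (p + q) (p - q)]
    field_simp
  have hlog : Real.log (2 * Real.cosh (p + q)) + Real.log (2 * Real.cosh (p - q))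
      = Real.log (4 * L1_D q p) := by
    rw [← Real.log_mul (by positivity) (by positivity), hD]
    congr 1; ring
  have h3 : (hh (Real.tanh (p + q)) + hh (Real.tanh (p - q))) * L1_D q p
      = L1_K q p - q * Real.sinh (2 * q) := by
    rw [L1_hh_tanh, L1_hh_tanh]
    unfold L1_K
    rw [← h1, ← h2, ← hlog]; ring
  have hD0 : L1_D q 0 = Real.cosh q ^ 2 := by
    rw [L1_D_eq]; rw [zero_add, zero_sub, Real.cosh_neg]; ring
  have hs2 : Real.sinh (2 * q) = 2 * Real.cosh q ^ 2 * Real.tanh q := by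
    rw [Real.sinh_two_mul, Real.tanh_eq_sinh_div_cosh]; field_simp
  have h4 : L1_K q 0 - q * Real.sinh (2 * q) = 2 * Real.cosh q ^ 2 * hh (Real.tanh q) := by
    unfold L1_K
    rw [hD0, L1_hh_tanh, hs2, show (4 : ℝ) * Real.cosh q ^ 2 = (2 * Real.cosh q) ^ 2 by ring,
      Real.log_pow]
    push_cast; ring
  have h5 : 2 * Real.cosh q ^ 2 * hh (Real.tanh q)
      ≤ (hh (Real.tanh (p + q)) + hh (Real.tanh (p - q))) * L1_D q p := by
    rw [← h4, h3]; linarith [L1_K_ge' q p]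
  have h6 := mul_le_mul_of_nonneg_left h5 ht0
  have h7 : Real.tanh q * (2 * Real.cosh q ^ 2 * hh (Real.tanh q))
      = hh (Real.tanh q) * (Real.tanh (p + q) - Real.tanh (p - q)) * L1_D q p := by
    rw [mul_assoc (hh (Real.tanh q)), h1, hs2]; ring
  rw [h7] at h6
  refine le_of_mul_le_mul_right ?_ hDpos
  linarith

theorem L1_ell_pos {s : ℝ} (h0 : 0 ≤ s) (h1 : s < 1) : 1 / 2 < ell s := by
  unfold ell
  have : Real.log (1 - s ^ 2) ≤ 0 := Real.log_nonpos (by nlinarith) (by nlinarith)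
  linarith [L1_log_two]

/-- `(1-x)(log 2 - log(1-x)/2)` is antitone on `[0,1)`. -/
theorem L1_num_anti {s t : ℝ} (h0 : 0 < s) (hst : s ≤ t) (h1 : t < 1) :
    (1 - t ^ 2) * ell t ≤ (1 - s ^ 2) * ell s := by
  have hx : 0 < 1 - t ^ 2 := by nlinarith
  have hy : 0 < 1 - s ^ 2 := by nlinarith
  have hst2 : 1 - t ^ 2 ≤ 1 - s ^ 2 := by nlinarith
  have hr : 0 < (1 - t ^ 2) / (1 - s ^ 2) := by positivity
  -- log (x/y) ≥ 1 - y/x
  have hl := Real.one_sub_inv_le_log_of_pos hr
  rw [Real.log_div hx.ne' hy.ne', inv_div] at hl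
  have hl2 := mul_le_mul_of_nonneg_left hl hx.le
  have e : (1 - t ^ 2) * (1 - (1 - s ^ 2) / (1 - t ^ 2)) = (1 - t ^ 2) - (1 - s ^ 2) := by
    field_simp
  rw [e] at hl2
  have hls := L1_ell_pos h0.le (lt_of_le_of_lt hst h1)
  have e2 : ell t = ell s - (Real.log (1 - t ^ 2) - Real.log (1 - s ^ 2)) / 2 := by
    unfold ell; ring
  rw [e2]
  nlinarith [mul_nonneg (sub_nonneg.2 hst2) (sub_nonneg.2 hls.le)]

theorem L1_BB_mono {s t : ℝ} (h0 : 0 < s) (hst : s ≤ t) (h1 : t < 1) : BB s ≤ BB t := by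
  unfold BB
  have hx : 0 < 1 - t ^ 2 := by nlinarith
  have hy : 0 < 1 - s ^ 2 := by nlinarith
  have hs1 := L1_ell_pos h0.le (lt_of_le_of_lt hst h1)
  have ht1 := L1_ell_pos (h0.le.trans hst) h1
  have hn := L1_num_anti h0 hst h1
  apply div_le_div₀ (by positivity) (by nlinarith) (mul_pos hx (by linarith)) hn

theorem L1_BB_nonneg {s : ℝ} (h0 : 0 ≤ s) (h1 : s < 1) : 0 ≤ BB s := by
  unfold BB
  have hy : 0 < 1 - s ^ 2 := by nlinarith
  have hs1 := L1_ell_pos h0 h1
  have : 0 < ell s := by linarith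
  positivity

/-- `G(t) = artanh t + B h(t)/t` has derivative `(ell t / t^2) (BB t - B)`. -/
theorem L1_hasDerivAt_G (B : ℝ) {t : ℝ} (h0 : 0 < t) (h1 : t < 1) :
    HasDerivAt (fun t => ath t + B * (hh t / t)) (ell t / t ^ 2 * (BB t - B)) t := by
  have ht : t ∈ Set.Ioo (-1 : ℝ) 1 := ⟨by linarith, h1⟩
  have hd := (hasDerivAt_ath ht).add
    (((hasDerivAt_hh ht).div (hasDerivAt_id t) h0.ne').const_mul B)
  refine hd.congr_deriv ?_
  have hy : 0 < 1 - t ^ 2 := by nlinarith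
  have hl : 0 < ell t := by linarith [L1_ell_pos h0.le h1]
  simp only [id]
  rw [hh_eq ht]
  unfold BB
  field_simp
  ring

theorem L1_one_dim {s t : ℝ} (hs0 : 0 < s) (hs1 : s < 1) (ht0 : 0 < t) (ht1 : t < 1) :
    ath s + BB s * (hh s / s) ≤ ath t + BB s * (hh t / t) := by
  have hcont : ContinuousOn (fun t => ath t + BB s * (hh t / t)) (Set.Ioo 0 1) :=
    fun x hx => (L1_hasDerivAt_G (BB s) hx.1 hx.2).continuousAt.continuousWithinAt
  rcases le_total s t with h | h
  · have hmono : MonotoneOn (fun t => ath t + BB s * (hh t / t)) (Set.Ico s 1) := by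
      apply monotoneOn_of_deriv_nonneg (convex_Ico s 1)
      · exact hcont.mono fun x hx => ⟨lt_of_lt_of_le hs0 hx.1, hx.2⟩
      · intro x hx
        rw [interior_Ico] at hx
        exact (L1_hasDerivAt_G (BB s) (hs0.trans hx.1) hx.2).differentiableAt.differentiableWithinAt
      · intro x hx
        rw [interior_Ico] at hx
        rw [(L1_hasDerivAt_G (BB s) (hs0.trans hx.1) hx.2).deriv]
        have := L1_BB_mono hs0 hx.1.le hx.2
        have := L1_ell_pos (hs0.trans hx.1).le hx.2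
        have : 0 < ell x := by linarith
        have : 0 ≤ BB x - BB s := by linarith
        positivity
    exact hmono ⟨le_rfl, hs1⟩ ⟨h, ht1⟩ h
  · have hanti : AntitoneOn (fun t => ath t + BB s * (hh t / t)) (Set.Ioc 0 s) := by
      apply antitoneOn_of_deriv_nonpos (convex_Ioc 0 s)
      · exact hcont.mono fun x hx => ⟨hx.1, lt_of_le_of_lt hx.2 hs1⟩
      · intro x hx
        rw [interior_Ioc] at hx
        exact (L1_hasDerivAt_G (BB s) hx.1 (hx.2.trans hs1)).differentiableAt.differentiableWithinAt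
      · intro x hx
        rw [interior_Ioc] at hx
        rw [(L1_hasDerivAt_G (BB s) hx.1 (hx.2.trans hs1)).deriv]
        have h2 := L1_BB_mono hx.1 hx.2.le hs1
        have h3 := L1_ell_pos hx.1.le (hx.2.trans hs1)
        have h4 : 0 < ell x := by linarith
        have h5 : 0 < ell x / x ^ 2 := div_pos h4 (by have := hx.1; positivity)
        exact mul_nonpos_of_nonneg_of_nonpos h5.le (by linarith)
    exact hanti ⟨ht0, h⟩ ⟨hs0, le_rfl⟩ h

/-- the two-point inequality (L1). Equality at `a = s, b = -s` and at `a = b = 1`, `a = b = -1`. -/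
theorem L1 {a b s : ℝ} (ha : a ∈ Set.Ioo (-1 : ℝ) 1) (hb : b ∈ Set.Ioo (-1 : ℝ) 1)
    (hs : s ∈ Set.Ioo (0 : ℝ) 1) :
    AA s * (a - b) / 2 - BB s * (hh a + hh b) / 2 ≤ jj a b := by
  have hB := L1_BB_nonneg hs.1.le hs.2
  have hha := hh_pos ha
  have hhb := hh_pos hb
  have hA : 0 ≤ AA s := by
    unfold AA
    have := ath_pos hs.1 hs.2
    have := hh_pos (⟨by linarith [hs.1], hs.2⟩ : s ∈ Set.Ioo (-1 : ℝ) 1)
    have := hs.1
    positivity
  have hmono : ∀ {x y : ℝ}, x ∈ Set.Ioo (-1 : ℝ) 1 → y ∈ Set.Ioo (-1 : ℝ) 1 → x ≤ y →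
      ath x ≤ ath y := by
    intro x y hx hy hxy
    rw [L1_ath_eq hx, L1_ath_eq hy]
    exact Real.artanh_le_artanh hx.1 hy.2 hxy
  rcases le_or_gt a b with hab | hab
  · have h1 := hmono ha hb hab
    have hj : 0 ≤ jj a b := by
      unfold jj
      have : 0 ≤ (b - a) * (ath b - ath a) :=
        mul_nonneg (sub_nonneg.2 hab) (sub_nonneg.2 h1)
      linarith
    have h2 : AA s * (a - b) ≤ 0 := mul_nonpos_of_nonneg_of_nonpos hA (by linarith)
    have h3 : 0 ≤ BB s * (hh a + hh b) := by positivity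
    linarith
  · -- a > b
    have hz : 0 < (ath a - ath b) / 2 := by
      have : ath b < ath a := by
        rw [L1_ath_eq ha, L1_ath_eq hb]
        exact Real.artanh_lt_artanh hb.1 ha.2 hab
      linarith
    set q := (ath a - ath b) / 2 with hq
    have ht : Real.tanh q ∈ Set.Ioo (-1 : ℝ) 1 := L1_tanh_mem q
    have ht0 : 0 < Real.tanh q := by
      rw [Real.tanh_eq_sinh_div_cosh]
      exact div_pos (Real.sinh_pos_iff.2 hz) (Real.cosh_pos q)
    have hred := L1_red ha hb ht ht0.le (by rw [L1_ath_tanh])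
    have hone := L1_one_dim hs.1 hs.2 ht0 ht.2
    rw [L1_ath_tanh] at hone
    have hAA : AA s = ath s + BB s * (hh s / s) := by unfold AA; ring
    have hjj : jj a b = (a - b) / 2 * q := by unfold jj; rw [hq]; ring
    rw [hjj]
    have h1 : (a - b) / 2 * (ath s + BB s * (hh s / s))
        ≤ (a - b) / 2 * (q + BB s * (hh (Real.tanh q) / Real.tanh q)) :=
      mul_le_mul_of_nonneg_left hone (by linarith)
    have h2 : hh (Real.tanh q) / Real.tanh q * (a - b) ≤ hh a + hh b := by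
      rw [div_mul_eq_mul_div, div_le_iff₀ ht0]
      linarith
    have h3 := mul_le_mul_of_nonneg_left h2 (show 0 ≤ BB s / 2 by positivity)
    rw [hAA]
    nlinarith [h1, h3]

end P322
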