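import Vale.Agent.P322.RR
import Vale.Agent.P322.L1

/-! # P322: the one-bit inequality (E1) for every weight `g` with
`1 - m² ≤ g` and `g log 2 ≤ h(m)` (helper11, helper4) -/

namespace P322

/-- `Λ(a) = -log(1-a²)` -/
noncomputable def egLm (a : ℝ) : ℝ := -Real.log (1 - a ^ 2)

/-- `b = 1 - a² + a² μ` -/
noncomputable def egb (a μ : ℝ) : ℝ := 1 - a ^ 2 + a ^ 2 * μ

/-- `2Δ = (1-μ)(2 a artanh a - Λ) - Φ(μ)` on the curve -/
noncomputable def egPH (a μ : ℝ) : ℝ :=
  μ * egLm a + Real.log (1 + a ^ 2 * μ)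
    - 2 * Real.sqrt (μ * egb a μ) * ath (a ^ 2 * Real.sqrt (μ / egb a μ))

theorem eg_Rs_eq {a : ℝ} (ha : a ∈ Set.Ioo (0 : ℝ) 1) : Rs a = egLm a - a * ath a := by
  have h := hh_eq (s := a) ⟨by linarith [ha.1], ha.2⟩
  unfold Rs egLm
  unfold ell at h
  linarith



theorem eg_hhf {u : ℝ} (hp : 0 < 1 + u) (hm : 0 < 1 - u) :
    hh u = Real.log 2 - (1 + u) / 2 * Real.log (1 + u) - (1 - u) / 2 * Real.log (1 - u) := by
  unfold hh Real.binEntropy
  have e : 1 - (1 + u) / 2 = (1 - u) / 2 := by ring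
  rw [e, Real.log_inv, Real.log_inv, Real.log_div hp.ne' two_ne_zero,
    Real.log_div hm.ne' two_ne_zero]
  ring

theorem eg_athf {u : ℝ} (hp : 0 < 1 + u) (hm : 0 < 1 - u) :
    ath u = (Real.log (1 + u) - Real.log (1 - u)) / 2 := by
  unfold ath
  rw [Real.log_div hp.ne' hm.ne']

theorem eg_tanh_add (x y : ℝ) : Real.tanh (x + y)
    = (Real.tanh x + Real.tanh y) / (1 + Real.tanh x * Real.tanh y) := by
  have h1 : Real.cosh x ≠ 0 := (Real.cosh_pos x).ne'
  have h2 : Real.cosh y ≠ 0 := (Real.cosh_pos y).ne'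
  have h3 : Real.cosh x * Real.cosh y + Real.sinh x * Real.sinh y ≠ 0 := by
    rw [← Real.cosh_add]; exact (Real.cosh_pos _).ne'
  rw [Real.tanh_eq_sinh_div_cosh, Real.tanh_eq_sinh_div_cosh, Real.tanh_eq_sinh_div_cosh,
    Real.sinh_add, Real.cosh_add]
  have h4 : 1 + Real.sinh x / Real.cosh x * (Real.sinh y / Real.cosh y)
      = (Real.cosh x * Real.cosh y + Real.sinh x * Real.sinh y) / (Real.cosh x * Real.cosh y) := by
    field_simp
  have h5 : Real.sinh x / Real.cosh x + Real.sinh y / Real.cosh y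
      = (Real.sinh x * Real.cosh y + Real.cosh x * Real.sinh y) / (Real.cosh x * Real.cosh y) := by
    field_simp
  rw [h4, h5, div_div_div_cancel_right₀ (mul_ne_zero h1 h2)]

/-- `m ± d` from `a, t` -/
theorem eg_exists {m d : ℝ} (hd : 0 < d) (hm0 : 0 ≤ m) (hm : m + d < 1) :
    ∃ a t : ℝ, 0 < a ∧ a < 1 ∧ 0 ≤ t ∧ t < 1 ∧ m + d = (t + a) / (1 + t * a) ∧
      m - d = (t - a) / (1 - t * a) := by
  have hp : m + d ∈ Set.Ioo (-1 : ℝ) 1 := ⟨by linarith, hm⟩
  have hq : m - d ∈ Set.Ioo (-1 : ℝ) 1 := ⟨by linarith, by linarith⟩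
  set P := ath (m + d) with hP
  set Q := ath (m - d) with hQ
  set t := Real.tanh ((P + Q) / 2) with ht
  set a := Real.tanh ((P - Q) / 2) with ha
  have ht1 : t ∈ Set.Ioo (-1 : ℝ) 1 := L1_tanh_mem _
  have ha1 : a ∈ Set.Ioo (-1 : ℝ) 1 := L1_tanh_mem _
  have e1 : m + d = (t + a) / (1 + t * a) := by
    have h := eg_tanh_add ((P + Q) / 2) ((P - Q) / 2)
    rw [show (P + Q) / 2 + (P - Q) / 2 = P by ring, hP, L1_tanh_ath hp] at h
    exact h
  have e2 : m - d = (t - a) / (1 - t * a) := by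
    have h := eg_tanh_add ((P + Q) / 2) (-((P - Q) / 2))
    rw [Real.tanh_neg, show (P + Q) / 2 + -((P - Q) / 2) = Q by ring, hQ, L1_tanh_ath hq] at h
    rw [h, ← ht, ← ha, mul_neg, ← sub_eq_add_neg, ← sub_eq_add_neg]
  have hta : |t * a| < 1 := by
    rw [abs_mul]
    have h1 : |t| < 1 := abs_lt.2 ht1
    have h2 : |a| < 1 := abs_lt.2 ha1
    nlinarith [abs_nonneg t, abs_nonneg a]
  have hta' := abs_lt.1 hta
  have h1 : 0 < 1 + t * a := by linarith [hta'.1]
  have h2 : 0 < 1 - t * a := by linarith [hta'.2]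
  have ht2 : 0 < 1 - t ^ 2 := by nlinarith [ht1.1, ht1.2]
  have ha2 : 0 < 1 - a ^ 2 := by nlinarith [ha1.1, ha1.2]
  have e3 : d * ((1 + t * a) * (1 - t * a)) = a * (1 - t ^ 2) := by
    have : 2 * d = (t + a) / (1 + t * a) - (t - a) / (1 - t * a) := by rw [← e1, ← e2]; ring
    field_simp at this
    linarith
  have e4 : m * ((1 + t * a) * (1 - t * a)) = t * (1 - a ^ 2) := by
    have : 2 * m = (t + a) / (1 + t * a) + (t - a) / (1 - t * a) := by rw [← e1, ← e2]; ring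
    field_simp at this
    linarith
  have ha0 : 0 < a := by
    have h3 : 0 < a * (1 - t ^ 2) := by rw [← e3]; positivity
    exact (pos_iff_pos_of_mul_pos h3).2 ht2
  have ht0 : 0 ≤ t := by
    have h3 : 0 ≤ t * (1 - a ^ 2) := by rw [← e4]; positivity
    exact nonneg_of_mul_nonneg_left h3 ha2
  exact ⟨a, t, ha0, ha1.2, ht0, ht1.2, e1, e2⟩

/-- `a = tanh((artanh(m+d) - artanh(m-d))/2)`, `μ = 1 - d/a` -/
theorem eg_param {m d : ℝ} (hd : 0 < d) (hm0 : 0 ≤ m) (hm : m + d < 1) :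
    ∃ a ∈ Set.Ioo (0 : ℝ) 1, ∃ μ ∈ Set.Ico (0 : ℝ) 1, d = (1 - μ) * a ∧
      m = Real.sqrt (μ * egb a μ) ∧ jj (m + d) (m - d) = d * ath a ∧
      2 * (hh m - (hh (m + d) + hh (m - d)) / 2)
        = (1 - μ) * (2 * a * ath a - egLm a) - egPH a μ := by
  obtain ⟨a, t, ha0, ha1, ht0, ht1, e1, e2⟩ := eg_exists hd hm0 hm
  have hta : t * a < 1 := by nlinarith
  have hta0 : 0 ≤ t * a := by positivity
  have h1 : 0 < 1 + t * a := by linarith
  have h2 : 0 < 1 - t * a := by linarith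
  have ht2 : 0 < 1 - t ^ 2 := by nlinarith
  have ha2 : 0 < 1 - a ^ 2 := by nlinarith
  have hat : a ^ 2 * t < 1 := by nlinarith
  have hat0 : 0 ≤ a ^ 2 * t := by positivity
  have hD : 0 < 1 - a ^ 2 * t ^ 2 := by nlinarith
  have e3 : d = a * (1 - t ^ 2) / (1 - a ^ 2 * t ^ 2) := by
    have : 2 * d = (t + a) / (1 + t * a) - (t - a) / (1 - t * a) := by rw [← e1, ← e2]; ring
    rw [eq_div_iff hD.ne']
    field_simp at this
    linarith
  have e4 : m = t * (1 - a ^ 2) / (1 - a ^ 2 * t ^ 2) := by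
    have : 2 * m = (t + a) / (1 + t * a) + (t - a) / (1 - t * a) := by rw [← e1, ← e2]; ring
    rw [eq_div_iff hD.ne']
    field_simp at this
    linarith
  set μ : ℝ := t ^ 2 * (1 - a ^ 2) / (1 - a ^ 2 * t ^ 2) with hμ
  have hμ0 : 0 ≤ μ := by rw [hμ]; positivity
  have hl : 1 - μ = (1 - t ^ 2) / (1 - a ^ 2 * t ^ 2) := by
    rw [hμ, eq_div_iff hD.ne', sub_mul, div_mul_cancel₀ _ hD.ne']; ring
  have hl0 : 0 < 1 - μ := by rw [hl]; positivity
  have hb : egb a μ = (1 - a ^ 2) / (1 - a ^ 2 * t ^ 2) := by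
    unfold egb
    rw [hμ]; field_simp; ring
  have hs1 : μ * egb a μ = m ^ 2 := by
    rw [hb, hμ, e4]; field_simp
  have hs2 : μ / egb a μ = t ^ 2 := by
    rw [hb, hμ, div_div_div_cancel_right₀ hD.ne', mul_div_assoc, div_self ha2.ne', mul_one]
  have hq1 : Real.sqrt (μ * egb a μ) = m := by rw [hs1, Real.sqrt_sq hm0]
  have hq2 : Real.sqrt (μ / egb a μ) = t := by rw [hs2, Real.sqrt_sq ht0]
  have A1 : 0 < 1 + t := by linarith
  have A2 : 0 < 1 - t := by linarith
  have A3 : 0 < 1 + a := by linarith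
  have A4 : 0 < 1 - a := by linarith
  have A5 : 0 < 1 + a ^ 2 * t := by linarith
  have A6 : 0 < 1 - a ^ 2 * t := by linarith
  -- logarithms
  have B1 : 1 + (m + d) = (1 + t) * (1 + a) / (1 + t * a) := by rw [e1]; field_simp; ring
  have B2 : 1 - (m + d) = (1 - t) * (1 - a) / (1 + t * a) := by rw [e1]; field_simp; ring
  have B3 : 1 + (m - d) = (1 + t) * (1 - a) / (1 - t * a) := by rw [e2]; field_simp; ring
  have B4 : 1 - (m - d) = (1 - t) * (1 + a) / (1 - t * a) := by rw [e2]; field_simp; ring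
  have hDf : 1 - a ^ 2 * t ^ 2 = (1 + t * a) * (1 - t * a) := by ring
  have B5 : 1 + m = (1 + t) * (1 - a ^ 2 * t) / ((1 + t * a) * (1 - t * a)) := by
    rw [e4, hDf]; field_simp; ring
  have B6 : 1 - m = (1 - t) * (1 + a ^ 2 * t) / ((1 + t * a) * (1 - t * a)) := by
    rw [e4, hDf]; field_simp; ring
  have C1 : Real.log (1 + (m + d)) = Real.log (1 + t) + Real.log (1 + a) - Real.log (1 + t * a) := by
    rw [B1, Real.log_div (mul_pos A1 A3).ne' h1.ne', Real.log_mul A1.ne' A3.ne']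
  have C2 : Real.log (1 - (m + d)) = Real.log (1 - t) + Real.log (1 - a) - Real.log (1 + t * a) := by
    rw [B2, Real.log_div (mul_pos A2 A4).ne' h1.ne', Real.log_mul A2.ne' A4.ne']
  have C3 : Real.log (1 + (m - d)) = Real.log (1 + t) + Real.log (1 - a) - Real.log (1 - t * a) := by
    rw [B3, Real.log_div (mul_pos A1 A4).ne' h2.ne', Real.log_mul A1.ne' A4.ne']
  have C4 : Real.log (1 - (m - d)) = Real.log (1 - t) + Real.log (1 + a) - Real.log (1 - t * a) := by
    rw [B4, Real.log_div (mul_pos A2 A3).ne' h2.ne', Real.log_mul A2.ne' A3.ne']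
  have C5 : Real.log (1 + m) = Real.log (1 + t) + Real.log (1 - a ^ 2 * t)
      - (Real.log (1 + t * a) + Real.log (1 - t * a)) := by
    rw [B5, Real.log_div (mul_pos A1 A6).ne' (mul_pos h1 h2).ne', Real.log_mul A1.ne' A6.ne',
      Real.log_mul h1.ne' h2.ne']
  have C6 : Real.log (1 - m) = Real.log (1 - t) + Real.log (1 + a ^ 2 * t)
      - (Real.log (1 + t * a) + Real.log (1 - t * a)) := by
    rw [B6, Real.log_div (mul_pos A2 A5).ne' (mul_pos h1 h2).ne', Real.log_mul A2.ne' A5.ne',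
      Real.log_mul h1.ne' h2.ne']
  have P1 : 0 < 1 + (m + d) := by linarith
  have P2 : 0 < 1 - (m + d) := by linarith
  have P3 : 0 < 1 + (m - d) := by linarith
  have P4 : 0 < 1 - (m - d) := by linarith
  have P5 : 0 < 1 + m := by linarith
  have P6 : 0 < 1 - m := by linarith
  have D1 : egLm a = -(Real.log (1 + a) + Real.log (1 - a)) := by
    unfold egLm
    rw [show 1 - a ^ 2 = (1 + a) * (1 - a) by ring, Real.log_mul A3.ne' A4.ne']
  have D2 : Real.log (1 + a ^ 2 * μ) = Real.log (1 + a ^ 2 * t) + Real.log (1 - a ^ 2 * t)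
      - (Real.log (1 + t * a) + Real.log (1 - t * a)) := by
    have : 1 + a ^ 2 * μ = (1 + a ^ 2 * t) * (1 - a ^ 2 * t) / ((1 + t * a) * (1 - t * a)) := by
      rw [hμ, hDf, eq_div_iff (mul_pos h1 h2).ne', add_mul, one_mul, mul_assoc (a ^ 2),
        div_mul_cancel₀ _ (mul_pos h1 h2).ne']
      ring
    rw [this, Real.log_div (mul_pos A5 A6).ne' (mul_pos h1 h2).ne', Real.log_mul A5.ne' A6.ne',
      Real.log_mul h1.ne' h2.ne']
  have hjj : jj (m + d) (m - d) = d * ath a := by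
    unfold jj
    rw [eg_athf P1 P2, eg_athf P3 P4, eg_athf A3 A4, C1, C2, C3, C4]
    ring
  have hda : d = (1 - μ) * a := by rw [hl, e3]; ring
  refine ⟨a, ⟨ha0, ha1⟩, μ, ⟨hμ0, by linarith⟩, hda, hq1.symm, hjj, ?_⟩
  have hPH : egPH a μ = μ * egLm a + Real.log (1 + a ^ 2 * μ) - 2 * m * ath (a ^ 2 * t) := by
    unfold egPH
    rw [hq1, hq2]
  have h3 : (1 - μ) * (2 * a * ath a - egLm a) = 2 * d * ath a - (1 - μ) * egLm a := by
    rw [hda]; ring
  rw [hPH, h3, eg_hhf P5 P6, eg_hhf P1 P2, eg_hhf P3 P4, eg_athf A3 A4,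
    eg_athf A5 A6, D2, D1, C1, C2, C3, C4, C5, C6]
  ring



/-- the function of `α = a²` -/
private noncomputable def egPHg (μ α : ℝ) : ℝ :=
  μ * (-Real.log (1 - α)) + Real.log (1 + α * μ)
    - 2 * Real.sqrt (μ * (1 - α + α * μ)) * ath (α * μ / Real.sqrt (μ * (1 - α + α * μ)))

private theorem egPHg_deriv {μ α : ℝ} (hμ0 : 0 < μ) (hμ1 : μ < 1) (hα0 : 0 ≤ α) (hα1 : α < 1) :
    HasDerivAt (egPHg μ) (μ * (1 - μ) / Real.sqrt (μ * (1 - α + α * μ)) *
      ath (α * μ / Real.sqrt (μ * (1 - α + α * μ)))) α := by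
  set b : ℝ := 1 - α + α * μ with hb
  have hαμ : 0 ≤ α * μ := mul_nonneg hα0 hμ0.le
  have hb0 : 0 < b := by rw [hb]; linarith
  have hμb : 0 < μ * b := mul_pos hμ0 hb0
  set m : ℝ := Real.sqrt (μ * b) with hm
  have hm0 : 0 < m := Real.sqrt_pos.2 hμb
  have hm2 : m ^ 2 = μ * b := Real.sq_sqrt hμb.le
  have h1α : 0 < 1 - α := by linarith
  have h1αμ : 0 < 1 + α * μ := by linarith
  -- derivative of m
  have hdm : HasDerivAt (fun α : ℝ => Real.sqrt (μ * (1 - α + α * μ)))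
      (μ * (-1 + μ) / (2 * m)) α := by
    have h1 : HasDerivAt (fun α : ℝ => μ * (1 - α + α * μ)) (μ * (-1 + 1 * μ)) α :=
      (((hasDerivAt_id α).const_sub 1).add ((hasDerivAt_id α).mul_const μ)).const_mul μ
    have h2 := h1.sqrt hμb.ne'
    simpa [one_mul] using h2
  have hx2 : (α * μ / m) ^ 2 < 1 := by
    rw [div_pow, hm2, div_lt_one hμb]
    have : α ^ 2 * μ < b := by
      have : b - α ^ 2 * μ = (1 - α) * (1 + α * μ) := by rw [hb]; ring
      have h3 := mul_pos h1α h1αμ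
      linarith
    nlinarith
  have hx0 : 0 ≤ α * μ / m := div_nonneg hαμ hm0.le
  have hx1 : α * μ / m < 1 := by nlinarith
  have hdx : HasDerivAt (fun α : ℝ => α * μ / Real.sqrt (μ * (1 - α + α * μ)))
      ((1 * μ * m - α * μ * (μ * (-1 + μ) / (2 * m))) / m ^ 2) α :=
    ((hasDerivAt_id α).mul_const μ).div hdm hm0.ne'
  have hda := (hasDerivAt_ath (u := α * μ / m) ⟨by linarith, hx1⟩).comp α hdx
  have hl1 : HasDerivAt (fun α : ℝ => μ * (-Real.log (1 - α))) (μ * (-(-1 / (1 - α)))) α :=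
    ((((hasDerivAt_id α).const_sub 1).log h1α.ne').neg).const_mul μ
  have hl2 : HasDerivAt (fun α : ℝ => Real.log (1 + α * μ)) (1 * μ / (1 + α * μ)) α :=
    (((hasDerivAt_id α).mul_const μ).const_add 1).log h1αμ.ne'
  have htot := (hl1.add hl2).sub ((hdm.const_mul 2).mul hda)
  have hconv := htot.congr_deriv (g' := μ * (1 - μ) / m * ath (α * μ / m)) (by
    simp only [Function.comp]
    have e1 : 1 - (α * μ / m) ^ 2 = (1 - α) * (1 + α * μ) / b := by
      rw [div_pow, hm2, hb]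
      have : (1 - α + α * μ) ≠ 0 := hb0.ne'
      field_simp
      ring
    rw [← hm, e1]
    have e2 : (1 * μ * m - α * μ * (μ * (-1 + μ) / (2 * m))) / m ^ 2
        = (μ / m) * (((1 - α) + (1 + α * μ)) / (2 * b)) := by
      have e3 : (1 * μ * m - α * μ * (μ * (-1 + μ) / (2 * m)))
          = μ * (2 * m ^ 2 + α * μ * (1 - μ)) / (2 * m) := by
        field_simp
        ring
      rw [e3, hm2, hb]
      have : (1 - α + α * μ) ≠ 0 := hb0.ne'
      field_simp
      ring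
    rw [e2]
    field_simp
    ring)
  exact hconv

theorem eg_PH_nonneg {a μ : ℝ} (ha : a ∈ Set.Ioo (0 : ℝ) 1) (hμ : μ ∈ Set.Ico (0 : ℝ) 1) :
    0 ≤ egPH a μ := by
  rcases eq_or_lt_of_le hμ.1 with h0 | h0
  · unfold egPH egb
    rw [← h0]
    simp
  have hα1 : a ^ 2 < 1 := by nlinarith [ha.1, ha.2]
  have hmono : MonotoneOn (egPHg μ) (Set.Icc 0 (a ^ 2)) := by
    apply monotoneOn_of_deriv_nonneg (convex_Icc _ _)
    · intro x hx
      exact (egPHg_deriv h0 hμ.2 hx.1 (lt_of_le_of_lt hx.2 hα1)).continuousAt.continuousWithinAt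
    · rw [interior_Icc]
      intro x hx
      exact (egPHg_deriv h0 hμ.2 hx.1.le
        (lt_trans hx.2 hα1)).differentiableAt.differentiableWithinAt
    · rw [interior_Icc]
      intro x hx
      have hx1 : x < 1 := lt_trans hx.2 hα1
      rw [(egPHg_deriv h0 hμ.2 hx.1.le hx1).deriv]
      have hxμ : 0 ≤ x * μ := mul_nonneg hx.1.le h0.le
      have hb0 : 0 < 1 - x + x * μ := by linarith
      have hμb : 0 < μ * (1 - x + x * μ) := mul_pos h0 hb0
      have hm0 : 0 < Real.sqrt (μ * (1 - x + x * μ)) := Real.sqrt_pos.2 hμb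
      have hm2 : Real.sqrt (μ * (1 - x + x * μ)) ^ 2 = μ * (1 - x + x * μ) := Real.sq_sqrt hμb.le
      have hpos : 0 < x * μ / Real.sqrt (μ * (1 - x + x * μ)) :=
        div_pos (mul_pos hx.1 h0) hm0
      have hlt : x * μ / Real.sqrt (μ * (1 - x + x * μ)) < 1 := by
        have h2 : (x * μ / Real.sqrt (μ * (1 - x + x * μ))) ^ 2 < 1 := by
          rw [div_pow, hm2, div_lt_one hμb]
          have h3 : x ^ 2 * μ < 1 - x + x * μ := by
            have : (1 - x + x * μ) - x ^ 2 * μ = (1 - x) * (1 + x * μ) := by ring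
            have h4 : 0 < (1 - x) * (1 + x * μ) := mul_pos (by linarith) (by linarith)
            linarith
          nlinarith
        nlinarith
      have hath := ath_pos hpos hlt
      have h5 : 0 ≤ 1 - μ := by linarith [hμ.2]
      positivity
  have hle := hmono (a := 0) (b := a ^ 2) ⟨le_refl _, sq_nonneg a⟩ ⟨sq_nonneg a, le_refl _⟩
    (sq_nonneg a)
  have hg0 : egPHg μ 0 = 0 := by
    unfold egPHg
    have : ath 0 = 0 := by unfold ath; simp
    simp [this]
  rw [hg0] at hle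
  have hb0 : 0 < egb a μ := by
    unfold egb
    have := mul_nonneg (sq_nonneg a) hμ.1
    linarith
  have hμb : 0 < μ * egb a μ := mul_pos h0 hb0
  have hs : a ^ 2 * Real.sqrt (μ / egb a μ) = a ^ 2 * μ / Real.sqrt (μ * egb a μ) := by
    have h1 : Real.sqrt (μ / egb a μ) = μ / Real.sqrt (μ * egb a μ) := by
      rw [eq_div_iff (Real.sqrt_pos.2 hμb).ne', ← Real.sqrt_mul (by positivity)]
      have h2 : μ / egb a μ * (μ * egb a μ) = μ ^ 2 := by
        field_simp
      rw [h2, Real.sqrt_sq h0.le]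
    rw [h1]
    ring
  have heq : egPH a μ = egPHg μ (a ^ 2) := by
    unfold egPH egPHg egLm
    rw [hs]
    unfold egb
    ring_nf
  rw [heq]
  exact hle



/-- sublinearity of the perspective of `R` -/
theorem eg_persp_sub {g l H a : ℝ} (ha : a ∈ Set.Ioo (0 : ℝ) 1) (hl : 0 < l) (hg : l ≤ g)
    (hH : l * hh a + (g - l) * Real.log 2 ≤ H) : g * RR (H / g) ≤ l * Rs a := by
  have hg0 : 0 < g := lt_of_lt_of_le hl hg
  have hlog : 0 < Real.log 2 := Real.log_pos one_lt_two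
  have hha : 0 < hh a := hh_pos ⟨by linarith [ha.1], ha.2⟩
  have hH0 : 0 < H := by
    have h1 : 0 < l * hh a := mul_pos hl hha
    have h2 : 0 ≤ (g - l) * Real.log 2 := mul_nonneg (by linarith) hlog.le
    linarith
  by_cases hx : H / g < Real.log 2
  · obtain ⟨s, hs, hse⟩ := exists_hh (div_pos hH0 hg0) hx
    rw [← hse, RR_hh hs]
    have hHg : H = g * hh s := by rw [hse]; field_simp
    have h1 := Rs_line hs ha
    have h2 := Rs_line_log2 hs
    have h3 := rr_nonneg hs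
    have h4 := mul_le_mul_of_nonneg_left h1 hl.le
    have h5 := mul_le_mul_of_nonneg_left h2 (sub_nonneg.2 hg)
    have h6 := mul_le_mul_of_nonneg_left hH h3
    rw [hHg] at h6
    nlinarith
  · push Not at hx
    rw [RR_zero hx, mul_zero]
    exact mul_nonneg hl.le (Rs_nonneg ha)


/-- (E1) for every weight value `g` with `1 - m² ≤ g`, `g log 2 ≤ h(m)`; `m ≥ 0` -/
theorem E1_gen {m d g : ℝ} (hd : 0 < d) (hm0 : 0 ≤ m) (hm : m + d < 1) (hg1 : 1 - m ^ 2 ≤ g)
    (hg2 : g * Real.log 2 ≤ hh m) :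
    2 * (hh m - (hh (m + d) + hh (m - d)) / 2)
      + g * RR (((hh (m + d) + hh (m - d)) / 2) / g) ≤ jj (m + d) (m - d) := by
  obtain ⟨a, ha, μ, hμ, hda, hma, hj, hD⟩ := eg_param hd hm0 hm
  have hP := eg_PH_nonneg ha hμ
  have hRs := eg_Rs_eq ha
  have hl : 0 < 1 - μ := by linarith [hμ.2]
  have ha2 : a ^ 2 < 1 := by nlinarith [ha.1, ha.2]
  have hb : 0 < egb a μ := by
    unfold egb
    have := mul_nonneg (sq_nonneg a) hμ.1
    linarith
  have hm2 : m ^ 2 = μ * egb a μ := by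
    rw [hma, Real.sq_sqrt (mul_nonneg hμ.1 hb.le)]
  have hg : 1 - m ^ 2 = (1 - μ) * (1 + a ^ 2 * μ) := by
    rw [hm2]; unfold egb; ring
  have hle : 1 - μ ≤ g := by
    refine le_trans ?_ hg1
    rw [hg]
    have := mul_nonneg hl.le (mul_nonneg (sq_nonneg a) hμ.1)
    nlinarith
  have hhb : hh a = ell a - a * ath a := hh_eq ⟨by linarith [ha.1], ha.2⟩
  have hell : ell a = Real.log 2 + egLm a / 2 := by unfold ell egLm; ring
  have hH : (1 - μ) * hh a + (g - (1 - μ)) * Real.log 2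
      ≤ (hh (m + d) + hh (m - d)) / 2 := by
    have e1 : (hh (m + d) + hh (m - d)) / 2
        = hh m - ((1 - μ) * (2 * a * ath a - egLm a) - egPH a μ) / 2 := by linarith
    rw [e1, hhb, hell]
    nlinarith
  have hp := eg_persp_sub ha hl hle hH
  have e2 : d * ath a = (1 - μ) * a * ath a := by rw [← hda]
  rw [hj, hD, e2]
  rw [hRs] at hp
  linarith

end P322
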