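import Vale.Agent.P322.T1Defs
import Vale.Agent.P322.E1

/-! P322: the black box `E1Prop`. -/
namespace P322

theorem E1Prop_holds : E1Prop := by
  intro m d hm hd h
  exact E1 hd (by rw [abs_of_nonneg hm]; exact h)

end P322
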