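import Vale.Agent.P322.Gen

/-!
Generic framework, second form: the one-step inequality is stated with the true average edge
energy, so that every lower bound of it can be used.  Conclusion: the functional inequality for
all functions `u` (not only of mean zero).
-/
namespace P322

/-- the one-step inequality for the weight `G`, with the true average energy (`m ≥ 0` only) -/
def CAv (G : ℝ → ℝ) : Prop :=
  ∀ (n : ℕ) (v w : (Fin n → Bool) → ℝ), InI v → InI w → ∀ m d H : ℝ,
    av v = m + d → av w = m - d → (av (fun x => hh (v x)) + av (fun x => hh (w x))) / 2 = H →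
    0 ≤ m → 0 < d → m + d < 1 → 0 < H → H ≤ (hh (m + d) + hh (m - d)) / 2 →
    2 * (hh m - (hh (m + d) + hh (m - d)) / 2)
      + G m * RR (H / G m) - Gbar G m d * RR (H / Gbar G m d) ≤ av (fun x => jj (v x) (w x))

/-- the functional inequality for all `u` -/
def StarAll (G : ℝ → ℝ) : Prop := ∀ (n : ℕ) (u : (Fin n → Bool) → ℝ), InI u →
  2 * (hh (av u) - av (fun x => hh (u x)))
    + G (av u) * RR (av (fun x => hh (u x)) / G (av u)) ≤ II u

theorem CAv_of_CProp {G : ℝ → ℝ} (hC : CProp G) : CAv G := by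
  intro n v w hv hw m d H hm1 hm2 hH hm hd hmd hH0 hHb
  have hmv := av_mem hv
  have hmw := av_mem hw
  have hjj := av_bregman v w hv hw hmv hmw
  obtain ⟨s, hs, hsH⟩ := exists_s (d := d) (H := H) hd hH0
  have hJ0 := J0_bound (d := d) (H := H) v w hv hw hs (by rw [hm1, hm2]; ring) hH.symm hsH
  have hC := hC m d H s hd (by rw [abs_of_nonneg hm]; exact hmd) hH0 hHb hs hsH
  rw [hm1, hm2] at hjj
  have hden : 0 < 1 - (m + d) * (m - d) := by
    rw [hm1] at hmv
    rw [hm2] at hmw
    nlinarith [hmv.1, hmv.2, hmw.1, hmw.2]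
  have e4 : 1 - m ^ 2 + d ^ 2 = 1 - (m + d) * (m - d) := by ring
  rw [e4] at hC
  have e5 : jj (m + d) (m - d) + (m + d - (m - d)) ^ 2 / (8 * (1 - (m + d) * (m - d)))
      * (hh (m + d) - av (fun x => hh (v x)) + (hh (m - d) - av (fun x => hh (w x))))
      = jj (m + d) (m - d) + d ^ 2 / (1 - (m + d) * (m - d))
        * ((hh (m + d) + hh (m - d)) / 2 - H) := by
    rw [← hH]
    field_simp
    ring
  have hmax := max_le (a := jj (m + d) (m - d) + d ^ 2 / (1 - (m + d) * (m - d))
        * ((hh (m + d) + hh (m - d)) / 2 - H)) (b := d * ath s)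
        (c := av (fun x => jj (v x) (w x))) (by linarith) hJ0
  linarith

theorem av_neg_fun {n : ℕ} (u : (Fin n → Bool) → ℝ) : av (fun x => -u x) = -av u := by
  unfold av
  rw [Finset.sum_neg_distrib, neg_div]

theorem InI_neg {n : ℕ} {u : (Fin n → Bool) → ℝ} (hu : InI u) : InI (fun x => -u x) := fun x =>
  ⟨by have := (hu x).2; linarith, by have := (hu x).1; linarith⟩

theorem jj_neg_neg {a b : ℝ} (ha : a ∈ Set.Ioo (-1 : ℝ) 1) (hb : b ∈ Set.Ioo (-1 : ℝ) 1) :
    jj (-b) (-a) = jj a b := by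
  unfold jj
  rw [ath_neg ha, ath_neg hb]
  ring

theorem BGav_step_pos {G : ℝ → ℝ} (hGe : ∀ m, G (-m) = G m)
    (hGp : ∀ m ∈ Set.Ioo (-1 : ℝ) 1, 0 < G m) (hC : CAv G)
    (n : ℕ) (v w : (Fin n → Bool) → ℝ) (hv : InI v) (hw : InI w) (hd : av w < av v)
    (hm : 0 ≤ av v + av w) :
      BG G ((av v + av w) / 2) ((av (fun x => hh (v x)) + av (fun x => hh (w x))) / 2)
        ≤ (BG G (av v) (av (fun x => hh (v x))) + BG G (av w) (av (fun x => hh (w x)))) / 2
          + av (fun x => jj (v x) (w x)) := by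
  have hmv := av_mem hv
  have hmw := av_mem hw
  have hHv := av_hh_pos v hv
  have hHw := av_hh_pos w hw
  have hJv := jensen_hh v hv
  have hJw := jensen_hh w hw
  have e1 : (av v + av w) / 2 + (av v - av w) / 2 = av v := by ring
  have e2 : (av v + av w) / 2 - (av v - av w) / 2 = av w := by ring
  have hC := hC n v w hv hw ((av v + av w) / 2) ((av v - av w) / 2)
    ((av (fun x => hh (v x)) + av (fun x => hh (w x))) / 2) e1.symm e2.symm rfl
    (by linarith) (by linarith) (by rw [e1]; exact hmv.2) (by linarith)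
    (by rw [e1, e2]; linarith)
  unfold Gbar at hC
  rw [e1, e2] at hC
  have hP := RR_persp (hGp _ hmv) (hGp _ hmw) hHv hHw
  unfold BG
  linarith

theorem BGav_step {G : ℝ → ℝ} (hGe : ∀ m, G (-m) = G m)
    (hGp : ∀ m ∈ Set.Ioo (-1 : ℝ) 1, 0 < G m) (hC : CAv G)
    (n : ℕ) (v w : (Fin n → Bool) → ℝ) (hv : InI v) (hw : InI w) (hd : av w < av v) :
      BG G ((av v + av w) / 2) ((av (fun x => hh (v x)) + av (fun x => hh (w x))) / 2)
        ≤ (BG G (av v) (av (fun x => hh (v x))) + BG G (av w) (av (fun x => hh (w x)))) / 2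
          + av (fun x => jj (v x) (w x)) := by
  rcases le_total 0 (av v + av w) with h | h
  · exact BGav_step_pos hGe hGp hC n v w hv hw hd h
  · have h' := BGav_step_pos hGe hGp hC n (fun x => -w x) (fun x => -v x) (InI_neg hw) (InI_neg hv)
      (by rw [av_neg_fun, av_neg_fun]; linarith) (by rw [av_neg_fun, av_neg_fun]; linarith)
    rw [av_neg_fun, av_neg_fun] at h'
    have e1 : av (fun x => hh (-v x)) = av (fun x => hh (v x)) := by
      congr 1; funext x; exact hh_neg _
    have e2 : av (fun x => hh (-w x)) = av (fun x => hh (w x)) := by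
      congr 1; funext x; exact hh_neg _
    have e3 : av (fun x => jj (-w x) (-v x)) = av (fun x => jj (v x) (w x)) := by
      congr 1; funext x; exact jj_neg_neg (hv x) (hw x)
    rw [e1, e2, e3] at h'
    have hB : ∀ m H, BG G (-m) H = BG G m H := by
      intro m H
      unfold BG
      rw [hh_neg, hGe]
    have e4 : (-av w + -av v) / 2 = -((av v + av w) / 2) := by ring
    rw [e4, hB, hB, hB, add_comm (av (fun x => hh (w x)))] at h'
    linarith

theorem BGav_step_all {G : ℝ → ℝ} (hGe : ∀ m, G (-m) = G m)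
    (hGp : ∀ m ∈ Set.Ioo (-1 : ℝ) 1, 0 < G m) (hC : CAv G)
    (n : ℕ) (v w : (Fin n → Bool) → ℝ) (hv : InI v) (hw : InI w) :
      BG G ((av v + av w) / 2) ((av (fun x => hh (v x)) + av (fun x => hh (w x))) / 2)
        ≤ (BG G (av v) (av (fun x => hh (v x))) + BG G (av w) (av (fun x => hh (w x)))) / 2
          + av (fun x => jj (v x) (w x)) := by
  rcases lt_trichotomy (av w) (av v) with h | h | h
  · exact BGav_step hGe hGp hC n v w hv hw h
  · have hmv := av_mem hv
    have hHv := av_hh_pos v hv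
    have hHw := av_hh_pos w hw
    have hjj := jensen_jj v w hv hw
    have hz : jj (av v) (av w) = 0 := by rw [h]; unfold jj; ring
    rw [hz] at hjj
    have hg := hGp _ hmv
    have hP := RR_persp hg hg hHv hHw
    rw [h]
    have e : (av v + av v) / 2 = av v := by ring
    have e' : (G (av v) + G (av v)) / 2 = G (av v) := by ring
    rw [e'] at hP
    rw [e]
    unfold BG
    linarith
  · have h' := BGav_step hGe hGp hC n w v hw hv h
    have e1 : av (fun x => jj (w x) (v x)) = av (fun x => jj (v x) (w x)) := by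
      congr 1; funext x; exact jj_symm' _ _
    rw [e1, add_comm (av w) (av v), add_comm (av (fun x => hh (w x))) (av (fun x => hh (v x)))] at h'
    linarith

/-- the functional inequality for all `u` -/
theorem StarAll_of {G : ℝ → ℝ} (hGe : ∀ m, G (-m) = G m)
    (hGp : ∀ m ∈ Set.Ioo (-1 : ℝ) 1, 0 < G m)
    (hGb : ∀ m ∈ Set.Ioo (-1 : ℝ) 1, G m * Real.log 2 ≤ hh m) (hC : CAv G) : StarAll G :=
  fun n u hu => induct (BG G) (fun m hm => BG_base (hGp m hm) (hGb m hm))
    (BGav_step_all hGe hGp hC) n u hu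

theorem Star_of_all {G : ℝ → ℝ} (hG0 : G 0 = 1) (h : StarAll G) : Star := by
  intro n u hu h0 s hs hsu
  have h1 := h n u hu
  have h2 := BG_zero hG0 hs
  unfold BG at h2
  rw [h0, ← hsu] at h1
  linarith

/-- the weight `1 - m²` -/
noncomputable def Gq (m : ℝ) : ℝ := 1 - m ^ 2

theorem Gq_zero : Gq 0 = 1 := by unfold Gq; ring
theorem Gq_neg (m : ℝ) : Gq (-m) = Gq m := by unfold Gq; ring
theorem Gq_pos {m : ℝ} (hm : m ∈ Set.Ioo (-1 : ℝ) 1) : 0 < Gq m := by
  unfold Gq; nlinarith [hm.1, hm.2]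
theorem Gq_base {m : ℝ} (hm : m ∈ Set.Ioo (-1 : ℝ) 1) : Gq m * Real.log 2 ≤ hh m :=
  hh_ge_quad ⟨hm.1.le, hm.2.le⟩
theorem Gq_bar (m d : ℝ) : Gbar Gq m d = 1 - m ^ 2 - d ^ 2 := by
  unfold Gbar Gq; ring

/-- balanced Courtade-Kumar from the averaged one-step inequality -/
theorem balanced_CK_of_CAv {G : ℝ → ℝ} (hG0 : G 0 = 1) (hGe : ∀ m, G (-m) = G m)
    (hGp : ∀ m ∈ Set.Ioo (-1 : ℝ) 1, 0 < G m)
    (hGb : ∀ m ∈ Set.Ioo (-1 : ℝ) 1, G m * Real.log 2 ≤ hh m) (hC : CAv G)
    {n : ℕ} (f : (Fin n → Bool) → Bool) (hf : Balanced f)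
    (ε : ℝ) (h0 : 0 ≤ ε) (h1 : ε ≤ 1 / 2) :
    mutualInfo (joint f ε) ≤ 1 - h2 ε :=
  gen_balanced_CK (Star_of_all hG0 (StarAll_of hGe hGp hGb hC)) f hf ε h0 h1

end P322
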