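import Vale.Agent.P322.Defs
namespace P322

theorem flipAt_flipAt {n : ℕ} (i : Fin n) (x : Fin n → Bool) : flipAt i (flipAt i x) = x := by
  funext j
  by_cases h : j = i
  · subst h; simp [flipAt]
  · simp [flipAt, h]

theorem sum_flipAt {n : ℕ} (i : Fin n) (g : (Fin n → Bool) → ℝ) :
    ∑ x, g (flipAt i x) = ∑ x, g x :=
  Equiv.sum_comp (⟨flipAt i, flipAt i, flipAt_flipAt i, flipAt_flipAt i⟩ :
    (Fin n → Bool) ≃ (Fin n → Bool)) g

theorem II_eq {n : ℕ} (u : (Fin n → Bool) → ℝ) :
    II u = av (fun x => ath (u x) * ∑ i, (u x - u (flipAt i x)) / 2) := by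
  have key : ∀ i : Fin n, ∑ x, jj (u x) (u (flipAt i x)) =
      ∑ x, ath (u x) * ((u x - u (flipAt i x)) / 2) := by
    intro i
    have h1 : ∑ x, jj (u x) (u (flipAt i x)) =
        ∑ x, (u x - u (flipAt i x)) * ath (u x) / 4
          + ∑ x, (u (flipAt i x) - u x) * ath (u (flipAt i x)) / 4 := by
      rw [← Finset.sum_add_distrib]
      exact Finset.sum_congr rfl fun x _ => by unfold jj; ring
    have h2 : ∑ x, (u (flipAt i x) - u x) * ath (u (flipAt i x)) / 4 =
        ∑ x, (u x - u (flipAt i x)) * ath (u x) / 4 := by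
      rw [← sum_flipAt i (fun x => (u x - u (flipAt i x)) * ath (u x) / 4)]
      simp only [flipAt_flipAt]
    rw [h1, h2, ← Finset.sum_add_distrib]
    exact Finset.sum_congr rfl fun x _ => by ring
  unfold II av
  rw [← Finset.sum_div]
  congr 1
  simp only [key, Finset.mul_sum]
  exact Finset.sum_comm
end P322
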