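import Vale.Agent.P322.H2
import Vale.Agent.P322.Deriv
import Vale.Agent.P322.IIeq
namespace P322
theorem hasDerivAt_H {n : ℕ} (u : (Fin n → Bool) → ℝ) {ρ : ℝ} (hρ : 0 < ρ)
    (hu : InI (TT ρ u)) :
    HasDerivAt (fun r => av (fun y => hh (TT r u y))) (-(II (TT ρ u)) / ρ) ρ := by
  have h1 : ∀ y : Fin n → Bool, HasDerivAt (fun r => hh (TT r u y))
      (-ath (TT ρ u y) * ((∑ i, (TT ρ u y - TT ρ u (flipAt i y)) / 2) / ρ)) ρ := fun y =>
    HasDerivAt.comp (h₂ := hh) (h := fun r => TT r u y) ρ (hasDerivAt_hh (hu y))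
      (hasDerivAt_TT u y hρ.ne')
  have h2 := (HasDerivAt.fun_sum (u := Finset.univ) fun y _ => h1 y).div_const ((2 : ℝ) ^ n)
  have e : (∑ y : Fin n → Bool,
      -ath (TT ρ u y) * ((∑ i, (TT ρ u y - TT ρ u (flipAt i y)) / 2) / ρ)) / (2 : ℝ) ^ n
      = -(II (TT ρ u)) / ρ := by
    rw [II_eq]
    unfold av
    have h3 : ∀ y : Fin n → Bool,
        -ath (TT ρ u y) * ((∑ i, (TT ρ u y - TT ρ u (flipAt i y)) / 2) / ρ) =
        -(ath (TT ρ u y) * ∑ i, (TT ρ u y - TT ρ u (flipAt i y)) / 2) / ρ := fun y => by ring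
    simp only [h3]
    rw [← Finset.sum_div, Finset.sum_neg_distrib]
    ring
  rw [← e]
  exact h2
end P322
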