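import Vale.Agent.P322.Defs
namespace P322

theorem sum_cons_cube {n : ℕ} (g : (Fin (n + 1) → Bool) → ℝ) :
    ∑ x, g x = ∑ x : Fin n → Bool, g (Fin.cons true x) + ∑ x : Fin n → Bool, g (Fin.cons false x) := by
  rw [← (Fin.consEquiv (fun _ : Fin (n + 1) => Bool)).sum_comp, Fintype.sum_prod_type]
  simp [Fintype.sum_bool, Fin.consEquiv]

theorem av_cons_cube {n : ℕ} (g : (Fin (n + 1) → Bool) → ℝ) :
    av g = (av (fun x : Fin n → Bool => g (Fin.cons true x))
      + av (fun x : Fin n → Bool => g (Fin.cons false x))) / 2 := by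
  unfold av
  rw [sum_cons_cube, pow_succ]
  field_simp

theorem flipAt_zero_cons {n : ℕ} (b : Bool) (x : Fin n → Bool) :
    flipAt (0 : Fin (n + 1)) (Fin.cons b x : Fin (n + 1) → Bool) = Fin.cons (!b) x := by
  unfold flipAt
  rw [Fin.update_cons_zero, Fin.cons_zero]

theorem flipAt_succ_cons {n : ℕ} (i : Fin n) (b : Bool) (x : Fin n → Bool) :
    flipAt i.succ (Fin.cons b x : Fin (n + 1) → Bool) = Fin.cons b (flipAt i x) := by
  unfold flipAt
  rw [Fin.cons_update, Fin.cons_succ]

theorem jj_symm (a b : ℝ) : jj a b = jj b a := by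
  unfold jj
  ring

theorem II_cons_cube {n : ℕ} (u : (Fin (n + 1) → Bool) → ℝ) :
    II u = (II (fun x : Fin n → Bool => u (Fin.cons true x))
      + II (fun x : Fin n → Bool => u (Fin.cons false x))) / 2
      + av (fun x : Fin n → Bool => jj (u (Fin.cons true x)) (u (Fin.cons false x))) := by
  unfold II
  rw [Fin.sum_univ_succ, ← Finset.sum_add_distrib, Finset.sum_div, add_comm]
  congr 1
  · refine Finset.sum_congr rfl fun i _ => ?_
    rw [av_cons_cube]
    simp only [flipAt_succ_cons]
  · rw [av_cons_cube]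
    simp only [flipAt_zero_cons, Bool.not_true, Bool.not_false]
    rw [show (fun x : Fin n → Bool => jj (u (Fin.cons false x)) (u (Fin.cons true x))) =
      fun x => jj (u (Fin.cons true x)) (u (Fin.cons false x)) from funext fun x => jj_symm _ _]
    ring

/-- abstract dimension induction. -/
theorem induct (B : ℝ → ℝ → ℝ)
    (h0 : ∀ m ∈ Set.Ioo (-1 : ℝ) 1, B m (hh m) ≤ 0)
    (h1 : ∀ (n : ℕ) (v w : (Fin n → Bool) → ℝ), InI v → InI w →
      B ((av v + av w) / 2) ((av (fun x => hh (v x)) + av (fun x => hh (w x))) / 2)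
        ≤ (B (av v) (av (fun x => hh (v x))) + B (av w) (av (fun x => hh (w x)))) / 2
          + av (fun x => jj (v x) (w x)))
    (n : ℕ) (u : (Fin n → Bool) → ℝ) (hu : InI u) :
    B (av u) (av (fun x => hh (u x))) ≤ II u := by
  induction n with
  | zero =>
    have e1 : ∀ g : (Fin 0 → Bool) → ℝ, av g = g (fun i => i.elim0) := by
      intro g
      unfold av
      rw [Fintype.sum_eq_single (fun i : Fin 0 => i.elim0) (fun x hx => absurd (Subsingleton.elim _ _) hx)]
      simp
    have e2 : II u = 0 := by simp [II]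
    rw [e2, e1, e1]
    exact h0 _ (hu _)
  | succ n ih =>
    rw [av_cons_cube u, av_cons_cube (fun x => hh (u x)), II_cons_cube]
    have hv : InI (fun x : Fin n → Bool => u (Fin.cons true x)) := fun x => hu _
    have hw : InI (fun x : Fin n → Bool => u (Fin.cons false x)) := fun x => hu _
    have h := h1 n _ _ hv hw
    have i1 := ih _ hv
    have i2 := ih _ hw
    linarith
end P322
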