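import Vale.Agent.P322.Jensen
namespace P322

theorem av_eq_sum_mul {n : ℕ} (u : (Fin n → Bool) → ℝ) :
    av u = ∑ x, (1 / 2 ^ n : ℝ) * u x := by
  unfold av
  rw [Finset.sum_div]
  refine Finset.sum_congr rfl fun x _ => ?_
  ring

theorem sum_wt {n : ℕ} : ∑ _x : Fin n → Bool, (1 / 2 ^ n : ℝ) = 1 := by
  rw [Finset.sum_const, Finset.card_univ]
  simp

theorem av_mem {n : ℕ} {u : (Fin n → Bool) → ℝ} (hu : InI u) : av u ∈ Set.Ioo (-1 : ℝ) 1 := by
  have h := (convex_Ioo (-1 : ℝ) 1).sum_mem (t := Finset.univ)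
    (w := fun _ : Fin n → Bool => (1 / 2 ^ n : ℝ)) (z := u)
    (fun i _ => by positivity) sum_wt (fun i _ => hu i)
  simpa [av_eq_sum_mul] using h

theorem jensen_jj {n : ℕ} (v w : (Fin n → Bool) → ℝ) (hv : InI v) (hw : InI w) :
    jj (av v) (av w) ≤ av (fun x => jj (v x) (w x)) := by
  have h := jj_convex.map_sum_le (t := Finset.univ)
    (w := fun _ : Fin n → Bool => (1 / 2 ^ n : ℝ)) (p := fun x => (v x, w x))
    (fun i _ => by positivity) sum_wt (fun i _ => Set.mk_mem_prod (hv i) (hw i))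
  simp only [Prod.fst_sum, Prod.snd_sum, Prod.smul_fst, Prod.smul_snd, smul_eq_mul] at h
  rw [av_eq_sum_mul, av_eq_sum_mul, av_eq_sum_mul]
  exact h

theorem jensen_hh {n : ℕ} (v : (Fin n → Bool) → ℝ) (hv : InI v) :
    av (fun x => hh (v x)) ≤ hh (av v) := by
  have h := hh_concave.le_map_sum (t := Finset.univ)
    (w := fun _ : Fin n → Bool => (1 / 2 ^ n : ℝ)) (p := v)
    (fun i _ => by positivity) sum_wt (fun i _ => Set.Ioo_subset_Icc_self (hv i))
  simp only [smul_eq_mul] at h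
  rw [av_eq_sum_mul, av_eq_sum_mul]
  exact h

theorem av_hh_pos {n : ℕ} (v : (Fin n → Bool) → ℝ) (hv : InI v) :
    0 < av (fun x => hh (v x)) := by
  unfold av
  refine div_pos (Finset.sum_pos (fun x _ => hh_pos (hv x)) ?_) (by positivity)
  exact Finset.univ_nonempty

end P322
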