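import Vale.Agent.P322.Defs
namespace P322

private lemma Noise_sum_prod {n : ℕ} (g : Fin n → Bool → ℝ) :
    ∑ x : Fin n → Bool, ∏ i, g i (x i) = ∏ i, ∑ b : Bool, g i b := by
  rw [Finset.prod_univ_sum, Fintype.piFinset_univ]

/-- the kernel sums to one over the first variable -/
theorem kernel_sum_left {n : ℕ} (ρ : ℝ) (y : Fin n → Bool) :
    ∑ x : Fin n → Bool, (∏ i, if x i = y i then (1 + ρ) / 2 else (1 - ρ) / 2) = 1 := by
  rw [Noise_sum_prod (fun i b => if b = y i then (1 + ρ) / 2 else (1 - ρ) / 2)]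
  apply Finset.prod_eq_one
  intro i _
  rw [Fintype.sum_bool]
  cases y i <;> simp <;> ring

/-- the kernel sums to one over the second variable -/
theorem kernel_sum_right {n : ℕ} (ρ : ℝ) (x : Fin n → Bool) :
    ∑ y : Fin n → Bool, (∏ i, if x i = y i then (1 + ρ) / 2 else (1 - ρ) / 2) = 1 := by
  rw [Noise_sum_prod (fun i b => if x i = b then (1 + ρ) / 2 else (1 - ρ) / 2)]
  apply Finset.prod_eq_one
  intro i _
  rw [Fintype.sum_bool]
  cases x i <;> simp <;> ring

/-- the kernel is positive -/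
theorem kernel_pos {n : ℕ} {ρ : ℝ} (hρ0 : 0 ≤ ρ) (hρ1 : ρ < 1) (x y : Fin n → Bool) :
    0 < ∏ i, if x i = y i then (1 + ρ) / 2 else (1 - ρ) / 2 := by
  apply Finset.prod_pos
  intro i _
  split_ifs <;> linarith

theorem TT_mem {n : ℕ} (f : (Fin n → Bool) → Bool) (h1 : ∃ x, f x = true) (h2 : ∃ x, f x = false)
    {ρ : ℝ} (hρ0 : 0 ≤ ρ) (hρ1 : ρ < 1) : InI (TT ρ (sg f)) := by
  intro y
  have hs := kernel_sum_left ρ y
  obtain ⟨x1, hx1⟩ := h1
  obtain ⟨x2, hx2⟩ := h2
  constructor
  · have h : 0 < ∑ x : Fin n → Bool,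
        (∏ i, if x i = y i then (1 + ρ) / 2 else (1 - ρ) / 2) * (sg f x + 1) := by
      apply Finset.sum_pos'
      · intro x _
        apply mul_nonneg (kernel_pos hρ0 hρ1 x y).le
        unfold sg
        split_ifs <;> norm_num
      · refine ⟨x1, Finset.mem_univ _, mul_pos (kernel_pos hρ0 hρ1 x1 y) ?_⟩
        unfold sg
        rw [if_pos hx1]
        norm_num
    have h' : ∑ x : Fin n → Bool,
        (∏ i, if x i = y i then (1 + ρ) / 2 else (1 - ρ) / 2) * (sg f x + 1) =
        TT ρ (sg f) y + 1 := by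
      unfold TT
      simp only [mul_add, mul_one]
      rw [Finset.sum_add_distrib, hs]
    rw [h'] at h
    linarith
  · have h : 0 < ∑ x : Fin n → Bool,
        (∏ i, if x i = y i then (1 + ρ) / 2 else (1 - ρ) / 2) * (1 - sg f x) := by
      apply Finset.sum_pos'
      · intro x _
        apply mul_nonneg (kernel_pos hρ0 hρ1 x y).le
        unfold sg
        split_ifs <;> norm_num
      · refine ⟨x2, Finset.mem_univ _, mul_pos (kernel_pos hρ0 hρ1 x2 y) ?_⟩
        unfold sg
        rw [hx2]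
        norm_num
    have h' : ∑ x : Fin n → Bool,
        (∏ i, if x i = y i then (1 + ρ) / 2 else (1 - ρ) / 2) * (1 - sg f x) =
        1 - TT ρ (sg f) y := by
      unfold TT
      simp only [mul_sub, mul_one]
      rw [Finset.sum_sub_distrib, hs]
    rw [h'] at h
    linarith

theorem av_TT {n : ℕ} (u : (Fin n → Bool) → ℝ) (ρ : ℝ) : av (TT ρ u) = av u := by
  unfold av TT
  rw [Finset.sum_comm]
  congr 1
  apply Finset.sum_congr rfl
  intro x _
  rw [← Finset.sum_mul, kernel_sum_right, one_mul]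

theorem TT_one {n : ℕ} (u : (Fin n → Bool) → ℝ) : TT 1 u = u := by
  funext y
  unfold TT
  rw [Finset.sum_eq_single y]
  · have : (∏ i : Fin n, if y i = y i then ((1 : ℝ) + 1) / 2 else (1 - 1) / 2) = 1 := by
      apply Finset.prod_eq_one
      intro i _
      rw [if_pos rfl]
      norm_num
    rw [this, one_mul]
  · intro x _ hxy
    obtain ⟨i, hi⟩ := Function.ne_iff.mp hxy
    have : (∏ i : Fin n, if x i = y i then ((1 : ℝ) + 1) / 2 else (1 - 1) / 2) = 0 := by
      apply Finset.prod_eq_zero (Finset.mem_univ i)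
      rw [if_neg hi]
      norm_num
    rw [this, zero_mul]
  · intro h
    exact absurd (Finset.mem_univ y) h

theorem TT_continuous {n : ℕ} (u : (Fin n → Bool) → ℝ) (y : Fin n → Bool) :
    Continuous (fun ρ => TT ρ u y) := by
  unfold TT
  apply continuous_finset_sum
  intro x _
  apply Continuous.mul _ continuous_const
  apply continuous_finset_prod
  intro i _
  split_ifs <;> fun_prop

end P322
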