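import Vale.Agent.P322.Defs
import Vale.Agent.P322.Noise
namespace P322

theorem sum_kernel {n : ℕ} (a b : ℝ) (y : Fin n → Bool) :
    ∑ x : Fin n → Bool, (∏ i, if x i = y i then a else b) = (a + b) ^ n := by
  have h := Finset.prod_univ_sum (fun _ : Fin n => (Finset.univ : Finset Bool))
    (fun i j => if j = y i then a else b)
  rw [Fintype.piFinset_univ] at h
  rw [← h]
  have : ∀ i : Fin n, ∑ j : Bool, (if j = y i then a else b) = a + b := by
    intro i
    cases y i <;> simp [add_comm]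
  simp only [this]
  simp

theorem bsc_eq {n : ℕ} (ε : ℝ) (x y : Fin n → Bool) :
    bsc ε x y = ∏ i, if x i = y i then (1 + (1 - 2 * ε)) / 2 else (1 - (1 - 2 * ε)) / 2 := by
  unfold bsc
  refine Finset.prod_congr rfl fun i _ => ?_
  split_ifs <;> ring

theorem sum_bsc {n : ℕ} (ε : ℝ) (y : Fin n → Bool) : ∑ x, bsc ε x y = 1 := by
  unfold bsc
  rw [sum_kernel]
  simp

theorem TT_bsc {n : ℕ} (ε : ℝ) (u : (Fin n → Bool) → ℝ) (y : Fin n → Bool) :
    TT (1 - 2 * ε) u y = ∑ x, bsc ε x y * u x := by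
  unfold TT
  refine Finset.sum_congr rfl fun x _ => ?_
  rw [bsc_eq]

theorem bsc_nonneg {n : ℕ} {ε : ℝ} (h0 : 0 ≤ ε) (h1 : ε ≤ 1) (x y : Fin n → Bool) :
    0 ≤ bsc ε x y := by
  unfold bsc
  refine Finset.prod_nonneg fun i _ => ?_
  split_ifs <;> linarith

/-- `b = true ↦ 1`, `b = false ↦ -1` -/
noncomputable def sb (b : Bool) : ℝ := if b then 1 else -1

theorem joint_eq {n : ℕ} (f : (Fin n → Bool) → Bool) (ε : ℝ) (b : Bool) (y : Fin n → Bool) :
    joint f ε b y = (1 + sb b * TT (1 - 2 * ε) (sg f) y) / 2 / 2 ^ n := by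
  rw [TT_bsc]
  unfold joint
  have e : (1 + sb b * ∑ x, bsc ε x y * sg f x) / 2 / 2 ^ n
      = ∑ x, (bsc ε x y + sb b * (bsc ε x y * sg f x)) / 2 / 2 ^ n := by
    rw [← Finset.sum_div, ← Finset.sum_div, Finset.sum_add_distrib, sum_bsc, Finset.mul_sum]
  rw [e]
  refine Finset.sum_congr rfl fun x _ => ?_
  unfold sb sg
  cases b <;> cases h : f x <;> simp

theorem sum_joint_b {n : ℕ} (f : (Fin n → Bool) → Bool) (ε : ℝ) (y : Fin n → Bool) :
    ∑ b, joint f ε b y = 1 / 2 ^ n := by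
  simp only [joint_eq, Fintype.sum_bool, sb]
  simp
  ring

theorem sum_joint_y {n : ℕ} (f : (Fin n → Bool) → Bool) (ε : ℝ) (b : Bool) :
    ∑ y, joint f ε b y = (1 + sb b * av (sg f)) / 2 := by
  simp only [joint_eq]
  have h := av_TT (sg f) (1 - 2 * ε)
  rw [← h]
  unfold av
  rw [← Finset.sum_div, ← Finset.sum_div, Finset.sum_add_distrib, ← Finset.mul_sum]
  simp only [Finset.sum_const, Finset.card_univ, Fintype.card_fun, Fintype.card_bool,
    Fintype.card_fin, nsmul_eq_mul, mul_one]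
  push_cast
  have : (2 : ℝ) ^ n ≠ 0 := by positivity
  field_simp

theorem joint_nonneg {n : ℕ} (f : (Fin n → Bool) → Bool) {ε : ℝ} (h0 : 0 ≤ ε) (h1 : ε ≤ 1)
    (b : Bool) (y : Fin n → Bool) : 0 ≤ joint f ε b y := by
  unfold joint
  refine Finset.sum_nonneg fun x _ => ?_
  split_ifs
  · exact div_nonneg (bsc_nonneg h0 h1 x y) (by positivity)
  · exact le_rfl

theorem hh_expand (u : ℝ) : hh u = - ∑ b : Bool, (1 + sb b * u) / 2 * Real.log ((1 + sb b * u) / 2) := by
  unfold hh
  rw [Real.binEntropy_eq_negMulLog_add_negMulLog_one_sub]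
  unfold Real.negMulLog
  simp only [Fintype.sum_bool, sb]
  have : 1 - (1 + u) / 2 = (1 + -1 * u) / 2 := by ring
  rw [this]
  simp
  ring

/-- mutual information of `(f(X),Y)` through the entropy of the posterior. -/
theorem mi_formula {n : ℕ} (f : (Fin n → Bool) → Bool) (ε : ℝ) (h0 : 0 ≤ ε) (h1 : ε ≤ 1) :
    mutualInfo (joint f ε) =
      (hh (av (sg f)) - av (fun y => hh (TT (1 - 2 * ε) (sg f) y))) / Real.log 2 := by
  set m := av (sg f) with hm
  set t := TT (1 - 2 * ε) (sg f) with ht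
  have hN : (0 : ℝ) < 2 ^ n := by positivity
  have hterm : ∀ b y, joint f ε b y * Real.logb 2 (joint f ε b y /
      ((∑ b', joint f ε b b') * (∑ a', joint f ε a' y)))
      = ((1 + sb b * t y) / 2 * Real.log ((1 + sb b * t y) / 2) / 2 ^ n
        - joint f ε b y * Real.log ((1 + sb b * m) / 2)) / Real.log 2 := by
    intro b y
    rw [sum_joint_b, sum_joint_y, ← hm]
    have hj : joint f ε b y = (1 + sb b * t y) / 2 / 2 ^ n := joint_eq f ε b y
    by_cases hz : (1 + sb b * t y) / 2 = 0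
    · rw [hj, hz]; simp
    · have hjn : joint f ε b y ≠ 0 := by rw [hj]; exact div_ne_zero hz hN.ne'
      have hjpos : 0 < joint f ε b y := lt_of_le_of_ne (joint_nonneg f h0 h1 b y) hjn.symm
      have hQ : 0 < (1 + sb b * m) / 2 := by
        rw [hm, ← sum_joint_y f ε b]
        exact lt_of_lt_of_le hjpos
          (Finset.single_le_sum (f := fun y => joint f ε b y)
            (fun y _ => joint_nonneg f h0 h1 b y) (Finset.mem_univ y))
      have e1 : joint f ε b y / ((1 + sb b * m) / 2 * (1 / 2 ^ n))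
          = ((1 + sb b * t y) / 2) / ((1 + sb b * m) / 2) := by
        rw [hj]; field_simp
      rw [e1, Real.logb, Real.log_div hz hQ.ne', hj]
      ring
  unfold mutualInfo
  simp only [hterm]
  simp only [← Finset.sum_div]
  congr 1
  simp only [Finset.sum_sub_distrib]
  have e2 : ∀ b, ∑ y, joint f ε b y * Real.log ((1 + sb b * m) / 2)
      = (1 + sb b * m) / 2 * Real.log ((1 + sb b * m) / 2) := by
    intro b
    rw [← Finset.sum_mul, sum_joint_y, ← hm]
  simp only [e2]
  rw [Finset.sum_comm]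
  have e3 : av (fun y => hh (t y))
      = - ∑ y, ∑ b : Bool, (1 + sb b * t y) / 2 * Real.log ((1 + sb b * t y) / 2) / 2 ^ n := by
    unfold av
    simp only [hh_expand, Finset.sum_neg_distrib, neg_div, Finset.sum_div]
  rw [e3, hh_expand m]
  ring
end P322
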