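import Vale.Agent.P322.H2
namespace P322
/-- comparison: if `ρ H' = -J` and `J ≥ s artanh s` where `h(s) = H`, then `H ≥ h(ρ)`. -/
theorem ode_compare (H J : ℝ → ℝ)
    (hd : ∀ ρ ∈ Set.Ioo (0 : ℝ) 1, HasDerivAt H (-(J ρ) / ρ) ρ)
    (hH : ∀ ρ ∈ Set.Ioo (0 : ℝ) 1, 0 < H ρ ∧ H ρ ≤ Real.log 2)
    (hJ : ∀ ρ ∈ Set.Ioo (0 : ℝ) 1, ∀ s ∈ Set.Ico (0 : ℝ) 1, hh s = H ρ → s * ath s ≤ J ρ) :
    ∀ ρ ∈ Set.Ioo (0 : ℝ) 1, hh ρ ≤ H ρ := by
  intro r0 hr0
  by_contra hcon
  push Not at hcon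
  -- find `s0 ∈ (r0, 1)` with `hh s0 = H r0`
  have hpos := (hH r0 hr0).1
  obtain ⟨s0, hs0, hs0e⟩ : ∃ s0 ∈ Set.Ioo r0 1, hh s0 = H r0 := by
    have := intermediate_value_Ioo' hr0.2.le (f := hh) hh_continuous.continuousOn
    have hm : H r0 ∈ Set.Ioo (hh 1) (hh r0) := by
      rw [hh_one]; exact ⟨hpos, hcon⟩
    obtain ⟨s, hs, hse⟩ := this hm
    exact ⟨s, hs, hse⟩
  set δ : ℝ := s0 - r0 with hδ
  have hδ0 : 0 < δ := by have := hs0.1; linarith
  have hab : r0 ≤ 1 - δ := by have := hs0.2; linarith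
  have h1δ : 1 - δ < 1 := by linarith
  have key := image_le_of_deriv_right_lt_deriv_boundary' (f := H) (f' := fun x => -(J x) / x)
    (a := r0) (b := 1 - δ) (B := fun x => hh (x + δ)) (B' := fun x => -ath (x + δ))
    (by
      intro x hx
      have hx' : x ∈ Set.Ioo (0 : ℝ) 1 := ⟨lt_of_lt_of_le hr0.1 hx.1, lt_of_le_of_lt hx.2 h1δ⟩
      exact (hd x hx').continuousAt.continuousWithinAt)
    (by
      intro x hx
      have hx' : x ∈ Set.Ioo (0 : ℝ) 1 := ⟨lt_of_lt_of_le hr0.1 hx.1, lt_trans hx.2 h1δ⟩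
      exact (hd x hx').hasDerivWithinAt)
    (by
      have : r0 + δ = s0 := by rw [hδ]; ring
      simp only [this, hs0e, le_refl])
    ((hh_continuous.comp (continuous_id.add continuous_const)).continuousOn)
    (by
      intro x hx
      have hx0 : 0 < x := lt_of_lt_of_le hr0.1 hx.1
      have hx1 : x + δ < 1 := by have := hx.2; linarith
      have hm : x + δ ∈ Set.Ioo (-1 : ℝ) 1 := ⟨by linarith, hx1⟩
      have h1 := (hasDerivAt_hh hm).comp_add_const x δ
      exact h1.hasDerivWithinAt)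
    (by
      intro x hx he
      have hx0 : 0 < x := lt_of_lt_of_le hr0.1 hx.1
      have hx1 : x + δ < 1 := by have := hx.2; linarith
      have hx' : x ∈ Set.Ioo (0 : ℝ) 1 := ⟨hx0, by linarith⟩
      have hJx := hJ x hx' (x + δ) ⟨by linarith, hx1⟩ he.symm
      have ha : 0 < ath (x + δ) := ath_pos (by linarith) hx1
      have h2 : x * ath (x + δ) < J x := by
        have : x * ath (x + δ) < (x + δ) * ath (x + δ) := by
          apply mul_lt_mul_of_pos_right _ ha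
          linarith
        linarith
      show -(J x) / x < -ath (x + δ)
      rw [neg_div, neg_lt_neg_iff, lt_div_iff₀ hx0]
      linarith)
  have hfin := key (x := 1 - δ) ⟨hab, le_refl _⟩
  have he1 : 1 - δ + δ = 1 := by ring
  simp only [he1, hh_one] at hfin
  have hp := (hH (1 - δ) ⟨lt_of_lt_of_le hr0.1 hab, h1δ⟩).1
  linarith
end P322
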