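import Vale.Agent.P322.RR
import Vale.Agent.P322.J0
import Vale.Agent.P322.Jensen2
import Vale.Agent.P322.Bregman
import Vale.Agent.P322.Induct
import Vale.Agent.P322.Ode
import Vale.Agent.P322.HDeriv
import Vale.Agent.P322.Noise
import Vale.Agent.P322.MI

/-!
Generic framework: for every weight `G` with `G 0 = 1`, `0 < G`, `G log 2 ≤ h` on `(-1,1)` and
the real inequality `CProp G`, the balanced Courtade-Kumar inequality follows.
-/
namespace P322

/-- average of `G` over `m ± d` -/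
noncomputable def Gbar (G : ℝ → ℝ) (m d : ℝ) : ℝ := (G (m + d) + G (m - d)) / 2

/-- the Bellman function with weight `G` -/
noncomputable def BG (G : ℝ → ℝ) (m H : ℝ) : ℝ := 2 * (hh m - H) + G m * RR (H / G m)

/-- the real inequality for the weight `G` -/
def CProp (G : ℝ → ℝ) : Prop := ∀ m d H s : ℝ, 0 < d → |m| + d < 1 → 0 < H →
  H ≤ (hh (m + d) + hh (m - d)) / 2 → s ∈ Set.Ioo (0 : ℝ) 1 → hh s * d = s * H →
  2 * (hh m - (hh (m + d) + hh (m - d)) / 2)
      + G m * RR (H / G m) - Gbar G m d * RR (H / Gbar G m d)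
    ≤ max (jj (m + d) (m - d)
          + d ^ 2 / (1 - m ^ 2 + d ^ 2) * ((hh (m + d) + hh (m - d)) / 2 - H)) (d * ath s)

theorem jj_symm' (a b : ℝ) : jj a b = jj b a := by
  unfold jj; ring

/-- for even `G` it is enough to treat `m ≥ 0` -/
theorem CProp_of_nonneg {G : ℝ → ℝ} (hG : ∀ m, G (-m) = G m)
    (h : ∀ m d H s : ℝ, 0 ≤ m → 0 < d → m + d < 1 → 0 < H →
      H ≤ (hh (m + d) + hh (m - d)) / 2 → s ∈ Set.Ioo (0 : ℝ) 1 → hh s * d = s * H →
      2 * (hh m - (hh (m + d) + hh (m - d)) / 2)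
          + G m * RR (H / G m) - Gbar G m d * RR (H / Gbar G m d)
        ≤ max (jj (m + d) (m - d)
          + d ^ 2 / (1 - m ^ 2 + d ^ 2) * ((hh (m + d) + hh (m - d)) / 2 - H)) (d * ath s)) :
    CProp G := by
  intro m d H s hd hm hH0 hH hs hsH
  rcases le_total 0 m with h0 | h0
  · exact h m d H s h0 hd (by rwa [abs_of_nonneg h0] at hm) hH0 hH hs hsH
  · have e1 : hh (-m + d) = hh (m - d) := by rw [← hh_neg (m - d)]; congr 1; ring
    have e2 : hh (-m - d) = hh (m + d) := by rw [← hh_neg (m + d)]; congr 1; ring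
    have e3 : G (-m + d) = G (m - d) := by rw [← hG (m - d)]; congr 1; ring
    have e4 : G (-m - d) = G (m + d) := by rw [← hG (m + d)]; congr 1; ring
    have hm1 : -m + d < 1 := by rwa [abs_of_nonpos h0] at hm
    have ha : m + d ∈ Set.Ioo (-1 : ℝ) 1 := ⟨by linarith, by linarith⟩
    have hb : m - d ∈ Set.Ioo (-1 : ℝ) 1 := ⟨by linarith, by linarith⟩
    have e5 : jj (-m + d) (-m - d) = jj (m + d) (m - d) := by
      have h1 : ath (-m + d) = -ath (m - d) := by
        rw [← ath_neg hb]; congr 1; ring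
      have h2 : ath (-m - d) = -ath (m + d) := by
        rw [← ath_neg ha]; congr 1; ring
      unfold jj
      rw [h1, h2]; ring
    have h' := h (-m) d H s (by linarith) hd hm1 hH0
      (by rw [e1, e2]; linarith) hs hsH
    have eb : Gbar G (-m) d = Gbar G m d := by
      unfold Gbar
      rw [e3, e4]; ring
    rw [e1, e2, hh_neg, eb, hG, e5, neg_sq] at h'
    have e6 : (hh (m - d) + hh (m + d)) / 2 = (hh (m + d) + hh (m - d)) / 2 := by ring
    rw [e6] at h'
    exact h'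

theorem BG_step_pos {G : ℝ → ℝ} (hGp : ∀ m ∈ Set.Ioo (-1 : ℝ) 1, 0 < G m) (hC : CProp G)
    (n : ℕ) (v w : (Fin n → Bool) → ℝ) (hv : InI v) (hw : InI w) (hd : av w < av v) :
      BG G ((av v + av w) / 2) ((av (fun x => hh (v x)) + av (fun x => hh (w x))) / 2)
        ≤ (BG G (av v) (av (fun x => hh (v x))) + BG G (av w) (av (fun x => hh (w x)))) / 2
          + av (fun x => jj (v x) (w x)) := by
  have hmv := av_mem hv
  have hmw := av_mem hw
  have hHv := av_hh_pos v hv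
  have hHw := av_hh_pos w hw
  have hJv := jensen_hh v hv
  have hJw := jensen_hh w hw
  have hjj := av_bregman v w hv hw hmv hmw
  obtain ⟨s, hs, hsH⟩ := exists_s (d := (av v - av w) / 2)
    (H := (av (fun x => hh (v x)) + av (fun x => hh (w x))) / 2)
    (by linarith) (by linarith)
  have hJ0 := J0_bound v w hv hw hs rfl rfl hsH
  generalize av (fun x => jj (v x) (w x)) = E at *
  generalize av (fun x => hh (v x)) = H1 at *
  generalize av (fun x => hh (w x)) = H2 at *
  generalize av v = m1 at *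
  generalize av w = m2 at *
  have e1 : (m1 + m2) / 2 + (m1 - m2) / 2 = m1 := by ring
  have e2 : (m1 + m2) / 2 - (m1 - m2) / 2 = m2 := by ring
  have hC := hC ((m1 + m2) / 2) ((m1 - m2) / 2) ((H1 + H2) / 2) s
    (by linarith)
    (by rcases abs_cases ((m1 + m2) / 2) with h | h <;> rw [h.1] <;> linarith [hmv.2, hmw.1])
    (by linarith) (by rw [e1, e2]; linarith) hs hsH
  unfold Gbar at hC
  rw [e1, e2] at hC
  have hP := RR_persp (hGp m1 hmv) (hGp m2 hmw) hHv hHw
  have hden : 0 < 1 - m1 * m2 := by nlinarith [hmv.1, hmv.2, hmw.1, hmw.2]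
  have e4 : 1 - ((m1 + m2) / 2) ^ 2 + ((m1 - m2) / 2) ^ 2 = 1 - m1 * m2 := by ring
  have e5 : (m1 - m2) ^ 2 / (8 * (1 - m1 * m2)) * (hh m1 - H1 + (hh m2 - H2))
      = ((m1 - m2) / 2) ^ 2 / (1 - m1 * m2) * ((hh m1 + hh m2) / 2 - (H1 + H2) / 2) := by
    field_simp
    ring
  rw [e5] at hjj
  rw [e4] at hC
  have hmax := max_le hjj hJ0
  unfold BG
  linarith

theorem BG_step {G : ℝ → ℝ} (hGp : ∀ m ∈ Set.Ioo (-1 : ℝ) 1, 0 < G m) (hC : CProp G)
    (n : ℕ) (v w : (Fin n → Bool) → ℝ) (hv : InI v) (hw : InI w) :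
      BG G ((av v + av w) / 2) ((av (fun x => hh (v x)) + av (fun x => hh (w x))) / 2)
        ≤ (BG G (av v) (av (fun x => hh (v x))) + BG G (av w) (av (fun x => hh (w x)))) / 2
          + av (fun x => jj (v x) (w x)) := by
  rcases lt_trichotomy (av w) (av v) with h | h | h
  · exact BG_step_pos hGp hC n v w hv hw h
  · have hmv := av_mem hv
    have hHv := av_hh_pos v hv
    have hHw := av_hh_pos w hw
    have hjj := jensen_jj v w hv hw
    have hz : jj (av v) (av w) = 0 := by rw [h]; unfold jj; ring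
    rw [hz] at hjj
    have hg := hGp _ hmv
    have hP := RR_persp hg hg hHv hHw
    rw [h]
    have e : (av v + av v) / 2 = av v := by ring
    have e' : (G (av v) + G (av v)) / 2 = G (av v) := by ring
    rw [e'] at hP
    rw [e]
    unfold BG
    linarith
  · have h' := BG_step_pos hGp hC n w v hw hv h
    have e1 : av (fun x => jj (w x) (v x)) = av (fun x => jj (v x) (w x)) := by
      congr 1; funext x; exact jj_symm' _ _
    rw [e1, add_comm (av w) (av v), add_comm (av (fun x => hh (w x))) (av (fun x => hh (v x)))] at h'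
    linarith

theorem BG_base {G : ℝ → ℝ} {m : ℝ} (hp : 0 < G m) (hb : G m * Real.log 2 ≤ hh m) :
    BG G m (hh m) ≤ 0 := by
  unfold BG
  rw [RR_zero]
  · simp
  · rw [le_div_iff₀ hp]; linarith

theorem BG_zero {G : ℝ → ℝ} (h0 : G 0 = 1) {s : ℝ} (hs : s ∈ Set.Ico (0 : ℝ) 1) :
    BG G 0 (hh s) = s * ath s := by
  have h := Bf_zero hs
  unfold Bf at h
  unfold BG
  rw [h0]
  simpa using h

/-- the functional inequality at mean zero, for a generic weight -/
theorem star_of {G : ℝ → ℝ} (hG0 : G 0 = 1) (hGp : ∀ m ∈ Set.Ioo (-1 : ℝ) 1, 0 < G m)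
    (hGb : ∀ m ∈ Set.Ioo (-1 : ℝ) 1, G m * Real.log 2 ≤ hh m) (hC : CProp G)
    {n : ℕ} (u : (Fin n → Bool) → ℝ) (hu : InI u) (h0 : av u = 0)
    {s : ℝ} (hs : s ∈ Set.Ico (0 : ℝ) 1) (h : hh s = av (fun x => hh (u x))) :
    s * ath s ≤ II u := by
  have h1 := induct (BG G) (fun m hm => BG_base (hGp m hm) (hGb m hm)) (BG_step hGp hC) n u hu
  rw [h0, ← h, BG_zero hG0 hs] at h1
  exact h1

/-- the mean zero functional inequality -/
def Star : Prop := ∀ (n : ℕ) (u : (Fin n → Bool) → ℝ), InI u → av u = 0 →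
  ∀ s ∈ Set.Ico (0 : ℝ) 1, hh s = av (fun x => hh (u x)) → s * ath s ≤ II u

theorem Star_of {G : ℝ → ℝ} (hG0 : G 0 = 1) (hGp : ∀ m ∈ Set.Ioo (-1 : ℝ) 1, 0 < G m)
    (hGb : ∀ m ∈ Set.Ioo (-1 : ℝ) 1, G m * Real.log 2 ≤ hh m) (hC : CProp G) : Star :=
  fun _ u hu h0 _ hs h => star_of hG0 hGp hGb hC u hu h0 hs h

theorem gen_balanced_av {n : ℕ} (f : (Fin n → Bool) → Bool) (hf : Balanced f) : av (sg f) = 0 := by
  unfold av
  have h : ∑ x, sg f x = ((Finset.univ.filter fun x => f x = true).card : ℝ)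
      - ((Finset.univ.filter fun x => f x = false).card : ℝ) := by
    have e : ∀ x, sg f x = (if f x = true then (1 : ℝ) else 0) - (if f x = false then 1 else 0) := by
      intro x
      unfold sg
      cases f x <;> simp
    simp only [e]
    rw [Finset.sum_sub_distrib, Finset.sum_boole, Finset.sum_boole]
  rw [h, hf, sub_self, zero_div]

theorem gen_av_le {n : ℕ} {g : (Fin n → Bool) → ℝ} {c : ℝ} (hg : ∀ x, g x ≤ c) : av g ≤ c := by
  unfold av
  rw [div_le_iff₀ (by positivity)]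
  calc ∑ x, g x ≤ ∑ _x : Fin n → Bool, c := Finset.sum_le_sum fun x _ => hg x
    _ = c * 2 ^ n := by simp; ring

/-- entropy comparison for balanced functions -/
theorem gen_balanced_H (hS : Star) {n : ℕ} (f : (Fin n → Bool) → Bool) (hf : Balanced f) {ρ : ℝ}
    (h0 : 0 ≤ ρ) (h1 : ρ ≤ 1) : hh ρ ≤ av (fun y => hh (TT ρ (sg f) y)) := by
  have hav : av (sg f) = 0 := gen_balanced_av f hf
  -- both values are taken
  have hcard : (Finset.univ.filter fun x => f x = true).card
      + (Finset.univ.filter fun x => f x = false).card = 2 ^ n := by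
    have := Finset.card_filter_add_card_filter_not (s := (Finset.univ : Finset (Fin n → Bool)))
      (fun x => f x = true)
    simpa using this
  have hpos : 0 < (Finset.univ.filter fun x => f x = true).card := by
    have h2 : 0 < 2 ^ n := by positivity
    unfold Balanced at hf
    omega
  have hpos' : 0 < (Finset.univ.filter fun x => f x = false).card := by
    unfold Balanced at hf
    omega
  obtain ⟨a, ha⟩ := Finset.card_pos.1 hpos
  obtain ⟨b, hb⟩ := Finset.card_pos.1 hpos'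
  have hta : ∃ x, f x = true := ⟨a, by simpa using ha⟩
  have htb : ∃ x, f x = false := ⟨b, by simpa using hb⟩
  have hmem : ∀ r : ℝ, 0 ≤ r → r < 1 → InI (TT r (sg f)) := fun r hr0 hr1 =>
    TT_mem f hta htb hr0 hr1
  have hinner : ∀ r ∈ Set.Ioo (0 : ℝ) 1, hh r ≤ av (fun y => hh (TT r (sg f) y)) := by
    refine ode_compare (fun r => av (fun y => hh (TT r (sg f) y))) (fun r => II (TT r (sg f)))
      (fun r hr => hasDerivAt_H (sg f) hr.1 (hmem r hr.1.le hr.2)) (fun r hr => ⟨?_, ?_⟩)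
      (fun r hr s hs hs2 => hS n (TT r (sg f)) (hmem r hr.1.le hr.2)
        (by rw [av_TT, hav]) s hs hs2)
    · have h3 : 0 < ∑ y : Fin n → Bool, hh (TT r (sg f) y) :=
        Finset.sum_pos (fun y _ => hh_pos (hmem r hr.1.le hr.2 y)) Finset.univ_nonempty
      exact div_pos h3 (by positivity)
    · exact gen_av_le fun y => hh_le
  have hcont : Continuous (fun r => av (fun y => hh (TT r (sg f) y))) := by
    unfold av
    exact (continuous_finsetSum _ fun y _ =>
      hh_continuous.comp (TT_continuous (sg f) y)).div_const _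
  have hclosed : IsClosed {r : ℝ | hh r ≤ av (fun y => hh (TT r (sg f) y))} :=
    isClosed_le hh_continuous hcont
  have hsub : closure (Set.Ioo (0 : ℝ) 1) ⊆ {r : ℝ | hh r ≤ av (fun y => hh (TT r (sg f) y))} :=
    closure_minimal hinner hclosed
  rw [closure_Ioo (by norm_num)] at hsub
  exact hsub ⟨h0, h1⟩

/-- balanced Courtade-Kumar from the functional inequality -/
theorem gen_balanced_CK (hS : Star) {n : ℕ} (f : (Fin n → Bool) → Bool) (hf : Balanced f)
    (ε : ℝ) (h0 : 0 ≤ ε) (h1 : ε ≤ 1 / 2) :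
    mutualInfo (joint f ε) ≤ 1 - h2 ε := by
  have hlog : 0 < Real.log 2 := Real.log_pos (by norm_num)
  rw [mi_formula f ε h0 (by linarith), h2_eq, gen_balanced_av f hf, hh_zero]
  have h := gen_balanced_H hS f hf (ρ := 1 - 2 * ε) (by linarith) (by linarith)
  rw [show (1 : ℝ) - hh (1 - 2 * ε) / Real.log 2 = (Real.log 2 - hh (1 - 2 * ε)) / Real.log 2 by
    field_simp]
  exact div_le_div_of_nonneg_right (by linarith) hlog.le

/-- balanced Courtade-Kumar from the real inequality for some weight `G` -/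
theorem balanced_CK_of {G : ℝ → ℝ} (hG0 : G 0 = 1) (hGp : ∀ m ∈ Set.Ioo (-1 : ℝ) 1, 0 < G m)
    (hGb : ∀ m ∈ Set.Ioo (-1 : ℝ) 1, G m * Real.log 2 ≤ hh m) (hC : CProp G)
    {n : ℕ} (f : (Fin n → Bool) → Bool) (hf : Balanced f)
    (ε : ℝ) (h0 : 0 ≤ ε) (h1 : ε ≤ 1 / 2) :
    mutualInfo (joint f ε) ≤ 1 - h2 ε :=
  gen_balanced_CK (Star_of hG0 hGp hGb hC) f hf ε h0 h1

/-- the weight `(1-m²)(1-β m²)` -/
noncomputable def Gbeta (β m : ℝ) : ℝ := (1 - m ^ 2) * (1 - β * m ^ 2)

theorem Gbeta_zero (β : ℝ) : Gbeta β 0 = 1 := by unfold Gbeta; ring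
theorem Gbeta_neg (β m : ℝ) : Gbeta β (-m) = Gbeta β m := by unfold Gbeta; ring
theorem Gbeta_pos {β m : ℝ} (h0 : 0 ≤ β) (h1 : β < 1) (hm : m ∈ Set.Ioo (-1 : ℝ) 1) :
    0 < Gbeta β m := by
  unfold Gbeta
  have h2 : m ^ 2 < 1 := by nlinarith [hm.1, hm.2]
  have h3 : β * m ^ 2 ≤ β * 1 := mul_le_mul_of_nonneg_left h2.le h0
  exact mul_pos (by linarith) (by linarith)
theorem Gbeta_base {β m : ℝ} (h0 : 0 ≤ β) (hm : m ∈ Set.Ioo (-1 : ℝ) 1) :
    Gbeta β m * Real.log 2 ≤ hh m := by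
  have h1 := hh_ge_quad (m := m) ⟨hm.1.le, hm.2.le⟩
  have h2 : m ^ 2 < 1 := by nlinarith [hm.1, hm.2]
  have hl : 0 < Real.log 2 := Real.log_pos one_lt_two
  have h3 : Gbeta β m ≤ 1 - m ^ 2 := by
    unfold Gbeta
    have : 0 ≤ β * m ^ 2 := by positivity
    nlinarith
  exact le_trans (mul_le_mul_of_nonneg_right h3 hl.le) h1
theorem Gbeta_bar (β m d : ℝ) : Gbar (Gbeta β) m d
    = 1 - (1 + β) * (m ^ 2 + d ^ 2) + β * (m ^ 4 + 6 * m ^ 2 * d ^ 2 + d ^ 4) := by
  unfold Gbar Gbeta; ring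
theorem Gbeta_bar_zero (m d : ℝ) : Gbar (Gbeta 0) m d = 1 - m ^ 2 - d ^ 2 := by
  rw [Gbeta_bar]; ring

end P322
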