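import Vale.Agent.P322.T1Defs

/-! P322: assembly of the one-step inequality with weight `1 - m²` from its four parts. -/
namespace P322

theorem glue_div_anti {s t : ℝ} (hs : 0 < s) (hst : s ≤ t) (ht : t ≤ 1) : hh t / t ≤ hh s / s := by
  have h1 : hh t ≤ hh s := hh_strictAntiOn.antitoneOn ⟨hs.le, hst.trans ht⟩
    ⟨(hs.le.trans hst), ht⟩ hst
  have h2 : 0 ≤ hh s := hh_nonneg ⟨by linarith, hst.trans ht⟩
  exact div_le_div₀ h2 h1 hs hst

theorem glue_hbar_ge {m d : ℝ} (hm : 0 ≤ m) (hd : 0 < d) (hmd : m + d < 1) :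
    (1 - m ^ 2 - d ^ 2) * Real.log 2 ≤ (hh (m + d) + hh (m - d)) / 2 := by
  have h1 := hh_ge_quad (m := m + d) ⟨by linarith, by linarith⟩
  have h2 := hh_ge_quad (m := m - d) ⟨by linarith, by linarith⟩
  nlinarith

theorem glue (hR : RayProp) (hS : Scal0Prop) (hE : E1Prop) (hC : CornerProp) : CAv Gq := by
  intro n v w hv hw m d H hm1 hm2 hH hm hd hmd hH0 hHb
  rw [Gq_bar]
  have hEF : 2 * (hh m - (hh (m + d) + hh (m - d)) / 2) + Gq m * RR (H / Gq m)
      - (1 - m ^ 2 - d ^ 2) * RR (H / (1 - m ^ 2 - d ^ 2)) = EF m d H := by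
    unfold EF Gq; rfl
  rw [hEF]
  obtain ⟨s, hs, hsH⟩ := exists_s (d := d) (H := H) hd hH0
  have hs0 : 0 < s := hs.1
  have h1m : 0 < 1 - m := by linarith
  have hδ0 : 0 < d / (1 - m) := div_pos hd h1m
  have hH1 : 0 < H / (1 - m) := div_pos hH0 h1m
  have hsH' : hh s * (d / (1 - m)) = s * (H / (1 - m)) := by
    rw [← mul_div_assoc, ← mul_div_assoc, hsH]
  have eH : H / (1 - m) = hh s / s * (d / (1 - m)) := by
    rw [div_mul_eq_mul_div, hsH']
    field_simp
  by_cases hcase : d ≤ s * (1 - m)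
  · -- the `J0` region
    have hJ0 := J0_bound (d := d) (H := H) v w hv hw hs (by rw [hm1, hm2]; ring) hH.symm hsH
    have h1 := hR 0 m d H le_rfl hm hd hmd hH0
    have e1 : d * (1 - 0) / (1 - m) = d / (1 - m) := by ring
    have e2 : H * (1 - 0) / (1 - m) = H / (1 - m) := by ring
    rw [e1, e2, sub_zero, div_one] at h1
    have hδs : d / (1 - m) ≤ s := by rw [div_le_iff₀ h1m]; exact hcase
    have hδ1 : d / (1 - m) < 1 := lt_of_le_of_lt hδs hs.2
    have hHle : H / (1 - m) ≤ hh (d / (1 - m)) := by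
      have h := glue_div_anti hδ0 hδs hs.2.le
      rw [eH]
      calc hh s / s * (d / (1 - m)) ≤ hh (d / (1 - m)) / (d / (1 - m)) * (d / (1 - m)) :=
            mul_le_mul_of_nonneg_right h hδ0.le
        _ = hh (d / (1 - m)) := div_mul_cancel₀ _ hδ0.ne'
    have h2 := hS _ _ s hδ0 hδ1 hH1 hHle hs hsH'
    calc EF m d H ≤ (1 - m) * EF 0 (d / (1 - m)) (H / (1 - m)) := h1
      _ ≤ (1 - m) * (d / (1 - m) * ath s) := mul_le_mul_of_nonneg_left h2 h1m.le
      _ = d * ath s := by field_simp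
      _ ≤ _ := hJ0
  · -- region III
    push Not at hcase
    have hδs : s ≤ d / (1 - m) := by rw [le_div_iff₀ h1m]; exact hcase.le
    have hδ1 : d / (1 - m) < 1 := by rw [div_lt_one h1m]; linarith
    let F : ℝ → ℝ := fun μ =>
      (hh (μ + d * (1 - μ) / (1 - m)) + hh (μ - d * (1 - μ) / (1 - m))) / 2
        - H * (1 - μ) / (1 - m)
    have hFc : Continuous F := by
      have hc1 : Continuous fun μ : ℝ => d * (1 - μ) / (1 - m) :=
        (continuous_const.mul (continuous_const.sub continuous_id)).div_const _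
      have hc2 : Continuous fun μ : ℝ => H * (1 - μ) / (1 - m) :=
        (continuous_const.mul (continuous_const.sub continuous_id)).div_const _
      exact (((hh_continuous.comp (continuous_id.add hc1)).add
        (hh_continuous.comp (continuous_id.sub hc1))).div_const _).sub hc2
    have hF0 : F 0 ≤ 0 := by
      have e0 : F 0 = hh (d / (1 - m)) - H / (1 - m) := by
        show (hh (0 + d * (1 - 0) / (1 - m)) + hh (0 - d * (1 - 0) / (1 - m))) / 2
          - H * (1 - 0) / (1 - m) = _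
        rw [sub_zero, mul_one, mul_one, zero_add, zero_sub, hh_neg]
        ring
      rw [e0, eH]
      have h := glue_div_anti hs0 hδs hδ1.le
      have h3 : hh (d / (1 - m)) ≤ hh s / s * (d / (1 - m)) := by
        calc hh (d / (1 - m)) = hh (d / (1 - m)) / (d / (1 - m)) * (d / (1 - m)) :=
              (div_mul_cancel₀ _ hδ0.ne').symm
          _ ≤ hh s / s * (d / (1 - m)) := mul_le_mul_of_nonneg_right h hδ0.le
      linarith
    have hFm : 0 ≤ F m := by
      have e0 : F m = (hh (m + d) + hh (m - d)) / 2 - H := by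
        show (hh (m + d * (1 - m) / (1 - m)) + hh (m - d * (1 - m) / (1 - m))) / 2
          - H * (1 - m) / (1 - m) = _
        rw [mul_div_cancel_right₀ _ h1m.ne', mul_div_cancel_right₀ _ h1m.ne']
      rw [e0]; linarith
    obtain ⟨μ, hμ, hFμ⟩ := intermediate_value_Icc hm hFc.continuousOn ⟨hF0, hFm⟩
    have hμ1 : 0 < 1 - μ := by linarith [hμ.2]
    set r : ℝ := (1 - m) / (1 - μ) with hr
    set δ : ℝ := d * (1 - μ) / (1 - m) with hδ
    have hr0 : 0 < r := div_pos h1m hμ1
    have hr1 : r ≤ 1 := by rw [hr, div_le_one hμ1]; linarith [hμ.2]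
    have hδpos : 0 < δ := div_pos (mul_pos hd hμ1) h1m
    have hrm : r * (1 - μ) = 1 - m := by rw [hr]; field_simp
    have hrδ : r * δ = d := by rw [hr, hδ]; field_simp
    have hμδ : μ + δ < 1 := by
      have : r * (μ + δ) < r * 1 := by nlinarith
      exact lt_of_mul_lt_mul_left this hr0.le
    have hFμ' : H * (1 - μ) / (1 - m) = (hh (μ + δ) + hh (μ - δ)) / 2 := by
      have h : (hh (μ + d * (1 - μ) / (1 - m)) + hh (μ - d * (1 - μ) / (1 - m))) / 2
        - H * (1 - μ) / (1 - m) = 0 := hFμ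
      rw [hδ]; linarith
    have hrH : r * ((hh (μ + δ) + hh (μ - δ)) / 2) = H := by
      rw [← hFμ', hr]; field_simp
    have h1 := hR μ m d H hμ.1 hμ.2 hd hmd hH0
    rw [← hr, ← hδ, hFμ'] at h1
    have h2 : EF μ δ ((hh (μ + δ) + hh (μ - δ)) / 2) ≤ jj (μ + δ) (μ - δ) := by
      have hE' := hE μ δ hμ.1 hδpos hμδ
      have hg : 0 < 1 - μ ^ 2 - δ ^ 2 := by nlinarith [hμ.1]
      have hz : RR ((hh (μ + δ) + hh (μ - δ)) / 2 / (1 - μ ^ 2 - δ ^ 2)) = 0 := by
        apply RR_zero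
        rw [le_div_iff₀ hg]
        have := glue_hbar_ge hμ.1 hδpos hμδ
        linarith
      unfold EF
      rw [hz, mul_zero, sub_zero]
      exact hE'
    have h3 := hC n v w hv hw μ δ r hμ.1 hδpos hμδ hr0 hr1 (by rw [hm1, hrm, hrδ]; ring)
      (by rw [hm2, hrm, hrδ]; ring) (by rw [hH, hrH])
    calc EF m d H ≤ r * EF μ δ ((hh (μ + δ) + hh (μ - δ)) / 2) := h1
      _ ≤ r * jj (μ + δ) (μ - δ) := mul_le_mul_of_nonneg_left h2 hr0.le
      _ ≤ _ := h3

/-- balanced Courtade-Kumar from the four parts -/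
theorem balanced_CK_of_parts (hR : RayProp) (hS : Scal0Prop) (hE : E1Prop) (hC : CornerProp)
    {n : ℕ} (f : (Fin n → Bool) → Bool) (hf : Balanced f)
    (ε : ℝ) (h0 : 0 ≤ ε) (h1 : ε ≤ 1 / 2) :
    mutualInfo (joint f ε) ≤ 1 - h2 ε :=
  balanced_CK_of_CAv Gq_zero Gq_neg (fun _ hm => Gq_pos hm) (fun _ hm => Gq_base hm)
    (glue hR hS hE hC) f hf ε h0 h1

/-- the functional inequality for all `u` from the four parts -/
theorem StarAll_of_parts (hR : RayProp) (hS : Scal0Prop) (hE : E1Prop) (hC : CornerProp) :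
    StarAll Gq :=
  StarAll_of Gq_neg (fun _ hm => Gq_pos hm) (fun _ hm => Gq_base hm) (glue hR hS hE hC)

end P322
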