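import Vale.Agent.P322.Defs
namespace P322
theorem h2_eq (ε : ℝ) : h2 ε = hh (1 - 2 * ε) / Real.log 2 := by
  unfold h2 hh
  have h1 : (1 + (1 - 2 * ε)) / 2 = 1 - ε := by ring
  rw [h1, Real.binEntropy_one_sub, Real.binEntropy_eq_negMulLog_add_negMulLog_one_sub]
  simp only [Real.negMulLog, Real.logb]
  ring
theorem hh_zero : hh 0 = Real.log 2 := by
  unfold hh
  rw [Real.binEntropy_eq_log_two]
  norm_num
theorem hh_one : hh 1 = 0 := by
  unfold hh
  norm_num
theorem hh_neg (u : ℝ) : hh (-u) = hh u := by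
  unfold hh
  rw [← Real.binEntropy_one_sub]
  congr 1
  ring
theorem hh_nonneg {u : ℝ} (h : u ∈ Set.Icc (-1 : ℝ) 1) : 0 ≤ hh u := by
  unfold hh
  exact Real.binEntropy_nonneg (by linarith [h.1]) (by linarith [h.2])
theorem hh_pos {u : ℝ} (h : u ∈ Set.Ioo (-1 : ℝ) 1) : 0 < hh u := by
  unfold hh
  exact Real.binEntropy_pos (by linarith [h.1]) (by linarith [h.2])
theorem hh_le {u : ℝ} : hh u ≤ Real.log 2 := by
  unfold hh
  exact Real.binEntropy_le_log_two
theorem hh_lt {u : ℝ} (h : u ≠ 0) : hh u < Real.log 2 := by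
  unfold hh
  rw [Real.binEntropy_lt_log_two]
  intro h2
  apply h
  linarith
theorem hh_continuous : Continuous hh := by
  unfold hh
  exact Real.binEntropy_continuous.comp (by fun_prop)
theorem hh_strictAntiOn : StrictAntiOn hh (Set.Icc 0 1) := by
  intro a ha b hb hab
  unfold hh
  apply Real.binEntropy_strictAntiOn
  · constructor <;> norm_num <;> linarith [ha.1, ha.2]
  · constructor <;> norm_num <;> linarith [hb.1, hb.2]
  · linarith
theorem hh_concave : ConcaveOn ℝ (Set.Icc (-1 : ℝ) 1) hh := by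
  have h := Real.strictConcave_binEntropy.concaveOn
  refine ⟨convex_Icc _ _, ?_⟩
  intro x hx y hy a b ha hb hab
  unfold hh
  have h1 : (1 + x) / 2 ∈ Set.Icc (0 : ℝ) 1 := ⟨by linarith [hx.1], by linarith [hx.2]⟩
  have h2 : (1 + y) / 2 ∈ Set.Icc (0 : ℝ) 1 := ⟨by linarith [hy.1], by linarith [hy.2]⟩
  have h3 := h.2 h1 h2 ha hb hab
  have h4 : a • ((1 + x) / 2) + b • ((1 + y) / 2) = (1 + (a • x + b • y)) / 2 := by
    simp only [smul_eq_mul]
    have : b = 1 - a := by linarith
    subst this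
    ring
  rw [h4] at h3
  exact h3
theorem hasDerivAt_hh {u : ℝ} (h : u ∈ Set.Ioo (-1 : ℝ) 1) : HasDerivAt hh (-ath u) u := by
  have h1 : (0 : ℝ) < 1 + u := by linarith [h.1]
  have h2 : (0 : ℝ) < 1 - u := by linarith [h.2]
  have hd := Real.hasDerivAt_binEntropy (p := (1 + u) / 2) (by linarith) (by linarith)
  have hi : HasDerivAt (fun u : ℝ => (1 + u) / 2) (1 / 2) u := by
    simpa using ((hasDerivAt_id u).const_add 1).div_const 2
  have hc := hd.comp u hi
  have he : (Real.log (1 - (1 + u) / 2) - Real.log ((1 + u) / 2)) * (1 / 2) = -ath u := by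
    unfold ath
    have e1 : 1 - (1 + u) / 2 = (1 - u) / 2 := by ring
    rw [e1, Real.log_div h2.ne' two_ne_zero, Real.log_div h1.ne' two_ne_zero,
      Real.log_div h1.ne' h2.ne']
    ring
  rw [he] at hc
  exact hc
theorem hasDerivAt_ath {u : ℝ} (h : u ∈ Set.Ioo (-1 : ℝ) 1) :
    HasDerivAt ath (1 / (1 - u ^ 2)) u := by
  have h1 : (0 : ℝ) < 1 + u := by linarith [h.1]
  have h2 : (0 : ℝ) < 1 - u := by linarith [h.2]
  have e1 : HasDerivAt (fun u : ℝ => 1 + u) 1 u := (hasDerivAt_id u).const_add 1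
  have e2 : HasDerivAt (fun u : ℝ => 1 - u) (-1) u := (hasDerivAt_id u).const_sub 1
  have e3 := ((e1.fun_div e2 h2.ne').log (div_pos h1 h2).ne').div_const 2
  have he : (1 * (1 - u) - (1 + u) * -1) / (1 - u) ^ 2 / ((1 + u) / (1 - u)) / 2
      = 1 / (1 - u ^ 2) := by
    have h3 : 1 - u ^ 2 = (1 + u) * (1 - u) := by ring
    rw [h3]
    field_simp
    ring
  have e4 := e3.congr_deriv he
  exact e4
theorem ath_neg {u : ℝ} (h : u ∈ Set.Ioo (-1 : ℝ) 1) : ath (-u) = -ath u := by
  have h1 : (0 : ℝ) < 1 + u := by linarith [h.1]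
  have h2 : (0 : ℝ) < 1 - u := by linarith [h.2]
  unfold ath
  have e1 : 1 + -u = 1 - u := by ring
  have e2 : 1 - -u = 1 + u := by ring
  rw [e1, e2, Real.log_div h2.ne' h1.ne', Real.log_div h1.ne' h2.ne']
  ring
theorem ath_pos {u : ℝ} (h0 : 0 < u) (h1 : u < 1) : 0 < ath u := by
  unfold ath
  have h2 : (0 : ℝ) < 1 - u := by linarith
  have : 0 < Real.log ((1 + u) / (1 - u)) := by
    apply Real.log_pos
    rw [lt_div_iff₀ h2]
    linarith
  linarith
/-- `h(s) = log 2 - log(1-s^2)/2 - s artanh s` -/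
theorem hh_eq {s : ℝ} (h : s ∈ Set.Ioo (-1 : ℝ) 1) : hh s = ell s - s * ath s := by
  have h1 : (0 : ℝ) < 1 + s := by linarith [h.1]
  have h2 : (0 : ℝ) < 1 - s := by linarith [h.2]
  unfold hh ell ath
  rw [Real.binEntropy_eq_negMulLog_add_negMulLog_one_sub]
  simp only [Real.negMulLog]
  have e1 : 1 - (1 + s) / 2 = (1 - s) / 2 := by ring
  have h3 : 1 - s ^ 2 = (1 + s) * (1 - s) := by ring
  rw [e1, h3, Real.log_mul h1.ne' h2.ne', Real.log_div h2.ne' two_ne_zero,
    Real.log_div h1.ne' two_ne_zero, Real.log_div h1.ne' h2.ne']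
  ring
theorem quad_ath_zero : ath 0 = 0 := by
  unfold ath; simp
theorem quad_ath_le {s : ℝ} (h0 : 0 ≤ s) (h1 : s < 1) : ath s ≤ s / (1 - s ^ 2) := by
  have hmono : MonotoneOn (fun u : ℝ => u / (1 - u ^ 2) - ath u) (Set.Icc 0 s) := by
    have hd : ∀ u ∈ Set.Icc 0 s, HasDerivAt (fun u : ℝ => u / (1 - u ^ 2) - ath u)
        ((1 * (1 - u ^ 2) - u * (-(2 * u))) / (1 - u ^ 2) ^ 2 - 1 / (1 - u ^ 2)) u := by
      intro u hu
      have hu1 : u < 1 := lt_of_le_of_lt hu.2 h1
      have hne : 1 - u ^ 2 ≠ 0 := by nlinarith [hu.1]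
      have h2 : HasDerivAt (fun u : ℝ => 1 - u ^ 2) (-(2 * u)) u := by
        have := (hasDerivAt_pow 2 u).const_sub 1
        simpa using this
      exact ((hasDerivAt_id u).div h2 hne).sub (hasDerivAt_ath ⟨by linarith [hu.1], hu1⟩)
    refine monotoneOn_of_deriv_nonneg (convex_Icc 0 s) ?_ ?_ ?_
    · exact fun u hu => (hd u hu).continuousAt.continuousWithinAt
    · intro u hu
      rw [interior_Icc] at hu
      exact (hd u ⟨hu.1.le, hu.2.le⟩).differentiableAt.differentiableWithinAt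
    · intro u hu
      rw [interior_Icc] at hu
      rw [(hd u ⟨hu.1.le, hu.2.le⟩).deriv]
      have hu1 : u < 1 := hu.2.trans h1
      have hp : 0 < 1 - u ^ 2 := by nlinarith [hu.1]
      have : (1 * (1 - u ^ 2) - u * (-(2 * u))) / (1 - u ^ 2) ^ 2 - 1 / (1 - u ^ 2)
          = 2 * u ^ 2 / (1 - u ^ 2) ^ 2 := by
        field_simp
        ring
      rw [this]
      positivity
  have := hmono ⟨le_rfl, h0⟩ ⟨h0, le_rfl⟩ h0
  simp only [quad_ath_zero] at this
  norm_num at this
  linarith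

theorem quad_slope_mono {s t : ℝ} (h0 : 0 < s) (hst : s ≤ t) (h1 : t < 1) :
    ath s / s ≤ ath t / t := by
  have hd : ∀ u ∈ Set.Icc s t, HasDerivAt (fun u : ℝ => ath u / u)
      ((1 / (1 - u ^ 2) * u - ath u * 1) / u ^ 2) u := by
    intro u hu
    have hu0 : 0 < u := lt_of_lt_of_le h0 hu.1
    have hu1 : u < 1 := lt_of_le_of_lt hu.2 h1
    exact (hasDerivAt_ath ⟨by linarith, hu1⟩).div (hasDerivAt_id u) hu0.ne'
  have hmono : MonotoneOn (fun u : ℝ => ath u / u) (Set.Icc s t) := by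
    refine monotoneOn_of_deriv_nonneg (convex_Icc s t) ?_ ?_ ?_
    · exact fun u hu => (hd u hu).continuousAt.continuousWithinAt
    · intro u hu
      rw [interior_Icc] at hu
      exact (hd u ⟨hu.1.le, hu.2.le⟩).differentiableAt.differentiableWithinAt
    · intro u hu
      rw [interior_Icc] at hu
      rw [(hd u ⟨hu.1.le, hu.2.le⟩).deriv]
      have hu0 : 0 < u := h0.trans hu.1
      have hu1 : u < 1 := hu.2.trans h1
      have h3 := quad_ath_le hu0.le hu1
      have h4 : 1 / (1 - u ^ 2) * u = u / (1 - u ^ 2) := by ring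
      have h5 : 0 ≤ 1 / (1 - u ^ 2) * u - ath u * 1 := by rw [h4]; linarith
      positivity
  exact hmono ⟨le_rfl, hst⟩ ⟨hst, le_rfl⟩ hst

theorem quad_concave : ConcaveOn ℝ (Set.Icc (0 : ℝ) 1) (fun t => hh (Real.sqrt t)) := by
  have hd : ∀ t ∈ Set.Ioo (0 : ℝ) 1, HasDerivAt (fun t => hh (Real.sqrt t))
      (-ath (Real.sqrt t) * (1 / (2 * Real.sqrt t))) t := by
    intro t ht
    have hs0 : 0 < Real.sqrt t := Real.sqrt_pos.2 ht.1
    have hs1 : Real.sqrt t < 1 := by
      rw [Real.sqrt_lt' one_pos]; simpa using ht.2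
    exact (hasDerivAt_hh ⟨by linarith, hs1⟩).comp t (Real.hasDerivAt_sqrt ht.1.ne')
  refine AntitoneOn.concaveOn_of_deriv (convex_Icc 0 1) ?_ ?_ ?_
  · exact (hh_continuous.comp Real.continuous_sqrt).continuousOn
  · intro t ht
    rw [interior_Icc] at ht
    exact (hd t ht).differentiableAt.differentiableWithinAt
  · intro t ht t' ht' htt
    rw [interior_Icc] at ht ht'
    rw [(hd t ht).deriv, (hd t' ht').deriv]
    have hs0 : 0 < Real.sqrt t := Real.sqrt_pos.2 ht.1
    have hs1 : Real.sqrt t' < 1 := by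
      rw [Real.sqrt_lt' one_pos]; simpa using ht'.2
    have hss := Real.sqrt_le_sqrt htt
    have h1 := quad_slope_mono hs0 hss hs1
    have e : ∀ r : ℝ, -ath r * (1 / (2 * r)) = -(ath r / r) / 2 := by
      intro r; ring
    rw [e, e]
    linarith

/-- `-log(1-s^2) ≥ ...` elementary: `s ≤ artanh s ≤ s/(1-s^2)` for `s ∈ [0,1)` -/
theorem le_ath {s : ℝ} (h0 : 0 ≤ s) (h1 : s < 1) : s ≤ ath s := by
  have hm : MonotoneOn (fun s => ath s - s) (Set.Ico (0 : ℝ) 1) := by
    apply monotoneOn_of_deriv_nonneg (convex_Ico _ _)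
    · intro x hx
      have hx' : x ∈ Set.Ioo (-1 : ℝ) 1 := ⟨by linarith [hx.1], hx.2⟩
      exact ((hasDerivAt_ath hx').sub (hasDerivAt_id x)).continuousAt.continuousWithinAt
    · rw [interior_Ico]
      intro x hx
      have hx' : x ∈ Set.Ioo (-1 : ℝ) 1 := ⟨by linarith [hx.1], hx.2⟩
      exact ((hasDerivAt_ath hx').sub (hasDerivAt_id x)).differentiableAt.differentiableWithinAt
    · rw [interior_Ico]
      intro x hx
      have hx' : x ∈ Set.Ioo (-1 : ℝ) 1 := ⟨by linarith [hx.1], hx.2⟩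
      have hd : HasDerivAt (fun s => ath s - s) (1 / (1 - x ^ 2) - 1) x :=
        (hasDerivAt_ath hx').sub (hasDerivAt_id x)
      rw [hd.deriv]
      have h3 : 0 < 1 - x ^ 2 := by nlinarith [hx.1, hx.2]
      rw [sub_nonneg, le_div_iff₀ h3]
      nlinarith [hx.1]
  have := hm (a := 0) (b := s) ⟨le_refl _, one_pos⟩ ⟨h0, h1⟩ h0
  have h00 : ath 0 = 0 := by unfold ath; norm_num
  simp only [h00] at this
  linarith
theorem ath_le {s : ℝ} (h0 : 0 ≤ s) (h1 : s < 1) : ath s ≤ s / (1 - s ^ 2) := by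
  have hder : ∀ x ∈ Set.Ico (0 : ℝ) 1, HasDerivAt (fun s => s / (1 - s ^ 2) - ath s)
      (2 * x ^ 2 / (1 - x ^ 2) ^ 2) x := by
    intro x hx
    have hx' : x ∈ Set.Ioo (-1 : ℝ) 1 := ⟨by linarith [hx.1], hx.2⟩
    have h3 : 0 < 1 - x ^ 2 := by nlinarith [hx.1, hx.2]
    have e1 : HasDerivAt (fun s : ℝ => 1 - s ^ 2) (-(2 * x)) x := by
      have := (hasDerivAt_pow 2 x).const_sub 1
      simpa using this
    have e2 := ((hasDerivAt_id x).div e1 h3.ne').sub (hasDerivAt_ath hx')
    apply e2.congr_deriv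
    simp only [id]
    field_simp
    ring
  have hm : MonotoneOn (fun s => s / (1 - s ^ 2) - ath s) (Set.Ico (0 : ℝ) 1) := by
    apply monotoneOn_of_deriv_nonneg (convex_Ico _ _)
    · intro x hx
      exact (hder x hx).continuousAt.continuousWithinAt
    · rw [interior_Ico]
      intro x hx
      exact (hder x ⟨hx.1.le, hx.2⟩).differentiableAt.differentiableWithinAt
    · rw [interior_Ico]
      intro x hx
      rw [(hder x ⟨hx.1.le, hx.2⟩).deriv]
      positivity
  have := hm (a := 0) (b := s) ⟨le_refl _, one_pos⟩ ⟨h0, h1⟩ h0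
  have h00 : ath 0 = 0 := by unfold ath; norm_num
  simp only [h00] at this
  norm_num at this
  linarith
/-- `h(m) ≥ (1-m^2) log 2` -/
theorem hh_ge_quad {m : ℝ} (h : m ∈ Set.Icc (-1 : ℝ) 1) : (1 - m ^ 2) * Real.log 2 ≤ hh m := by
  -- reduce to `m ≥ 0`
  wlog hm0 : 0 ≤ m generalizing m with H
  · have := H (m := -m) ⟨by linarith [h.2], by linarith [h.1]⟩ (by linarith)
    rw [hh_neg] at this
    simpa using this
  set L := Real.log 2 with hL
  have hL0 : (0.69 : ℝ) < L := by have := Real.log_two_gt_d9; linarith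
  set m0 : ℝ := Real.sqrt (1 - 1 / (2 * L)) with hm0d
  have hq : 0 ≤ 1 - 1 / (2 * L) := by
    rw [sub_nonneg, div_le_one (by linarith)]
    linarith
  have hm0sq : m0 ^ 2 = 1 - 1 / (2 * L) := Real.sq_sqrt hq
  have hm0n : 0 ≤ m0 := Real.sqrt_nonneg _
  have hinv : 0 < 1 / (2 * L) := by positivity
  have hm01 : m0 < 1 := by nlinarith
  set f : ℝ → ℝ := fun m => hh m - (1 - m ^ 2) * L with hf
  have hfd : ∀ x ∈ Set.Ico (0 : ℝ) 1, HasDerivAt f (2 * x * L - ath x) x := by
    intro x hx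
    have hx' : x ∈ Set.Ioo (-1 : ℝ) 1 := ⟨by linarith [hx.1], hx.2⟩
    have e1 : HasDerivAt (fun s : ℝ => (1 - s ^ 2) * L) (-(2 * x) * L) x := by
      have := ((hasDerivAt_pow 2 x).const_sub 1).mul_const L
      simpa using this
    apply ((hasDerivAt_hh hx').sub e1).congr_deriv
    ring
  have hfc : Continuous f := by
    apply hh_continuous.sub
    fun_prop
  have hf0 : f 0 = 0 := by simp [hf, hh_zero, hL]
  have hf1 : f 1 = 0 := by simp [hf, hh_one]
  have hmono : MonotoneOn f (Set.Icc 0 m0) := by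
    apply monotoneOn_of_deriv_nonneg (convex_Icc _ _) hfc.continuousOn
    · rw [interior_Icc]
      intro x hx
      exact (hfd x ⟨hx.1.le, by linarith [hx.2]⟩).differentiableAt.differentiableWithinAt
    · rw [interior_Icc]
      intro x hx
      have hx1 : x < 1 := by linarith [hx.2]
      rw [(hfd x ⟨hx.1.le, hx1⟩).deriv]
      have h3 : 0 < 1 - x ^ 2 := by nlinarith [hx.1, hx.2]
      have h4 := ath_le hx.1.le hx1
      have h5 : x ^ 2 ≤ m0 ^ 2 := by nlinarith [hx.1, hx.2]
      have h6 : x / (1 - x ^ 2) ≤ 2 * x * L := by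
        rw [div_le_iff₀ h3]
        have h7 : 1 ≤ 2 * L * (1 - x ^ 2) := by
          have : 1 / (2 * L) ≤ 1 - x ^ 2 := by linarith
          rw [div_le_iff₀ (by linarith)] at this
          linarith
        nlinarith [hx.1]
      linarith
  have hconc : ConcaveOn ℝ (Set.Icc m0 1) f := by
    apply AntitoneOn.concaveOn_of_deriv (convex_Icc _ _) hfc.continuousOn
    · rw [interior_Icc]
      intro x hx
      exact (hfd x ⟨by linarith [hx.1], hx.2⟩).differentiableAt.differentiableWithinAt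
    · rw [interior_Icc]
      have hanti : AntitoneOn (fun x => 2 * x * L - ath x) (Set.Ioo m0 1) := by
        have hd2 : ∀ x ∈ Set.Ioo m0 1, HasDerivAt (fun x => 2 * x * L - ath x)
            (2 * L - 1 / (1 - x ^ 2)) x := by
          intro x hx
          have hx' : x ∈ Set.Ioo (-1 : ℝ) 1 := ⟨by linarith [hx.1], hx.2⟩
          have e1 : HasDerivAt (fun x : ℝ => 2 * x * L) (2 * L) x := by
            have := ((hasDerivAt_id x).const_mul 2).mul_const L
            simpa using this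
          exact e1.sub (hasDerivAt_ath hx')
        apply antitoneOn_of_deriv_nonpos (convex_Ioo _ _)
        · intro x hx
          exact (hd2 x hx).continuousAt.continuousWithinAt
        · rw [interior_Ioo]
          intro x hx
          exact (hd2 x hx).differentiableAt.differentiableWithinAt
        · rw [interior_Ioo]
          intro x hx
          rw [(hd2 x hx).deriv]
          have h3 : 0 < 1 - x ^ 2 := by nlinarith [hx.1, hx.2]
          have h5 : m0 ^ 2 ≤ x ^ 2 := by nlinarith [hx.1, hx.2]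
          rw [sub_nonpos, le_div_iff₀ h3]
          have h7 : 1 - x ^ 2 ≤ 1 / (2 * L) := by linarith
          rw [le_div_iff₀ (by linarith)] at h7
          linarith
      intro x hx y hy hxy
      rw [(hfd x ⟨by linarith [hx.1], hx.2⟩).deriv, (hfd y ⟨by linarith [hy.1], hy.2⟩).deriv]
      exact hanti hx hy hxy
  have hfm0 : 0 ≤ f m0 := by
    have := hmono (a := 0) (b := m0) ⟨le_refl _, hm0n⟩ ⟨hm0n, le_refl _⟩ hm0n
    rwa [hf0] at this
  have hfin : 0 ≤ f m := by
    by_cases hc : m ≤ m0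
    · have := hmono (a := 0) (b := m) ⟨le_refl _, hm0n⟩ ⟨hm0, hc⟩ hm0
      rwa [hf0] at this
    · push Not at hc
      -- m = (1-t) m0 + t 1
      have hden : 0 < 1 - m0 := by linarith
      have hs1 : (1 - m) / (1 - m0) + (m - m0) / (1 - m0) = 1 := by
        rw [← add_div]
        rw [show 1 - m + (m - m0) = 1 - m0 by ring, div_self hden.ne']
      have h1 := hconc.2 (show m0 ∈ Set.Icc m0 1 from ⟨le_refl _, hm01.le⟩)
        (show (1 : ℝ) ∈ Set.Icc m0 1 from ⟨hm01.le, le_refl _⟩)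
        (div_nonneg (by linarith [h.2]) hden.le : 0 ≤ (1 - m) / (1 - m0))
        (div_nonneg (by linarith) hden.le : 0 ≤ (m - m0) / (1 - m0)) hs1
      have h2 : ((1 - m) / (1 - m0)) • m0 + ((m - m0) / (1 - m0)) • (1 : ℝ) = m := by
        simp only [smul_eq_mul]
        field_simp
        ring
      rw [h2, hf1] at h1
      simp only [smul_eq_mul, mul_zero, add_zero] at h1
      have h3 : 0 ≤ (1 - m) / (1 - m0) * f m0 :=
        mul_nonneg (div_nonneg (by linarith [h.2]) hden.le) hfm0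
      linarith
  simp only [hf] at hfin
  linarith
end P322
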