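import Vale.Agent.P322.H2
namespace P322

/-- tangent line form of the log-sum inequality, one term -/
theorem jensen_term {x y X Y : ℝ} (hx : 0 < x) (hy : 0 < y) (hX : 0 < X) (hY : 0 < Y) :
    x * (Real.log X - Real.log Y) + (x - X * y / Y) ≤ x * (Real.log x - Real.log y) := by
  have h1 : Real.log ((X * y) / (Y * x)) ≤ (X * y) / (Y * x) - 1 :=
    Real.log_le_sub_one_of_pos (by positivity)
  rw [Real.log_div (by positivity) (by positivity), Real.log_mul hX.ne' hy.ne',
    Real.log_mul hY.ne' hx.ne'] at h1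
  have h2 := mul_le_mul_of_nonneg_left h1 hx.le
  have h3 : x * (X * y / (Y * x) - 1) = X * y / Y - x := by
    field_simp
  rw [h3] at h2
  nlinarith [h2]

/-- `G(x,y) = (x-y)(log x - log y)` -/
noncomputable def GG (x y : ℝ) : ℝ := (x - y) * (Real.log x - Real.log y)

theorem GG_term {x y X Y : ℝ} (hx : 0 < x) (hy : 0 < y) (hX : 0 < X) (hY : 0 < Y) :
    (x - y) * (Real.log X - Real.log Y) + (x - X * y / Y) + (y - Y * x / X) ≤ GG x y := by
  have h1 := jensen_term hx hy hX hY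
  have h2 := jensen_term hy hx hY hX
  unfold GG
  nlinarith [h1, h2]

theorem GG_jensen {x1 y1 x2 y2 p q : ℝ} (hx1 : 0 < x1) (hy1 : 0 < y1) (hx2 : 0 < x2)
    (hy2 : 0 < y2) (hp : 0 ≤ p) (hq : 0 ≤ q) (hpq : p + q = 1) :
    GG (p * x1 + q * x2) (p * y1 + q * y2) ≤ p * GG x1 y1 + q * GG x2 y2 := by
  have hX : 0 < p * x1 + q * x2 := by
    rcases hp.lt_or_eq with h | h
    · have := mul_pos h hx1
      have := mul_nonneg hq hx2.le
      linarith
    · have : q = 1 := by linarith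
      subst this
      rw [← h]; linarith
  have hY : 0 < p * y1 + q * y2 := by
    rcases hp.lt_or_eq with h | h
    · have := mul_pos h hy1
      have := mul_nonneg hq hy2.le
      linarith
    · have : q = 1 := by linarith
      subst this
      rw [← h]; linarith
  have h1 := mul_le_mul_of_nonneg_left (GG_term hx1 hy1 hX hY) hp
  have h2 := mul_le_mul_of_nonneg_left (GG_term hx2 hy2 hX hY) hq
  refine le_trans (le_of_eq ?_) (add_le_add h1 h2)
  unfold GG
  generalize hA : p * x1 + q * x2 = X at *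
  generalize hB : p * y1 + q * y2 = Y at *
  have e1 : p * (X * y1 / Y) + q * (X * y2 / Y) = X := by
    have : p * (X * y1 / Y) + q * (X * y2 / Y) = X * (p * y1 + q * y2) / Y := by ring
    rw [this, hB]; field_simp
  have e2 : p * (Y * x1 / X) + q * (Y * x2 / X) = Y := by
    have : p * (Y * x1 / X) + q * (Y * x2 / X) = Y * (p * x1 + q * x2) / X := by ring
    rw [this, hA]; field_simp
  have e3 : p * ((x1 - y1) * (Real.log X - Real.log Y) + (x1 - X * y1 / Y) + (y1 - Y * x1 / X)) +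
      q * ((x2 - y2) * (Real.log X - Real.log Y) + (x2 - X * y2 / Y) + (y2 - Y * x2 / X)) =
      ((p * x1 + q * x2) - (p * y1 + q * y2)) * (Real.log X - Real.log Y)
      + (p * x1 + q * x2) + (p * y1 + q * y2) - (p * (X * y1 / Y) + q * (X * y2 / Y))
      - (p * (Y * x1 / X) + q * (Y * x2 / X)) := by ring
  rw [e3, e1, e2, hA, hB]
  ring

theorem jj_eq_GG {a b : ℝ} (ha : a ∈ Set.Ioo (-1 : ℝ) 1) (hb : b ∈ Set.Ioo (-1 : ℝ) 1) :
    jj a b = (GG (1 + a) (1 + b) + GG (1 - a) (1 - b)) / 8 := by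
  have h1 : 0 < 1 + a := by linarith [ha.1]
  have h2 : 0 < 1 - a := by linarith [ha.2]
  have h3 : 0 < 1 + b := by linarith [hb.1]
  have h4 : 0 < 1 - b := by linarith [hb.2]
  unfold jj ath GG
  rw [Real.log_div h1.ne' h2.ne', Real.log_div h3.ne' h4.ne']
  ring

/-- `j` is jointly convex -/
theorem jj_convex : ConvexOn ℝ (Set.Ioo (-1 : ℝ) 1 ×ˢ Set.Ioo (-1 : ℝ) 1)
    (fun p : ℝ × ℝ => jj p.1 p.2) := by
  refine ⟨(convex_Ioo _ _).prod (convex_Ioo _ _), ?_⟩
  rintro ⟨a, b⟩ hab ⟨c, d⟩ hcd p q hp hq hpq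
  have hC := ((convex_Ioo (-1 : ℝ) 1).prod (convex_Ioo (-1 : ℝ) 1)) hab hcd hp hq hpq
  obtain ⟨ha, hb⟩ := Set.mem_prod.1 hab
  obtain ⟨hc, hd⟩ := Set.mem_prod.1 hcd
  obtain ⟨hm1, hm2⟩ := Set.mem_prod.1 hC
  simp only [Prod.smul_mk, Prod.mk_add_mk, smul_eq_mul] at hm1 hm2 ha hb hc hd ⊢
  rw [jj_eq_GG ha hb, jj_eq_GG hc hd, jj_eq_GG hm1 hm2]
  have h1 := GG_jensen (x1 := 1 + a) (y1 := 1 + b) (x2 := 1 + c) (y2 := 1 + d)
    (by linarith [ha.1]) (by linarith [hb.1]) (by linarith [hc.1]) (by linarith [hd.1]) hp hq hpq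
  have h2 := GG_jensen (x1 := 1 - a) (y1 := 1 - b) (x2 := 1 - c) (y2 := 1 - d)
    (by linarith [ha.2]) (by linarith [hb.2]) (by linarith [hc.2]) (by linarith [hd.2]) hp hq hpq
  have e1 : p * (1 + a) + q * (1 + c) = 1 + (p * a + q * c) := by linear_combination hpq
  have e2 : p * (1 + b) + q * (1 + d) = 1 + (p * b + q * d) := by linear_combination hpq
  have e3 : p * (1 - a) + q * (1 - c) = 1 - (p * a + q * c) := by linear_combination hpq
  have e4 : p * (1 - b) + q * (1 - d) = 1 - (p * b + q * d) := by linear_combination hpq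
  rw [e1, e2] at h1
  rw [e3, e4] at h2
  linarith

end P322
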