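import Vale.Agent.P322.Step
import Vale.Agent.P322.Induct
import Vale.Agent.P322.Ode
import Vale.Agent.P322.HDeriv
import Vale.Agent.P322.Noise
import Vale.Agent.P322.MI
namespace P322
theorem star_balanced {n : ℕ} (u : (Fin n → Bool) → ℝ) (hu : InI u) (h0 : av u = 0)
    {s : ℝ} (hs : s ∈ Set.Ico (0 : ℝ) 1) (h : hh s = av (fun x => hh (u x))) :
    s * ath s ≤ II u := by
  have h1 := induct Bf (fun m hm => Bf_base hm) Bf_step n u hu
  rw [h0, ← h, Bf_zero hs] at h1
  exact h1

theorem balanced_av {n : ℕ} (f : (Fin n → Bool) → Bool) (hf : Balanced f) : av (sg f) = 0 := by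
  unfold av
  have h : ∑ x, sg f x = ((Finset.univ.filter fun x => f x = true).card : ℝ)
      - ((Finset.univ.filter fun x => f x = false).card : ℝ) := by
    have e : ∀ x, sg f x = (if f x = true then (1 : ℝ) else 0) - (if f x = false then 1 else 0) := by
      intro x
      unfold sg
      cases f x <;> simp
    simp only [e]
    rw [Finset.sum_sub_distrib, Finset.sum_boole, Finset.sum_boole]
  rw [h, hf, sub_self, zero_div]

theorem av_nonneg' {n : ℕ} {g : (Fin n → Bool) → ℝ} (hg : ∀ x, 0 ≤ g x) : 0 ≤ av g :=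
  div_nonneg (Finset.sum_nonneg fun x _ => hg x) (by positivity)

theorem av_le' {n : ℕ} {g : (Fin n → Bool) → ℝ} {c : ℝ} (hg : ∀ x, g x ≤ c) : av g ≤ c := by
  unfold av
  rw [div_le_iff₀ (by positivity)]
  calc ∑ x, g x ≤ ∑ _x : Fin n → Bool, c := Finset.sum_le_sum fun x _ => hg x
    _ = c * 2 ^ n := by simp; ring

/-- entropy comparison for balanced functions -/
theorem balanced_H {n : ℕ} (f : (Fin n → Bool) → Bool) (hf : Balanced f) {ρ : ℝ}
    (h0 : 0 ≤ ρ) (h1 : ρ ≤ 1) : hh ρ ≤ av (fun y => hh (TT ρ (sg f) y)) := by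
  have hav : av (sg f) = 0 := balanced_av f hf
  -- both values are taken
  have hcard : (Finset.univ.filter fun x => f x = true).card
      + (Finset.univ.filter fun x => f x = false).card = 2 ^ n := by
    have := Finset.card_filter_add_card_filter_not (s := (Finset.univ : Finset (Fin n → Bool)))
      (fun x => f x = true)
    simpa using this
  have hpos : 0 < (Finset.univ.filter fun x => f x = true).card := by
    have h2 : 0 < 2 ^ n := by positivity
    unfold Balanced at hf
    omega
  have hpos' : 0 < (Finset.univ.filter fun x => f x = false).card := by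
    unfold Balanced at hf
    omega
  obtain ⟨a, ha⟩ := Finset.card_pos.1 hpos
  obtain ⟨b, hb⟩ := Finset.card_pos.1 hpos'
  have hta : ∃ x, f x = true := ⟨a, by simpa using ha⟩
  have htb : ∃ x, f x = false := ⟨b, by simpa using hb⟩
  have hmem : ∀ r : ℝ, 0 ≤ r → r < 1 → InI (TT r (sg f)) := fun r hr0 hr1 =>
    TT_mem f hta htb hr0 hr1
  have hinner : ∀ r ∈ Set.Ioo (0 : ℝ) 1, hh r ≤ av (fun y => hh (TT r (sg f) y)) := by
    refine ode_compare (fun r => av (fun y => hh (TT r (sg f) y))) (fun r => II (TT r (sg f)))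
      (fun r hr => hasDerivAt_H (sg f) hr.1 (hmem r hr.1.le hr.2)) (fun r hr => ⟨?_, ?_⟩)
      (fun r hr s hs hs2 => star_balanced (TT r (sg f)) (hmem r hr.1.le hr.2)
        (by rw [av_TT, hav]) hs hs2)
    · have h3 : 0 < ∑ y : Fin n → Bool, hh (TT r (sg f) y) :=
        Finset.sum_pos (fun y _ => hh_pos (hmem r hr.1.le hr.2 y)) Finset.univ_nonempty
      exact div_pos h3 (by positivity)
    · exact av_le' fun y => hh_le
  have hcont : Continuous (fun r => av (fun y => hh (TT r (sg f) y))) := by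
    unfold av
    exact (continuous_finsetSum _ fun y _ =>
      hh_continuous.comp (TT_continuous (sg f) y)).div_const _
  have hclosed : IsClosed {r : ℝ | hh r ≤ av (fun y => hh (TT r (sg f) y))} :=
    isClosed_le hh_continuous hcont
  have hsub : closure (Set.Ioo (0 : ℝ) 1) ⊆ {r : ℝ | hh r ≤ av (fun y => hh (TT r (sg f) y))} :=
    closure_minimal hinner hclosed
  rw [closure_Ioo (by norm_num)] at hsub
  exact hsub ⟨h0, h1⟩

theorem balanced_CK {n : ℕ} (f : (Fin n → Bool) → Bool) (hf : Balanced f)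
    (ε : ℝ) (h0 : 0 ≤ ε) (h1 : ε ≤ 1 / 2) :
    mutualInfo (joint f ε) ≤ 1 - h2 ε := by
  have hlog : 0 < Real.log 2 := Real.log_pos (by norm_num)
  rw [mi_formula f ε h0 (by linarith), h2_eq, balanced_av f hf, hh_zero]
  have h := balanced_H f hf (ρ := 1 - 2 * ε) (by linarith) (by linarith)
  rw [show (1 : ℝ) - hh (1 - 2 * ε) / Real.log 2 = (Real.log 2 - hh (1 - 2 * ε)) / Real.log 2 by
    field_simp]
  exact div_le_div_of_nonneg_right (by linarith) hlog.le
end P322
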