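import Vale.Agent.P322.RLine
import Vale.Agent.P322.L1
namespace P322

/-! `x^2 R''(x) ≤ 2/3` -/

theorem om_exp_bounds {z : ℝ} (h0 : 0 ≤ z) (h1 : z ≤ 1) :
    |Real.exp z - (1 + z + z ^ 2 / 2 + z ^ 3 / 6 + z ^ 4 / 24 + z ^ 5 / 120 + z ^ 6 / 720 +
      z ^ 7 / 5040 + z ^ 8 / 40320)| ≤ z ^ 9 * 0.0000031 ∧
    |Real.exp (-z) - (1 - z + z ^ 2 / 2 - z ^ 3 / 6 + z ^ 4 / 24 - z ^ 5 / 120 + z ^ 6 / 720 -
      z ^ 7 / 5040 + z ^ 8 / 40320)| ≤ z ^ 9 * 0.0000031 := by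
  have hz9 : 0 ≤ z ^ 9 := by positivity
  constructor
  · have h := Real.exp_bound (x := z) (by rw [abs_of_nonneg h0]; exact h1) (n := 9) (by norm_num)
    rw [abs_of_nonneg h0] at h
    simp only [Finset.sum_range_succ, Finset.sum_range_zero, Nat.factorial] at h
    norm_num at h
    refine le_trans (le_of_eq ?_) (h.trans ?_)
    · congr 1
    · refine mul_le_mul_of_nonneg_left ?_ hz9
      norm_num
  · have h := Real.exp_bound (x := -z) (by rw [abs_neg, abs_of_nonneg h0]; exact h1) (n := 9)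
      (by norm_num)
    rw [abs_neg, abs_of_nonneg h0] at h
    simp only [Finset.sum_range_succ, Finset.sum_range_zero, Nat.factorial] at h
    norm_num at h
    refine le_trans (le_of_eq ?_) (h.trans ?_)
    · congr 1
      ring
    · refine mul_le_mul_of_nonneg_left ?_ hz9
      norm_num

theorem om_pow_le {z : ℝ} (h0 : 0 ≤ z) (h1 : z ≤ 1) (a b : ℕ) (h : a ≤ b) : z ^ b ≤ z ^ a :=
  pow_le_pow_of_le_one h0 h1 h

theorem om_cosh_le {z : ℝ} (h0 : 0 ≤ z) (h1 : z ≤ 1) :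
    Real.cosh z ≤ 1 + z ^ 2 / 2 + z ^ 4 / 24 + 0.00142 * z ^ 6 := by
  obtain ⟨ha, hb⟩ := om_exp_bounds h0 h1
  rw [abs_le] at ha hb
  rw [Real.cosh_eq]
  have h86 := om_pow_le h0 h1 6 8 (by norm_num)
  have h96 := om_pow_le h0 h1 6 9 (by norm_num)
  linarith [ha.2, hb.2]

theorem om_cosh_ge {z : ℝ} (h0 : 0 ≤ z) (h1 : z ≤ 1) :
    1 + z ^ 2 / 2 + z ^ 4 / 24 + z ^ 6 / 720 ≤ Real.cosh z := by
  obtain ⟨ha, hb⟩ := om_exp_bounds h0 h1
  rw [abs_le] at ha hb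
  rw [Real.cosh_eq]
  have h98 := om_pow_le h0 h1 8 9 (by norm_num)
  have h8 : 0 ≤ z ^ 8 := by positivity
  linarith [ha.1, hb.1]

theorem om_sinh_le {z : ℝ} (h0 : 0 ≤ z) (h1 : z ≤ 1) :
    Real.sinh z ≤ z + z ^ 3 / 6 + z ^ 5 / 120 + 0.000202 * z ^ 7 := by
  obtain ⟨ha, hb⟩ := om_exp_bounds h0 h1
  rw [abs_le] at ha hb
  rw [Real.sinh_eq]
  have h97 := om_pow_le h0 h1 7 9 (by norm_num)
  linarith [ha.2, hb.1]

theorem om_sinh_ge {z : ℝ} (h0 : 0 ≤ z) (h1 : z ≤ 1) :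
    z + z ^ 3 / 6 + z ^ 5 / 120 + 0.000195 * z ^ 7 ≤ Real.sinh z := by
  obtain ⟨ha, hb⟩ := om_exp_bounds h0 h1
  rw [abs_le] at ha hb
  rw [Real.sinh_eq]
  have h97 := om_pow_le h0 h1 7 9 (by norm_num)
  linarith [ha.1, hb.2]

/-- entropy in the variable `z = artanh s` -/
noncomputable def hz (z : ℝ) : ℝ := Real.log (2 * Real.cosh z) - z * Real.tanh z

theorem hz_eq (z : ℝ) : hh (Real.tanh z) = hz z := L1_hh_tanh z

theorem om_hasDerivAt_hz (z : ℝ) : HasDerivAt hz (-(z / Real.cosh z ^ 2)) z := by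
  have hc : 0 < Real.cosh z := Real.cosh_pos z
  have h1 : HasDerivAt (fun z : ℝ => Real.log (2 * Real.cosh z))
      ((2 * Real.sinh z) / (2 * Real.cosh z)) z :=
    ((Real.hasDerivAt_cosh z).const_mul 2).log (by positivity)
  have h2 : HasDerivAt Real.tanh (1 / Real.cosh z ^ 2) z := by
    have h := (Real.hasDerivAt_sinh z).div (Real.hasDerivAt_cosh z) hc.ne'
    have e : (Real.cosh z * Real.cosh z - Real.sinh z * Real.sinh z) / Real.cosh z ^ 2 =
        1 / Real.cosh z ^ 2 := by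
      congr 1
      nlinarith [Real.cosh_sq z]
    rw [e] at h
    refine h.congr_of_eventuallyEq (Filter.Eventually.of_forall fun x => ?_)
    exact Real.tanh_eq_sinh_div_cosh x
  have h3 := h1.sub ((hasDerivAt_id' z).mul h2)
  have e : (2 * Real.sinh z) / (2 * Real.cosh z) - (1 * Real.tanh z + z * (1 / Real.cosh z ^ 2)) =
      -(z / Real.cosh z ^ 2) := by
    rw [Real.tanh_eq_sinh_div_cosh]
    field_simp
    ring
  rw [e] at h3
  exact h3

/-- polynomial majorant of `h(z) cosh z` on `[0,1]` -/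
theorem om_small {z : ℝ} (h0 : 0 ≤ z) (h1 : z ≤ 1) :
    hz z * Real.cosh z ≤ 0.69315 - 0.1534 * z ^ 2 + 0.0289 * z ^ 4 := by
  set V : ℝ → ℝ := fun z => 0.69315 - 0.1534 * z ^ 2 + 0.0289 * z ^ 4 with hV
  have hVd : ∀ z, HasDerivAt V (-0.3068 * z + 0.1156 * z ^ 3) z := by
    intro z
    have h := ((hasDerivAt_const z (0.69315 : ℝ)).sub ((hasDerivAt_pow 2 z).const_mul 0.1534)).add
      ((hasDerivAt_pow 4 z).const_mul 0.0289)
    refine h.congr_deriv ?_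
    norm_num
    ring
  have hK : ∀ z, HasDerivAt (fun z => V z / Real.cosh z - hz z)
      (((-0.3068 * z + 0.1156 * z ^ 3) * Real.cosh z - V z * Real.sinh z) / Real.cosh z ^ 2
        - (-(z / Real.cosh z ^ 2))) z := fun z =>
    ((hVd z).div (Real.hasDerivAt_cosh z) (Real.cosh_pos z).ne').sub (om_hasDerivAt_hz z)
  have hmono : MonotoneOn (fun z => V z / Real.cosh z - hz z) (Set.Icc 0 1) := by
    refine monotoneOn_of_deriv_nonneg (convex_Icc 0 1) ?_ ?_ ?_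
    · exact fun x _ => (hK x).continuousAt.continuousWithinAt
    · exact fun x _ => (hK x).differentiableAt.differentiableWithinAt
    · intro x hx
      rw [interior_Icc] at hx
      have hx0 : 0 ≤ x := hx.1.le
      have hx1 : x ≤ 1 := hx.2.le
      rw [(hK x).deriv]
      have hc : 0 < Real.cosh x := Real.cosh_pos x
      rw [sub_neg_eq_add, ← add_div]
      refine div_nonneg ?_ (sq_nonneg _)
      have hcu := om_cosh_le hx0 hx1
      have hsu := om_sinh_le hx0 hx1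
      have hVx : 0 ≤ V x := by
        rw [hV]
        simp only
        nlinarith [pow_le_one₀ hx0 hx1 (n := 2), pow_nonneg hx0 4]
      have hV' : -0.3068 * x + 0.1156 * x ^ 3 ≤ 0 := by
        nlinarith [om_pow_le hx0 hx1 1 3 (by norm_num)]
      have e1 := mul_le_mul_of_nonpos_left hcu hV'
      have e2 := mul_le_mul_of_nonneg_left hsu hVx
      have p3 := om_pow_le hx0 hx1 5 7 (by norm_num)
      have p4 := om_pow_le hx0 hx1 5 9 (by norm_num)
      have p5 := om_pow_le hx0 hx1 5 11 (by norm_num)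
      have q1 : 0 ≤ x ^ 3 := by positivity
      have q2 : 0 ≤ x ^ 5 := by positivity
      have q3 : 0 ≤ x ^ 7 := by positivity
      have q4 : 0 ≤ x ^ 9 := by positivity
      rw [hV] at e2 ⊢
      simp only at e2 ⊢
      nlinarith [e1, e2, p3, p4, p5, q1, q2, q3, q4]
  have hk := hmono (Set.left_mem_Icc.2 zero_le_one) (Set.mem_Icc.2 ⟨h0, h1⟩) h0
  simp only [Real.cosh_zero] at hk
  have hz0 : hz 0 = Real.log 2 := by
    unfold hz
    simp
  have hlog : Real.log 2 ≤ 0.69315 := by linarith [Real.log_two_lt_d9]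
  have hV0 : V 0 = 0.69315 := by rw [hV]; norm_num
  rw [hz0, hV0] at hk
  have hc : 0 < Real.cosh z := Real.cosh_pos z
  have h2 : hz z ≤ V z / Real.cosh z := by linarith
  rw [le_div_iff₀ hc] at h2
  exact h2

theorem om_small2 {z : ℝ} (h0 : 0 ≤ z) (h1 : z ≤ 1) :
    2 * z * Real.cosh (2 * z) - Real.sinh (2 * z) ≤
      2 * z ^ 3 * (4 / 3 + 8 / 15 * z ^ 2 + 0.084 * z ^ 4) := by
  have hsu := om_sinh_le h0 h1
  have hsl := om_sinh_ge h0 h1
  have hcl := om_cosh_ge h0 h1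
  have hs0 : 0 ≤ Real.sinh z := Real.sinh_nonneg_iff.2 h0
  have e1 : Real.cosh (2 * z) = 1 + 2 * Real.sinh z ^ 2 := by
    rw [Real.cosh_two_mul, Real.cosh_sq]; ring
  have e2 : Real.sinh (2 * z) = 2 * (Real.sinh z * Real.cosh z) := by
    rw [Real.sinh_two_mul]; ring
  rw [e1, e2]
  have a1 : Real.sinh z ^ 2 ≤ (z + z ^ 3 / 6 + z ^ 5 / 120 + 0.000202 * z ^ 7) ^ 2 :=
    pow_le_pow_left₀ hs0 hsu 2
  have a2 : (z + z ^ 3 / 6 + z ^ 5 / 120 + 0.000195 * z ^ 7) *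
      (1 + z ^ 2 / 2 + z ^ 4 / 24 + z ^ 6 / 720) ≤ Real.sinh z * Real.cosh z :=
    mul_le_mul hsl hcl (by positivity) hs0
  have a3 := mul_le_mul_of_nonneg_left a1 (by positivity : (0 : ℝ) ≤ 4 * z)
  have p1 := om_pow_le h0 h1 7 9 (by norm_num)
  have p2 := om_pow_le h0 h1 7 11 (by norm_num)
  have p3 := om_pow_le h0 h1 7 13 (by norm_num)
  have p4 := om_pow_le h0 h1 7 15 (by norm_num)
  have q7 : 0 ≤ z ^ 7 := by positivity
  have q9 : 0 ≤ z ^ 9 := by positivity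
  have q11 : 0 ≤ z ^ 11 := by positivity
  have q13 : 0 ≤ z ^ 13 := by positivity
  nlinarith [a2, a3, p1, p2, p3, p4, q7, q9, q11, q13]

theorem om_le_small {z : ℝ} (h0 : 0 < z) (h1 : z ≤ 1) :
    hz z ^ 2 * Real.cosh z ^ 2 * (2 * z * Real.cosh (2 * z) - Real.sinh (2 * z)) ≤
      4 / 3 * z ^ 3 := by
  have hpos : 0 < hz z := by
    rw [← hz_eq]; exact hh_pos (L1_tanh_mem z)
  have hc : 0 < Real.cosh z := Real.cosh_pos z
  have hv0 : 0 ≤ hz z * Real.cosh z := (mul_pos hpos hc).le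
  have hv : hz z * Real.cosh z ≤ 0.69315 - 0.1245 * z ^ 2 := by
    have h := om_small h0.le h1
    have := om_pow_le h0.le h1 2 4 (by norm_num)
    linarith
  have hv2 : (hz z * Real.cosh z) ^ 2 ≤ (0.69315 - 0.1245 * z ^ 2) ^ 2 := pow_le_pow_left₀ hv0 hv 2
  have hS := om_small2 h0.le h1
  have hz3 : 0 < z ^ 3 := by positivity
  have hw1 : z ^ 2 ≤ 1 := pow_le_one₀ h0.le h1
  have hw0 : 0 ≤ z ^ 2 := sq_nonneg z
  have hS2 : 2 * z * Real.cosh (2 * z) - Real.sinh (2 * z) ≤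
      2 * z ^ 3 * (4 / 3 + 0.61734 * z ^ 2) := by
    refine hS.trans (mul_le_mul_of_nonneg_left ?_ (by positivity))
    have := om_pow_le h0.le h1 2 4 (by norm_num)
    linarith
  have hp : (0.69315 - 0.1245 * z ^ 2) ^ 2 * (4 / 3 + 0.61734 * z ^ 2) ≤ 2 / 3 := by
    set w := z ^ 2 with hw
    nlinarith [mul_nonneg hw0 (sub_nonneg.2 hw1), sq_nonneg (w - 0.4), mul_nonneg hw0 (sq_nonneg (w - 0.4))]
  calc hz z ^ 2 * Real.cosh z ^ 2 * (2 * z * Real.cosh (2 * z) - Real.sinh (2 * z))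
      = (hz z * Real.cosh z) ^ 2 * (2 * z * Real.cosh (2 * z) - Real.sinh (2 * z)) := by ring
    _ ≤ (hz z * Real.cosh z) ^ 2 * (2 * z ^ 3 * (4 / 3 + 0.61734 * z ^ 2)) :=
        mul_le_mul_of_nonneg_left hS2 (sq_nonneg _)
    _ ≤ (0.69315 - 0.1245 * z ^ 2) ^ 2 * (2 * z ^ 3 * (4 / 3 + 0.61734 * z ^ 2)) :=
        mul_le_mul_of_nonneg_right hv2 (by positivity)
    _ = 2 * z ^ 3 * ((0.69315 - 0.1245 * z ^ 2) ^ 2 * (4 / 3 + 0.61734 * z ^ 2)) := by ring
    _ ≤ 2 * z ^ 3 * (2 / 3) := mul_le_mul_of_nonneg_left hp (by positivity)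
    _ = 4 / 3 * z ^ 3 := by ring

theorem om_poly {z : ℝ} (h1 : 1 ≤ z) :
    (1.1354 + 2 * z) ^ 2 * ((2 * z - 1) + 0.01834 * (2 * z + 1)) ≤ 32 / 3 * z ^ 3 := by
  obtain ⟨y, rfl⟩ : ∃ y, z = 1 + y := ⟨z - 1, by ring⟩
  have hy : 0 ≤ y := by linarith
  have hy3 : 0 ≤ y ^ 3 := by positivity
  nlinarith [sq_nonneg (y - 0.28)]

theorem om_le_large {z : ℝ} (h1 : 1 ≤ z) :
    hz z ^ 2 * Real.cosh z ^ 2 * (2 * z * Real.cosh (2 * z) - Real.sinh (2 * z)) ≤
      4 / 3 * z ^ 3 := by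
  set q : ℝ := Real.exp (-(2 * z)) with hq
  have hq0 : 0 < q := Real.exp_pos _
  have hq1 : q ≤ 0.1354 := by
    have h2 : q ≤ Real.exp (-2) := Real.exp_le_exp.2 (by linarith)
    have h3 : Real.exp (-2) ≤ 0.1354 := by
      have h4 : Real.exp (-2) = (Real.exp 1 ^ 2)⁻¹ := by
        rw [Real.exp_neg, ← Real.exp_nat_mul]
        norm_num
      rw [h4, inv_le_comm₀ (by positivity) (by norm_num)]
      have h5 := Real.exp_one_gt_d9
      nlinarith
    exact h2.trans h3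
  have hez : Real.exp z * Real.exp z * q = 1 := by
    rw [hq, ← Real.exp_add, ← Real.exp_add]
    norm_num
    ring_nf
  have hqn : q = Real.exp (-z) * Real.exp (-z) := by
    rw [hq, ← Real.exp_add]
    congr 1
    ring
  have hzn : Real.exp z * Real.exp (-z) = 1 := by
    rw [← Real.exp_add]; simp
  have hcosh : 2 * Real.cosh z = Real.exp z * (1 + q) := by
    rw [Real.cosh_eq, hqn]
    linear_combination -Real.exp (-z) * hzn
  have hsinh : 2 * Real.sinh z = Real.exp z * (1 - q) := by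
    rw [Real.sinh_eq, hqn]
    linear_combination Real.exp (-z) * hzn
  have hq' : 0 < 1 + q := by linarith
  have hE : 0 < Real.exp z := Real.exp_pos z
  have htanh : Real.tanh z = (1 - q) / (1 + q) := by
    rw [Real.tanh_eq_sinh_div_cosh, div_eq_div_iff (Real.cosh_pos z).ne' hq'.ne']
    have h : (2 * Real.sinh z) * (1 + q) = (1 - q) * (2 * Real.cosh z) := by
      rw [hcosh, hsinh]; ring
    linarith
  have hh1 : hz z * (1 + q) ≤ q * (1 + q + 2 * z) := by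
    unfold hz
    rw [hcosh, Real.log_mul hE.ne' hq'.ne', Real.log_exp, htanh]
    have hl : Real.log (1 + q) ≤ q := by
      have := Real.log_le_sub_one_of_pos hq'
      linarith
    have e : (z + Real.log (1 + q) - z * ((1 - q) / (1 + q))) * (1 + q) =
        Real.log (1 + q) * (1 + q) + 2 * z * q := by
      field_simp
      ring
    rw [e]
    nlinarith [mul_le_mul_of_nonneg_right hl hq'.le]
  have hpos : 0 < hz z := by
    rw [← hz_eq]; exact hh_pos (L1_tanh_mem z)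
  have hsq : (hz z * (1 + q)) ^ 2 ≤ (q * (1 + q + 2 * z)) ^ 2 :=
    pow_le_pow_left₀ (mul_pos hpos hq').le hh1 2
  have hc2 : 4 * q * Real.cosh z ^ 2 = (1 + q) ^ 2 := by
    have : (2 * Real.cosh z) ^ 2 * q = (Real.exp z * Real.exp z * q) * (1 + q) ^ 2 := by
      rw [hcosh]; ring
    rw [hez] at this
    linarith
  have h2z : 2 * q * (2 * z * Real.cosh (2 * z) - Real.sinh (2 * z)) =
      (2 * z - 1) + q ^ 2 * (2 * z + 1) := by
    have hA : Real.exp (2 * z) * q = 1 := by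
      rw [hq, ← Real.exp_add]; simp
    rw [Real.cosh_eq, Real.sinh_eq, ← hq]
    linear_combination (2 * z - 1) * hA
  have hP : 0 ≤ (2 * z - 1) + q ^ 2 * (2 * z + 1) := by nlinarith [sq_nonneg q, mul_nonneg (sq_nonneg q) (by linarith : (0:ℝ) ≤ 2 * z + 1)]
  have hB : (2 * z - 1) + q ^ 2 * (2 * z + 1) ≤ (2 * z - 1) + 0.01834 * (2 * z + 1) := by
    have hq2 : q ^ 2 ≤ 0.01834 := by nlinarith
    have := mul_le_mul_of_nonneg_right hq2 (by linarith : (0 : ℝ) ≤ 2 * z + 1)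
    linarith
  have hC : (1 + q + 2 * z) ^ 2 ≤ (1.1354 + 2 * z) ^ 2 :=
    pow_le_pow_left₀ (by linarith) (by linarith) 2
  set X : ℝ := 2 * z * Real.cosh (2 * z) - Real.sinh (2 * z) with hX
  have hkey : 8 * q ^ 2 * (hz z ^ 2 * Real.cosh z ^ 2 * X) ≤
      8 * q ^ 2 * (4 / 3 * z ^ 3) := by
    calc 8 * q ^ 2 * (hz z ^ 2 * Real.cosh z ^ 2 * X)
        = hz z ^ 2 * (4 * q * Real.cosh z ^ 2) * (2 * q * X) := by ring
      _ = (hz z * (1 + q)) ^ 2 * ((2 * z - 1) + q ^ 2 * (2 * z + 1)) := by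
          rw [hc2, h2z]; ring
      _ ≤ (q * (1 + q + 2 * z)) ^ 2 * ((2 * z - 1) + q ^ 2 * (2 * z + 1)) :=
          mul_le_mul_of_nonneg_right hsq hP
      _ = q ^ 2 * ((1 + q + 2 * z) ^ 2 * ((2 * z - 1) + q ^ 2 * (2 * z + 1))) := by ring
      _ ≤ q ^ 2 * ((1.1354 + 2 * z) ^ 2 * ((2 * z - 1) + 0.01834 * (2 * z + 1))) := by
          refine mul_le_mul_of_nonneg_left ?_ (sq_nonneg q)
          exact mul_le_mul hC hB hP (sq_nonneg _)
      _ ≤ q ^ 2 * (32 / 3 * z ^ 3) := by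
          exact mul_le_mul_of_nonneg_left (om_poly h1) (sq_nonneg q)
      _ = 8 * q ^ 2 * (4 / 3 * z ^ 3) := by ring
  exact le_of_mul_le_mul_left hkey (by positivity)

/-- `x^2 R''(x) ≤ 2/3` in the variable `z` -/
theorem om_le {z : ℝ} (h0 : 0 < z) :
    hz z ^ 2 * Real.cosh z ^ 2 * (2 * z * Real.cosh (2 * z) - Real.sinh (2 * z)) ≤
      4 / 3 * z ^ 3 := by
  rcases le_total z 1 with h | h
  · exact om_le_small h0 h
  · exact om_le_large h

/-- the intercept `E = R - x R'` along the parametrization `x = hh s` -/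
noncomputable def EE (s : ℝ) : ℝ := Rs s + rr s * hh s

theorem om_hasDerivAt_EE {s : ℝ} (hs : s ∈ Set.Ioo (0 : ℝ) 1) :
    HasDerivAt EE (((1 * ((1 - s ^ 2) * ath s) - s * (-(2 * s) * ath s + (1 - s ^ 2) *
      (1 / (1 - s ^ 2)))) / ((1 - s ^ 2) * ath s) ^ 2) * hh s) s := by
  have hs' : s ∈ Set.Ioo (-1 : ℝ) 1 := ⟨by linarith [hs.1], hs.2⟩
  have h := (rline_hasDerivAt_Rs hs').add ((rline_hasDerivAt_rr hs).mul (hasDerivAt_hh hs'))
  refine h.congr_deriv ?_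
  have := rr_mul_ath hs
  linear_combination -this

/-- `x^2 R''(x) ≤ 2/3` in the variable `s`: `hh^2 rr' ≤ (2/3) ath`. -/
theorem om_s {s : ℝ} (hs : s ∈ Set.Ioo (0 : ℝ) 1) :
    ((1 * ((1 - s ^ 2) * ath s) - s * (-(2 * s) * ath s + (1 - s ^ 2) *
      (1 / (1 - s ^ 2)))) / ((1 - s ^ 2) * ath s) ^ 2) * hh s ^ 2 ≤ 2 / 3 * ath s := by
  have hs' : s ∈ Set.Ioo (-1 : ℝ) 1 := ⟨by linarith [hs.1], hs.2⟩
  have hz0 : 0 < ath s := ath_pos hs.1 hs.2
  have h := om_le hz0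
  have e1 : hz (ath s) = hh s := by rw [← hz_eq, L1_tanh_ath hs']
  rw [e1] at h
  generalize hzz : ath s = z at *
  have hsz : s = Real.tanh z := by rw [← hzz, L1_tanh_ath hs']
  have hc : 0 < Real.cosh z := Real.cosh_pos z
  have h1 : 1 - s ^ 2 = 1 / Real.cosh z ^ 2 := by rw [hsz]; exact L1_one_sub_tanh z
  have h1p : 0 < 1 - s ^ 2 := by rw [h1]; positivity
  have hsc : s * Real.cosh z = Real.sinh z := by
    rw [hsz, Real.tanh_eq_sinh_div_cosh]; field_simp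
  have e2 : (1 * ((1 - s ^ 2) * z) - s * (-(2 * s) * z + (1 - s ^ 2) *
      (1 / (1 - s ^ 2)))) / ((1 - s ^ 2) * z) ^ 2 =
      Real.cosh z ^ 2 * (2 * z * Real.cosh (2 * z) - Real.sinh (2 * z)) / (2 * z ^ 2) := by
    rw [mul_one_div_cancel h1p.ne', div_eq_div_iff (by positivity) (by positivity)]
    have e3 : Real.cosh (2 * z) = (1 + s ^ 2) * Real.cosh z ^ 2 := by
      rw [Real.cosh_two_mul, ← hsc]; ring
    have e4 : Real.sinh (2 * z) = 2 * s * Real.cosh z ^ 2 := by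
      rw [Real.sinh_two_mul, ← hsc]; ring
    have e5 : Real.cosh z ^ 2 * (1 - s ^ 2) = 1 := by
      rw [h1]; field_simp
    rw [e3, e4]
    have e6 : ((1 - s ^ 2) * z) ^ 2 * (Real.cosh z ^ 2 * Real.cosh z ^ 2) =
        z ^ 2 * (Real.cosh z ^ 2 * (1 - s ^ 2)) ^ 2 := by ring
    rw [e5] at e6
    linear_combination (-(2 * z * (1 + s ^ 2) - 2 * s)) * e6
  rw [e2, div_mul_eq_mul_div, div_le_iff₀ (by positivity)]
  nlinarith [h]

/-- integrated form: `E(x_2) - E(x_1) ≤ (2/3) log (x_1/x_2)` for `x_2 ≤ x_1`. -/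
theorem EE_sub_le {s t : ℝ} (hs : s ∈ Set.Ioo (0 : ℝ) 1) (ht : t ∈ Set.Ioo (0 : ℝ) 1)
    (hst : s ≤ t) : EE t - EE s ≤ 2 / 3 * (Real.log (hh s) - Real.log (hh t)) := by
  have hsub : Set.Icc s t ⊆ Set.Ioo 0 1 := fun x hx => ⟨hs.1.trans_le hx.1, hx.2.trans_lt ht.2⟩
  have hF : ∀ x ∈ Set.Ioo (0 : ℝ) 1, HasDerivAt (fun x => EE x + 2 / 3 * Real.log (hh x))
      (((1 * ((1 - x ^ 2) * ath x) - x * (-(2 * x) * ath x + (1 - x ^ 2) *
      (1 / (1 - x ^ 2)))) / ((1 - x ^ 2) * ath x) ^ 2) * hh x + 2 / 3 * (-ath x / hh x)) x := by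
    intro x hx
    have hx' : x ∈ Set.Ioo (-1 : ℝ) 1 := ⟨by linarith [hx.1], hx.2⟩
    exact (om_hasDerivAt_EE hx).add (((hasDerivAt_hh hx').log (hh_pos hx').ne').const_mul _)
  have hanti : AntitoneOn (fun x => EE x + 2 / 3 * Real.log (hh x)) (Set.Icc s t) := by
    refine antitoneOn_of_deriv_nonpos (convex_Icc s t) ?_ ?_ ?_
    · exact fun x hx => (hF x (hsub hx)).continuousAt.continuousWithinAt
    · exact fun x hx => (hF x (hsub (interior_subset hx))).differentiableAt.differentiableWithinAt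
    · intro x hx
      have hx0 := hsub (interior_subset hx)
      have hx' : x ∈ Set.Ioo (-1 : ℝ) 1 := ⟨by linarith [hx0.1], hx0.2⟩
      have hp : 0 < hh x := hh_pos hx'
      rw [(hF x hx0).deriv]
      have h1 := om_s hx0
      have h2 : ((1 * ((1 - x ^ 2) * ath x) - x * (-(2 * x) * ath x + (1 - x ^ 2) *
          (1 / (1 - x ^ 2)))) / ((1 - x ^ 2) * ath x) ^ 2) * hh x ≤ 2 / 3 * ath x / hh x := by
        rw [le_div_iff₀ hp]
        linarith
      have h3 : 2 / 3 * (-ath x / hh x) = -(2 / 3 * ath x / hh x) := by ring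
      linarith
  have h := hanti (Set.left_mem_Icc.2 hst) (Set.right_mem_Icc.2 hst) hst
  simp only at h
  linarith

/-- `E` is nondecreasing in `s` (nonincreasing in `x`). -/
theorem EE_mono {s t : ℝ} (hs : s ∈ Set.Ioo (0 : ℝ) 1) (ht : t ∈ Set.Ioo (0 : ℝ) 1)
    (hst : s ≤ t) : EE s ≤ EE t := by
  have h1 := Rs_line hs ht
  have h2 := rr_monotoneOn hs ht hst
  have h3 := hh_pos (u := t) ⟨by linarith [ht.1], ht.2⟩
  unfold EE
  nlinarith [mul_le_mul_of_nonneg_right h2 h3.le]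

end P322
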