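import Vale.Agent.P322.H2
namespace P322

/-- the slope `rr` is nonnegative -/
theorem rr_nonneg {s : ℝ} (hs : s ∈ Set.Ioo (0 : ℝ) 1) : 0 ≤ rr s := by
  have h1 : 0 < 1 - s ^ 2 := by nlinarith [hs.1, hs.2]
  have h2 : 0 < ath s := ath_pos hs.1 hs.2
  have h3 := ath_le hs.1.le hs.2
  rw [le_div_iff₀ h1] at h3
  unfold rr
  rw [sub_nonneg, le_div_iff₀ (mul_pos h1 h2)]
  nlinarith

theorem rline_hasDerivAt_rr {t : ℝ} (ht : t ∈ Set.Ioo (0 : ℝ) 1) :
    HasDerivAt rr ((1 * ((1 - t ^ 2) * ath t) - t * (-(2 * t) * ath t + (1 - t ^ 2) *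
      (1 / (1 - t ^ 2)))) / ((1 - t ^ 2) * ath t) ^ 2) t := by
  have h1 : 0 < 1 - t ^ 2 := by nlinarith [ht.1, ht.2]
  have h2 : 0 < ath t := ath_pos ht.1 ht.2
  have h3 : HasDerivAt ath (1 / (1 - t ^ 2)) t := hasDerivAt_ath ⟨by linarith [ht.1], ht.2⟩
  have h4 : HasDerivAt (fun t : ℝ => 1 - t ^ 2) (-(2 * t)) t := by
    have := (hasDerivAt_pow 2 t).const_sub 1
    simpa using this
  exact ((hasDerivAt_id' t).div (h4.mul h3) (mul_pos h1 h2).ne').sub_const 1

theorem rr_monotoneOn : MonotoneOn rr (Set.Ioo (0 : ℝ) 1) := by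
  refine monotoneOn_of_deriv_nonneg (convex_Ioo 0 1) ?_ ?_ ?_
  · exact fun t ht => (rline_hasDerivAt_rr ht).continuousAt.continuousWithinAt
  · rw [interior_Ioo]
    exact fun t ht => (rline_hasDerivAt_rr ht).differentiableAt.differentiableWithinAt
  · rw [interior_Ioo]
    intro t ht
    rw [(rline_hasDerivAt_rr ht).deriv]
    have h1 : 0 < 1 - t ^ 2 := by nlinarith [ht.1, ht.2]
    have h2 : 0 < ath t := ath_pos ht.1 ht.2
    have h3 := le_ath ht.1.le ht.2
    refine div_nonneg ?_ (sq_nonneg _)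
    rw [mul_one_div_cancel h1.ne']
    have h4 : 0 ≤ t ^ 2 * ath t := mul_nonneg (sq_nonneg t) h2.le
    nlinarith

theorem rline_hasDerivAt_Rs {t : ℝ} (ht : t ∈ Set.Ioo (-1 : ℝ) 1) :
    HasDerivAt Rs (t / (1 - t ^ 2) - ath t) t := by
  have h3 : HasDerivAt ath (1 / (1 - t ^ 2)) t := hasDerivAt_ath ht
  have h5 : HasDerivAt hh (-ath t) t := hasDerivAt_hh ht
  have h := ((hasDerivAt_id' t).mul h3).sub ((h5.const_sub (Real.log 2)).const_mul 2)
  have e : 1 * ath t + t * (1 / (1 - t ^ 2)) - 2 * -(-ath t) = t / (1 - t ^ 2) - ath t := by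
    ring
  rw [e] at h
  exact h

theorem rline_Rs_zero : Rs 0 = 0 := by
  unfold Rs
  rw [hh_zero]
  ring

theorem rr_mul_ath {t : ℝ} (ht : t ∈ Set.Ioo (0 : ℝ) 1) :
    rr t * ath t = t / (1 - t ^ 2) - ath t := by
  have h1 : 0 < 1 - t ^ 2 := by nlinarith [ht.1, ht.2]
  have h2 : 0 < ath t := ath_pos ht.1 ht.2
  unfold rr
  rw [sub_mul, one_mul, div_mul_eq_mul_div, mul_div_mul_right _ _ h2.ne']

/-- supporting line inequality for `R` along `x = h(t)` -/
theorem Rs_line {s t : ℝ} (hs : s ∈ Set.Ioo (0 : ℝ) 1) (ht : t ∈ Set.Ioo (0 : ℝ) 1) :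
    Rs s - rr s * (hh t - hh s) ≤ Rs t := by
  have hF : ∀ x ∈ Set.Ioo (0 : ℝ) 1, HasDerivAt (fun x => Rs x + rr s * hh x)
      (ath x * (rr x - rr s)) x := by
    intro x hx
    have hx' : x ∈ Set.Ioo (-1 : ℝ) 1 := ⟨by linarith [hx.1], hx.2⟩
    have h := (rline_hasDerivAt_Rs hx').add ((hasDerivAt_hh hx').const_mul (rr s))
    have e : x / (1 - x ^ 2) - ath x + rr s * -ath x = ath x * (rr x - rr s) := by
      rw [← rr_mul_ath hx]
      ring
    rw [e] at h
    exact h
  have key : Rs s + rr s * hh s ≤ Rs t + rr s * hh t := by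
    rcases le_total s t with hst | hts
    · have hmono : MonotoneOn (fun x => Rs x + rr s * hh x) (Set.Icc s t) := by
        have hsub : Set.Icc s t ⊆ Set.Ioo 0 1 := fun x hx => ⟨hs.1.trans_le hx.1, hx.2.trans_lt ht.2⟩
        refine monotoneOn_of_deriv_nonneg (convex_Icc s t) ?_ ?_ ?_
        · exact fun x hx => (hF x (hsub hx)).continuousAt.continuousWithinAt
        · exact fun x hx => (hF x (hsub (interior_subset hx))).differentiableAt.differentiableWithinAt
        · intro x hx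
          have hx' := hsub (interior_subset hx)
          rw [(hF x hx').deriv]
          refine mul_nonneg (ath_pos hx'.1 hx'.2).le (sub_nonneg.2 ?_)
          exact rr_monotoneOn hs hx' (interior_subset hx).1
      exact hmono (Set.left_mem_Icc.2 hst) (Set.right_mem_Icc.2 hst) hst
    · have hanti : AntitoneOn (fun x => Rs x + rr s * hh x) (Set.Icc t s) := by
        have hsub : Set.Icc t s ⊆ Set.Ioo 0 1 := fun x hx => ⟨ht.1.trans_le hx.1, hx.2.trans_lt hs.2⟩
        refine antitoneOn_of_deriv_nonpos (convex_Icc t s) ?_ ?_ ?_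
        · exact fun x hx => (hF x (hsub hx)).continuousAt.continuousWithinAt
        · exact fun x hx => (hF x (hsub (interior_subset hx))).differentiableAt.differentiableWithinAt
        · intro x hx
          have hx' := hsub (interior_subset hx)
          rw [(hF x hx').deriv]
          refine mul_nonpos_of_nonneg_of_nonpos (ath_pos hx'.1 hx'.2).le (sub_nonpos.2 ?_)
          exact rr_monotoneOn hx' hs (interior_subset hx).2
      exact hanti (Set.left_mem_Icc.2 hts) (Set.right_mem_Icc.2 hts) hts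
  linarith

/-- the supporting lines are `≤ 0` at `log 2`. -/
theorem Rs_line_log2 {s : ℝ} (hs : s ∈ Set.Ioo (0 : ℝ) 1) :
    Rs s - rr s * (Real.log 2 - hh s) ≤ 0 := by
  have h0 : (0 : ℝ) ∈ Set.Ioo (-1 : ℝ) 1 := by norm_num
  have hc1 : ContinuousAt Rs 0 := (rline_hasDerivAt_Rs h0).continuousAt
  have hc2 : ContinuousAt hh 0 := (hasDerivAt_hh h0).continuousAt
  have hc : ContinuousAt (fun t => Rs t - (Rs s - rr s * (hh t - hh s))) 0 := by
    exact hc1.sub (continuousAt_const.sub (continuousAt_const.mul (hc2.sub continuousAt_const)))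
  have hlim : Filter.Tendsto (fun t => Rs t - (Rs s - rr s * (hh t - hh s)))
      (nhdsWithin 0 (Set.Ioi 0)) (nhds (Rs 0 - (Rs s - rr s * (hh 0 - hh s)))) :=
    hc.tendsto.mono_left nhdsWithin_le_nhds
  have hge : 0 ≤ Rs 0 - (Rs s - rr s * (hh 0 - hh s)) := by
    refine ge_of_tendsto hlim ?_
    filter_upwards [Ioo_mem_nhdsGT (zero_lt_one' ℝ)] with t ht
    linarith [Rs_line hs ht]
  rw [rline_Rs_zero, hh_zero] at hge
  linarith

theorem Rs_nonneg {s : ℝ} (hs : s ∈ Set.Ioo (0 : ℝ) 1) : 0 ≤ Rs s := by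
  have hmono : MonotoneOn Rs (Set.Icc 0 s) := by
    have hsub : Set.Icc 0 s ⊆ Set.Ioo (-1) 1 :=
      fun x hx => ⟨by linarith [hx.1], hx.2.trans_lt hs.2⟩
    refine monotoneOn_of_deriv_nonneg (convex_Icc 0 s) ?_ ?_ ?_
    · exact fun x hx => (rline_hasDerivAt_Rs (hsub hx)).continuousAt.continuousWithinAt
    · exact fun x hx =>
        (rline_hasDerivAt_Rs (hsub (interior_subset hx))).differentiableAt.differentiableWithinAt
    · intro x hx
      rw [(rline_hasDerivAt_Rs (hsub (interior_subset hx))).deriv, sub_nonneg]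
      exact ath_le (interior_subset hx).1 ((interior_subset hx).2.trans_lt hs.2)
  have h := hmono (Set.left_mem_Icc.2 hs.1.le) (Set.right_mem_Icc.2 hs.1.le) hs.1.le
  rw [rline_Rs_zero] at h
  exact h

end P322
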