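import Vale.Agent.P322.RLine
namespace P322
theorem RR_hh {s : ℝ} (hs : s ∈ Set.Ioo (0 : ℝ) 1) : RR (hh s) = Rs s := by
  have hex : ∃ t, 0 < t ∧ t < 1 ∧ hh t = hh s := ⟨s, hs.1, hs.2, rfl⟩
  have hsp := hex.choose_spec
  have heq : hex.choose = s :=
    hh_strictAntiOn.injOn ⟨hsp.1.le, hsp.2.1.le⟩ ⟨hs.1.le, hs.2.le⟩ hsp.2.2
  unfold RR
  rw [dif_pos hex, heq]

theorem RR_zero {x : ℝ} (hx : Real.log 2 ≤ x) : RR x = 0 := by
  unfold RR
  rw [dif_neg]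
  rintro ⟨s, h0, _, h⟩
  have := hh_lt (u := s) h0.ne'
  linarith

theorem RR_nonneg (x : ℝ) : 0 ≤ RR x := by
  unfold RR
  split_ifs with h
  · exact Rs_nonneg ⟨h.choose_spec.1, h.choose_spec.2.1⟩
  · exact le_rfl

theorem exists_hh {x : ℝ} (hx : 0 < x) (hx2 : x < Real.log 2) : ∃ s ∈ Set.Ioo (0 : ℝ) 1, hh s = x := by
  have h1 : x ∈ Set.Icc (hh 1) (hh 0) := by
    rw [hh_one, hh_zero]
    exact ⟨hx.le, hx2.le⟩
  obtain ⟨t, ht, htx⟩ := intermediate_value_Icc' (zero_le_one) hh_continuous.continuousOn h1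
  refine ⟨t, ⟨lt_of_le_of_ne ht.1 ?_, lt_of_le_of_ne ht.2 ?_⟩, htx⟩
  · intro h
    rw [← h, hh_zero] at htx
    linarith
  · intro h
    rw [h, hh_one] at htx
    linarith

theorem RR_line {s x : ℝ} (hs : s ∈ Set.Ioo (0 : ℝ) 1) (hx : 0 < x) :
    Rs s - rr s * (x - hh s) ≤ RR x := by
  by_cases h : x < Real.log 2
  · obtain ⟨t, ht, rfl⟩ := exists_hh hx h
    rw [RR_hh ht]
    exact Rs_line hs ht
  · push Not at h
    rw [RR_zero h]
    have h1 := Rs_line_log2 hs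
    have h2 := mul_le_mul_of_nonneg_left (sub_le_sub_right h (hh s)) (rr_nonneg hs)
    linarith

/-- perspective convexity: `(g₁+g₂)/2 = g` implies `g R(H/g) ≤ (g₁ R(H₁/g₁) + g₂ R(H₂/g₂))/2`. -/
theorem RR_persp {g1 g2 H1 H2 : ℝ} (hg1 : 0 < g1) (hg2 : 0 < g2) (hH1 : 0 < H1) (hH2 : 0 < H2) :
    ((g1 + g2) / 2) * RR (((H1 + H2) / 2) / ((g1 + g2) / 2))
      ≤ (g1 * RR (H1 / g1) + g2 * RR (H2 / g2)) / 2 := by
  have hg : 0 < (g1 + g2) / 2 := by positivity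
  have hH : 0 < (H1 + H2) / 2 := by positivity
  by_cases h : ((H1 + H2) / 2) / ((g1 + g2) / 2) < Real.log 2
  · obtain ⟨s, hs, hx⟩ := exists_hh (div_pos hH hg) h
    rw [← hx, RR_hh hs]
    have hHg : (H1 + H2) / 2 = (g1 + g2) / 2 * hh s := by
      rw [hx]; field_simp
    have h1 := mul_le_mul_of_nonneg_left (RR_line hs (div_pos hH1 hg1)) hg1.le
    have h2 := mul_le_mul_of_nonneg_left (RR_line hs (div_pos hH2 hg2)) hg2.le
    have e1 : g1 * (Rs s - rr s * (H1 / g1 - hh s)) = g1 * Rs s - rr s * (H1 - g1 * hh s) := by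
      field_simp
    have e2 : g2 * (Rs s - rr s * (H2 / g2 - hh s)) = g2 * Rs s - rr s * (H2 - g2 * hh s) := by
      field_simp
    rw [e1] at h1
    rw [e2] at h2
    have e3 : rr s * (H1 - g1 * hh s) + rr s * (H2 - g2 * hh s) = 0 := by
      have : H1 + H2 = (g1 + g2) * hh s := by linarith
      calc rr s * (H1 - g1 * hh s) + rr s * (H2 - g2 * hh s)
          = rr s * (H1 + H2 - (g1 + g2) * hh s) := by ring
        _ = 0 := by rw [this]; ring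
    linarith
  · push Not at h
    rw [RR_zero h, mul_zero]
    have h1 := mul_nonneg hg1.le (RR_nonneg (H1 / g1))
    have h2 := mul_nonneg hg2.le (RR_nonneg (H2 / g2))
    linarith

theorem Bf_base {m : ℝ} (hm : m ∈ Set.Ioo (-1 : ℝ) 1) : Bf m (hh m) ≤ 0 := by
  have hg : 0 < 1 - m ^ 2 := by nlinarith [hm.1, hm.2]
  have h1 := hh_ge_quad (m := m) ⟨hm.1.le, hm.2.le⟩
  have h2 : Real.log 2 ≤ hh m / (1 - m ^ 2) := by
    rw [le_div_iff₀ hg, mul_comm]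
    exact h1
  unfold Bf
  rw [RR_zero h2]
  simp

theorem Bf_zero {s : ℝ} (hs : s ∈ Set.Ico (0 : ℝ) 1) : Bf 0 (hh s) = s * ath s := by
  unfold Bf
  have e : (1 : ℝ) - 0 ^ 2 = 1 := by norm_num
  rw [e, div_one, one_mul, hh_zero]
  rcases hs.1.eq_or_lt with h | h
  · rw [← h, hh_zero, RR_zero le_rfl]
    simp
  · rw [RR_hh ⟨h, hs.2⟩]
    unfold Rs
    ring
end P322
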