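import Vale.Agent.P322.Gen

/-!
Structural reduction of `CProp G` to two inequalities: (Mono) and (Curve).
-/
namespace P322

open Classical in
/-- minus the derivative of `RR` -/
noncomputable def XX (x : ℝ) : ℝ :=
  if h : ∃ s, 0 < s ∧ s < 1 ∧ hh s = x then rr h.choose else 0

theorem XX_hh {s : ℝ} (hs : s ∈ Set.Ioo (0 : ℝ) 1) : XX (hh s) = rr s := by
  have hex : ∃ t, 0 < t ∧ t < 1 ∧ hh t = hh s := ⟨s, hs.1, hs.2, rfl⟩
  have hsp := hex.choose_spec
  have heq : hex.choose = s :=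
    hh_strictAntiOn.injOn ⟨hsp.1.le, hsp.2.1.le⟩ ⟨hs.1.le, hs.2.le⟩ hsp.2.2
  unfold XX
  rw [dif_pos hex, heq]

theorem XX_zero {x : ℝ} (hx : Real.log 2 ≤ x) : XX x = 0 := by
  unfold XX
  rw [dif_neg]
  rintro ⟨s, h0, _, h⟩
  have := hh_lt (u := s) h0.ne'
  linarith

theorem XX_nonneg (x : ℝ) : 0 ≤ XX x := by
  unfold XX
  split_ifs with h
  · exact rr_nonneg ⟨h.choose_spec.1, h.choose_spec.2.1⟩
  · exact le_rfl

theorem RR_supp {x y : ℝ} (hx : 0 < x) (hy : 0 < y) : RR x - XX x * (y - x) ≤ RR y := by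
  by_cases h : x < Real.log 2
  · obtain ⟨s, hs, rfl⟩ := exists_hh hx h
    rw [XX_hh hs, RR_hh hs]
    exact RR_line hs hy
  · push Not at h
    rw [XX_zero h, RR_zero h]
    have := RR_nonneg y
    linarith

theorem XX_anti {x y : ℝ} (hx : 0 < x) (hxy : x ≤ y) : XX y ≤ XX x := by
  rcases hxy.eq_or_lt with h | h
  · rw [h]
  · have h1 := RR_supp hx (hx.trans h)
    have h2 := RR_supp (hx.trans h) hx
    nlinarith

theorem rr_small {s : ℝ} (hs : s ∈ Set.Ioo (0 : ℝ) 1) : rr s ≤ s ^ 2 / (1 - s ^ 2) := by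
  unfold rr
  have h1 : 0 < 1 - s ^ 2 := by nlinarith [hs.1, hs.2]
  have h2 := le_ath hs.1.le hs.2
  have h3 : 0 < ath s := lt_of_lt_of_le hs.1 h2
  have h4 : s / ((1 - s ^ 2) * ath s) ≤ s / ((1 - s ^ 2) * s) :=
    div_le_div_of_nonneg_left hs.1.le (mul_pos h1 hs.1) (mul_le_mul_of_nonneg_left h2 h1.le)
  have h5 : s / ((1 - s ^ 2) * s) - 1 = s ^ 2 / (1 - s ^ 2) := by
    have := hs.1.ne'
    field_simp
    ring
  linarith

theorem rr_continuousAt {s : ℝ} (hs : s ∈ Set.Ioo (0 : ℝ) 1) : ContinuousAt rr s := by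
  have h1 : 0 < 1 - s ^ 2 := by nlinarith [hs.1, hs.2]
  have h3 : 0 < ath s := ath_pos hs.1 hs.2
  have h4 : ContinuousAt ath s := (hasDerivAt_ath ⟨by linarith [hs.1], hs.2⟩).continuousAt
  unfold rr
  exact (continuousAt_id.div ((continuousAt_const.sub (continuousAt_id.pow 2)).mul h4)
    (mul_pos h1 h3).ne').sub continuousAt_const

theorem XX_continuousAt {x : ℝ} (hx : 0 < x) : ContinuousAt XX x := by
  rw [Metric.continuousAt_iff']
  intro ε hε
  rcases lt_trichotomy x (Real.log 2) with h | h | h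
  · obtain ⟨s, hs, rfl⟩ := exists_hh hx h
    have hc := rr_continuousAt hs
    rw [Metric.continuousAt_iff] at hc
    obtain ⟨δ, hδ, hc⟩ := hc ε hε
    -- points on both sides
    obtain ⟨s1, hs1, hs1'⟩ : ∃ s1, max (s - δ) 0 < s1 ∧ s1 < s :=
      exists_between (max_lt (by linarith) hs.1)
    obtain ⟨s2, hs2, hs2'⟩ : ∃ s2, s < s2 ∧ s2 < min (s + δ) 1 :=
      exists_between (lt_min (by linarith) hs.2)
    have hs10 : 0 < s1 := lt_of_le_of_lt (le_max_right _ _) hs1
    have hs1d : s - δ < s1 := lt_of_le_of_lt (le_max_left _ _) hs1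
    have hs21 : s2 < 1 := lt_of_lt_of_le hs2' (min_le_right _ _)
    have hs2d : s2 < s + δ := lt_of_lt_of_le hs2' (min_le_left _ _)
    have hm1 : s1 ∈ Set.Ioo (0 : ℝ) 1 := ⟨hs10, hs1'.trans hs.2⟩
    have hm2 : s2 ∈ Set.Ioo (0 : ℝ) 1 := ⟨hs.1.trans hs2, hs21⟩
    have hlt1 : hh s < hh s1 :=
      hh_strictAntiOn ⟨hs10.le, hm1.2.le⟩ ⟨hs.1.le, hs.2.le⟩ hs1'
    have hlt2 : hh s2 < hh s :=
      hh_strictAntiOn ⟨hs.1.le, hs.2.le⟩ ⟨hm2.1.le, hs21.le⟩ hs2
    have hh2pos : 0 < hh s2 := hh_pos ⟨by linarith [hm2.1], hs21⟩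
    have hd1 := hc (x := s1) (by rw [Real.dist_eq, abs_lt]; constructor <;> linarith)
    have hd2 := hc (x := s2) (by rw [Real.dist_eq, abs_lt]; constructor <;> linarith)
    rw [Real.dist_eq, abs_lt] at hd1 hd2
    filter_upwards [Ioo_mem_nhds hlt2 hlt1] with y hy
    have hy0 : 0 < y := hh2pos.trans hy.1
    have a1 := XX_anti hy0 hy.2.le
    have a2 := XX_anti hh2pos hy.1.le
    rw [XX_hh hm1] at a1
    rw [XX_hh hm2] at a2
    rw [XX_hh hs, Real.dist_eq, abs_lt]
    constructor <;> linarith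
  · -- at `log 2`
    rw [XX_zero h.ge]
    have hex : ∃ s ∈ Set.Ioo (0 : ℝ) 1, s ^ 2 / (1 - s ^ 2) < ε := by
      refine ⟨min (1 / 2) (ε / 2), ⟨by positivity, ?_⟩, ?_⟩
      · exact lt_of_le_of_lt (min_le_left _ _) (by norm_num)
      · have m1 : min (1 / 2) (ε / 2) ≤ 1 / 2 := min_le_left _ _
        have m2 : min (1 / 2) (ε / 2) ≤ ε / 2 := min_le_right _ _
        have m0 : 0 < min (1 / 2) (ε / 2) := by positivity
        generalize min (1 / 2) (ε / 2) = t at *
        have q1 : t ^ 2 ≤ t * (1 / 2) := by nlinarith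
        have q2 : t ^ 2 ≤ 1 / 4 := by linarith
        rw [div_lt_iff₀ (by linarith)]
        have q3 : 0 ≤ ε * (1 / 4 - t ^ 2) := mul_nonneg hε.le (by linarith)
        nlinarith
    obtain ⟨s, hs, hse⟩ := hex
    have hr := rr_small hs
    have hlt : hh s < x := by rw [h]; exact hh_lt hs.1.ne'
    filter_upwards [Ioi_mem_nhds hlt] with y hy
    have hhp : 0 < hh s := hh_pos ⟨by linarith [hs.1], hs.2⟩
    have a1 := XX_anti hhp (le_of_lt hy)
    rw [XX_hh hs] at a1
    have a2 := XX_nonneg y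
    rw [Real.dist_eq, sub_zero, abs_of_nonneg a2]
    linarith
  · filter_upwards [Ioi_mem_nhds h] with y hy
    rw [XX_zero h.le, XX_zero (le_of_lt hy), dist_self]
    exact hε

theorem hasDerivAt_RR {x : ℝ} (hx : 0 < x) : HasDerivAt RR (-(XX x)) x := by
  rw [hasDerivAt_iff_isLittleO, Asymptotics.isLittleO_iff]
  intro c hc
  have hcont := XX_continuousAt hx
  rw [Metric.continuousAt_iff'] at hcont
  filter_upwards [hcont c hc, Ioi_mem_nhds hx] with y hy1 hy0
  rw [Real.dist_eq] at hy1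
  have h1 := RR_supp hx hy0
  have h2 := RR_supp hy0 hx
  rw [smul_eq_mul, Real.norm_eq_abs, Real.norm_eq_abs]
  have e : RR y - RR x - (y - x) * -XX x = RR y - (RR x - XX x * (y - x)) := by ring
  have h3 : 0 ≤ RR y - RR x - (y - x) * -XX x := by rw [e]; linarith
  rw [abs_of_nonneg h3]
  have h4 : RR y - RR x - (y - x) * -XX x ≤ (XX x - XX y) * (y - x) := by
    rw [e]; nlinarith
  calc RR y - RR x - (y - x) * -XX x ≤ (XX x - XX y) * (y - x) := h4
    _ ≤ |(XX x - XX y) * (y - x)| := le_abs_self _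
    _ = |XX y - XX x| * |y - x| := by rw [abs_mul, abs_sub_comm (XX x)]
    _ ≤ c * |y - x| := mul_le_mul_of_nonneg_right hy1.le (abs_nonneg _)

/-- derivative of `H ↦ g R(H/g)` -/
theorem hasDerivAt_persp {g H : ℝ} (hg : 0 < g) (hH : 0 < H) :
    HasDerivAt (fun H => g * RR (H / g)) (-(XX (H / g))) H := by
  have h1 := (hasDerivAt_RR (div_pos hH hg)).comp H ((hasDerivAt_id H).div_const g)
  have h2 := h1.const_mul g
  refine h2.congr_deriv ?_
  field_simp

/-- `H ↦ g R(H/g) - g' R(H/g')` is antitone when `g' ≤ g` -/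
theorem V_anti {g g' H1 H2 : ℝ} (hg' : 0 < g') (hgg : g' ≤ g) (h1 : 0 < H1) (h12 : H1 ≤ H2) :
    g * RR (H2 / g) - g' * RR (H2 / g') ≤ g * RR (H1 / g) - g' * RR (H1 / g') := by
  have hg : 0 < g := hg'.trans_le hgg
  have hder : ∀ H ∈ Set.Ioi (0 : ℝ), HasDerivAt (fun H => g * RR (H / g) - g' * RR (H / g'))
      (-(XX (H / g)) - -(XX (H / g'))) H := fun H hH =>
    (hasDerivAt_persp hg hH).sub (hasDerivAt_persp hg' hH)
  have hanti : AntitoneOn (fun H => g * RR (H / g) - g' * RR (H / g')) (Set.Ioi (0 : ℝ)) := by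
    refine antitoneOn_of_deriv_nonpos (convex_Ioi 0)
      (fun H hH => (hder H hH).continuousAt.continuousWithinAt)
      (fun H hH => (hder H (interior_subset hH)).differentiableAt.differentiableWithinAt) ?_
    intro H hH
    have hH' : 0 < H := interior_subset hH
    rw [(hder H hH').deriv]
    have := XX_anti (div_pos hH' hg) (div_le_div_of_nonneg_left hH'.le hg' hgg)
    linarith
  exact hanti h1 (lt_of_lt_of_le h1 h12) h12

theorem ell_pos {s : ℝ} (hs : s ∈ Set.Ioo (0 : ℝ) 1) : 0 < ell s := by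
  have h1 := hh_eq (s := s) ⟨by linarith [hs.1], hs.2⟩
  have h2 := hh_pos (u := s) ⟨by linarith [hs.1], hs.2⟩
  have h3 := mul_pos hs.1 (ath_pos hs.1 hs.2)
  linarith

/-- comparison along `a ↦ d h(a)/a` -/
theorem J0_mono {g g' d a0 a1 : ℝ} (hg' : 0 < g') (hgg : g' ≤ g) (hd : 0 < d)
    (ha0 : 0 < a0) (h01 : a0 ≤ a1) (ha1 : a1 < 1)
    (hmono : ∀ a, a0 ≤ a → a < 1 →
      XX (d * hh a / a / g) - XX (d * hh a / a / g') ≤ BB a) :
    d * ath a0 - (g * RR (d * hh a0 / a0 / g) - g' * RR (d * hh a0 / a0 / g'))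
      ≤ d * ath a1 - (g * RR (d * hh a1 / a1 / g) - g' * RR (d * hh a1 / a1 / g')) := by
  have hg : 0 < g := hg'.trans_le hgg
  set ψ : ℝ → ℝ := fun a =>
    d * ath a - (g * RR (d * hh a / a / g) - g' * RR (d * hh a / a / g')) with hψ
  have hder : ∀ a ∈ Set.Icc a0 a1, HasDerivAt ψ
      (d * (1 / (1 - a ^ 2)) - ((-(XX (d * hh a / a / g))) * (-(d * ell a) / a ^ 2)
        - (-(XX (d * hh a / a / g'))) * (-(d * ell a) / a ^ 2))) a := by
    intro a ha
    have ha0' : 0 < a := ha0.trans_le ha.1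
    have ha1' : a < 1 := lt_of_le_of_lt ha.2 ha1
    have haI : a ∈ Set.Ioo (-1 : ℝ) 1 := ⟨by linarith, ha1'⟩
    have hHpos : 0 < d * hh a / a := div_pos (mul_pos hd (hh_pos haI)) ha0'
    have hH : HasDerivAt (fun a => d * hh a / a) (-(d * ell a) / a ^ 2) a := by
      have := ((hasDerivAt_hh haI).const_mul d).div (hasDerivAt_id a) ha0'.ne'
      refine this.congr_deriv ?_
      simp only [id]
      rw [hh_eq haI]
      ring
    have h1 := HasDerivAt.comp (h := fun a => d * hh a / a) a (hasDerivAt_persp hg hHpos) hH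
    have h2 := HasDerivAt.comp (h := fun a => d * hh a / a) a (hasDerivAt_persp hg' hHpos) hH
    exact ((hasDerivAt_ath haI).const_mul d).sub (h1.sub h2)
  have hmonoOn : MonotoneOn ψ (Set.Icc a0 a1) := by
    refine monotoneOn_of_deriv_nonneg (convex_Icc a0 a1)
      (fun a ha => (hder a ha).continuousAt.continuousWithinAt)
      (fun a ha => (hder a (interior_subset ha)).differentiableAt.differentiableWithinAt) ?_
    intro a ha
    have ha' := interior_subset ha
    rw [(hder a ha').deriv]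
    have ha0' : 0 < a := ha0.trans_le ha'.1
    have ha1' : a < 1 := lt_of_le_of_lt ha'.2 ha1
    have hm := hmono a ha'.1 ha1'
    have hl := ell_pos (s := a) ⟨ha0', ha1'⟩
    have h1 : 0 < 1 - a ^ 2 := by nlinarith
    have e : d * (1 / (1 - a ^ 2)) - ((-(XX (d * hh a / a / g))) * (-(d * ell a) / a ^ 2)
        - (-(XX (d * hh a / a / g'))) * (-(d * ell a) / a ^ 2))
        = (d * ell a / a ^ 2) * (BB a - (XX (d * hh a / a / g) - XX (d * hh a / a / g'))) := by
      unfold BB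
      field_simp
    rw [e]
    exact mul_nonneg (by positivity) (by linarith)
  exact hmonoOn ⟨le_rfl, h01⟩ ⟨h01, le_rfl⟩ h01

theorem hh_div_anti {a b : ℝ} (ha : 0 < a) (hab : a ≤ b) (hb : b < 1) : hh b / b ≤ hh a / a := by
  have h1 : hh b ≤ hh a := hh_strictAntiOn.antitoneOn ⟨ha.le, (hab.trans hb.le)⟩
    ⟨(ha.trans_le hab).le, hb.le⟩ hab
  have h2 : 0 ≤ hh b := (hh_pos ⟨by linarith, hb⟩).le
  have h3 : 0 < b := ha.trans_le hab
  rw [div_le_div_iff₀ h3 ha]
  nlinarith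

/-- the two inequalities needed for a weight `G` -/
structure GIneq (G : ℝ → ℝ) : Prop where
  even : ∀ m, G (-m) = G m
  bar_pos : ∀ m d : ℝ, 0 ≤ m → 0 < d → m + d < 1 → 0 < Gbar G m d
  bar_le : ∀ m d : ℝ, 0 ≤ m → 0 < d → m + d < 1 → Gbar G m d ≤ G m
  mono : ∀ m d a : ℝ, 0 ≤ m → 0 < d → m + d < 1 → 0 < a → a < 1 →
    (ath (m + d) - ath (m - d)) / 2 ≤ ath a →
    XX (d * hh a / a / G m) - XX (d * hh a / a / Gbar G m d) ≤ BB a
  curve : ∀ m d a : ℝ, 0 ≤ m → 0 < d → m + d < 1 → 0 < a → a < 1 →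
    ath a = (ath (m + d) - ath (m - d)) / 2 →
    2 * (hh m - (hh (m + d) + hh (m - d)) / 2)
      + G m * RR (d * hh a / a / G m) - Gbar G m d * RR (d * hh a / a / Gbar G m d)
      ≤ d * ath a

theorem ath_mono {x y : ℝ} (hx : -1 < x) (hxy : x ≤ y) (hy : y < 1) : ath x ≤ ath y := by
  unfold ath
  have h1 : 0 < 1 - y := by linarith
  have h2 : 0 < 1 - x := by linarith
  have h3 : 0 < 1 + x := by linarith
  have h4 : (1 + x) / (1 - x) ≤ (1 + y) / (1 - y) := by
    rw [div_le_div_iff₀ h2 h1]; nlinarith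
  have := Real.log_le_log (div_pos h3 h2) h4
  linarith

theorem ath_strictMono {x y : ℝ} (hx : -1 < x) (hxy : x < y) (hy : y < 1) : ath x < ath y := by
  unfold ath
  have h1 : 0 < 1 - y := by linarith
  have h2 : 0 < 1 - x := by linarith
  have h3 : 0 < 1 + x := by linarith
  have h4 : (1 + x) / (1 - x) < (1 + y) / (1 - y) := by
    rw [div_lt_div_iff₀ h2 h1]; nlinarith
  have := Real.log_lt_log (div_pos h3 h2) h4
  linarith

theorem exists_ath {e : ℝ} (he : 0 < e) : ∃ a ∈ Set.Ioo (0 : ℝ) 1, ath a = e := by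
  have h1 : 1 < Real.exp (2 * e) := by
    rw [Real.one_lt_exp_iff]; linarith
  refine ⟨(Real.exp (2 * e) - 1) / (Real.exp (2 * e) + 1), ⟨?_, ?_⟩, ?_⟩
  · exact div_pos (by linarith) (by linarith)
  · rw [div_lt_one (by linarith)]; linarith
  · unfold ath
    have h2 : (1 + (Real.exp (2 * e) - 1) / (Real.exp (2 * e) + 1))
        / (1 - (Real.exp (2 * e) - 1) / (Real.exp (2 * e) + 1)) = Real.exp (2 * e) := by
      have h3 : Real.exp (2 * e) + 1 ≠ 0 := by linarith
      field_simp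
      ring
    rw [h2, Real.log_exp]; ring

theorem CProp_of_GIneq {G : ℝ → ℝ} (hG : GIneq G) : CProp G := by
  refine CProp_of_nonneg hG.even ?_
  intro m d H s hm hd hmd hH0 hH hs hsH
  have hma : m + d ∈ Set.Ioo (-1 : ℝ) 1 := ⟨by linarith, hmd⟩
  have hmb : m - d ∈ Set.Ioo (-1 : ℝ) 1 := ⟨by linarith, by linarith⟩
  have hgb := hG.bar_pos m d hm hd hmd
  have hgg := hG.bar_le m d hm hd hmd
  have he : 0 < (ath (m + d) - ath (m - d)) / 2 := by
    have := ath_strictMono hmb.1 (by linarith : m - d < m + d) hmd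
    linarith
  obtain ⟨a, ha, hae⟩ := exists_ath he
  have hcurve := hG.curve m d a hm hd hmd ha.1 ha.2 hae
  have hj : jj (m + d) (m - d) = d * ath a := by
    rw [hae]; unfold jj; ring
  have hHs : H = d * hh s / s := by
    have := hs.1.ne'
    field_simp
    linarith
  have hHpos' : 0 < d * hh a / a :=
    div_pos (mul_pos hd (hh_pos ⟨by linarith [ha.1], ha.2⟩)) ha.1
  rcases le_total s a with h | h
  · -- `H ≥ H*`
    have h1 : d * hh a / a ≤ H := by
      rw [hHs, mul_div_assoc, mul_div_assoc]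
      exact mul_le_mul_of_nonneg_left (hh_div_anti hs.1 h ha.2) hd.le
    have h2 := V_anti hgb hgg hHpos' h1
    refine le_trans ?_ (le_max_left _ _)
    have h3 : 0 ≤ d ^ 2 / (1 - m ^ 2 + d ^ 2) * ((hh (m + d) + hh (m - d)) / 2 - H) := by
      have : 0 < 1 - m ^ 2 + d ^ 2 := by nlinarith
      have h4 : 0 ≤ (hh (m + d) + hh (m - d)) / 2 - H := by linarith
      positivity
    linarith
  · -- `H ≤ H*`
    refine le_trans ?_ (le_max_right _ _)
    have h1 := J0_mono hgb hgg hd ha.1 h hs.2 (fun b hb hb1 =>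
      hG.mono m d b hm hd hmd (ha.1.trans_le hb) hb1 (by
        rw [← hae]; exact ath_mono (by linarith [ha.1]) hb hb1))
    rw [← hHs] at h1
    linarith

end P322
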