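import Vale.Agent.P322.T1Defs
import Vale.Agent.P322.Omega
import Vale.Agent.P322.Reduce

/-! P322: SCALING, the one-step inequality at `m = 0`, `H ≤ h(d)`. -/
namespace P322

open Filter Topology

/-- `R - x R'` -/
noncomputable def EX (x : ℝ) : ℝ := RR x + x * XX x

theorem EX_nonneg {x : ℝ} (hx : 0 < x) : 0 ≤ EX x :=
  add_nonneg (RR_nonneg x) (mul_nonneg hx.le (XX_nonneg x))

theorem EX_zero {x : ℝ} (hx : Real.log 2 ≤ x) : EX x = 0 := by
  unfold EX; rw [RR_zero hx, XX_zero hx]; ring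

theorem EX_hh {s : ℝ} (hs : s ∈ Set.Ioo (0 : ℝ) 1) : EX (hh s) = EE s := by
  unfold EX EE; rw [RR_hh hs, XX_hh hs]; ring

theorem EX_continuousAt {x : ℝ} (hx : 0 < x) : ContinuousAt EX x :=
  (hasDerivAt_RR hx).continuousAt.add (continuousAt_id.mul (XX_continuousAt hx))

/-- integrated form of `x² R'' ≤ 2/3` -/
theorem EX_sub_le {x y : ℝ} (hx : 0 < x) (hxy : x ≤ y) :
    EX x - EX y ≤ 2 / 3 * (Real.log y - Real.log x) := by
  have hlog2 : 0 < Real.log 2 := Real.log_pos one_lt_two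
  have hA : ∀ y, x ≤ y → y < Real.log 2 → EX x - EX y ≤ 2 / 3 * (Real.log y - Real.log x) := by
    intro y hxy hy
    obtain ⟨t, ht, rfl⟩ := exists_hh hx (lt_of_le_of_lt hxy hy)
    obtain ⟨s, hs, rfl⟩ := exists_hh (hx.trans_le hxy) hy
    have hst : s ≤ t := by
      by_contra h
      push Not at h
      have := hh_strictAntiOn ⟨ht.1.le, ht.2.le⟩ ⟨hs.1.le, hs.2.le⟩ h
      linarith
    rw [EX_hh ht, EX_hh hs]
    exact EE_sub_le hs ht hst
  have hlogm : Real.log x ≤ Real.log y := Real.log_le_log hx hxy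
  rcases lt_or_ge y (Real.log 2) with hy | hy
  · exact hA y hxy hy
  · rcases lt_or_ge x (Real.log 2) with hx2 | hx2
    · have hlim : Tendsto (fun y => EX y + 2 / 3 * (Real.log y - Real.log x)) (𝓝[<] Real.log 2)
          (𝓝 (EX (Real.log 2) + 2 / 3 * (Real.log (Real.log 2) - Real.log x))) := by
        have hc : ContinuousAt (fun y => EX y + 2 / 3 * (Real.log y - Real.log x)) (Real.log 2) :=
          (EX_continuousAt hlog2).add
            (((Real.continuousAt_log hlog2.ne').sub continuousAt_const).const_mul _)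
        exact hc.tendsto.mono_left nhdsWithin_le_nhds
      have hev : ∀ᶠ y in 𝓝[<] Real.log 2, EX x ≤ EX y + 2 / 3 * (Real.log y - Real.log x) := by
        have h1 : ∀ᶠ y in 𝓝[<] Real.log 2, y ∈ Set.Ioo x (Real.log 2) :=
          Ioo_mem_nhdsLT hx2
        filter_upwards [h1] with y hy
        have := hA y hy.1.le hy.2
        linarith
      have h2 := ge_of_tendsto hlim hev
      rw [EX_zero le_rfl] at h2
      rw [EX_zero hy]
      have h3 : Real.log (Real.log 2) ≤ Real.log y := Real.log_le_log hlog2 hy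
      linarith
    · rw [EX_zero hx2, EX_zero hy]
      linarith

/-- derivative of the scaled function -/
theorem sc_deriv {d H τ : ℝ} (hH : 0 < H) (hτ : 0 < τ) (hd : 0 < d) (hτd : τ * d < 1) :
    HasDerivAt (fun τ => (2 * (Real.log 2 - hh (τ * d)) + RR (τ * H)
        - (1 - (τ * d) ^ 2) * RR (τ * H / (1 - (τ * d) ^ 2))) / τ)
      ((-Real.log (1 - (τ * d) ^ 2) - EX (τ * H)
        + (1 + (τ * d) ^ 2) * EX (τ * H / (1 - (τ * d) ^ 2))) / τ ^ 2) τ := by
  have hy0 : 0 < τ * d := mul_pos hτ hd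
  have hg : 0 < 1 - (τ * d) ^ 2 := by nlinarith
  have hx : 0 < τ * H := mul_pos hτ hH
  have hyI : τ * d ∈ Set.Ioo (-1 : ℝ) 1 := ⟨by linarith, hτd⟩
  have hA : HasDerivAt (fun τ => hh (τ * d)) (-ath (τ * d) * (1 * d)) τ :=
    HasDerivAt.comp (h₂ := hh) (h := fun τ => τ * d) τ (hasDerivAt_hh hyI)
      ((hasDerivAt_id τ).mul_const d)
  have hB : HasDerivAt (fun τ => RR (τ * H)) (-(XX (τ * H)) * (1 * H)) τ :=
    HasDerivAt.comp (h₂ := RR) (h := fun τ => τ * H) τ (hasDerivAt_RR hx)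
      ((hasDerivAt_id τ).mul_const H)
  have hg' : HasDerivAt (fun τ => 1 - (τ * d) ^ 2) (0 - (2 : ℕ) * (τ * d) ^ (2 - 1) * (1 * d)) τ :=
    (hasDerivAt_const τ (1 : ℝ)).sub (((hasDerivAt_id τ).mul_const d).pow 2)
  have hq : HasDerivAt (fun τ => τ * H / (1 - (τ * d) ^ 2))
      (((1 * H) * (1 - (τ * d) ^ 2) - τ * H * (0 - (2 : ℕ) * (τ * d) ^ (2 - 1) * (1 * d)))
        / (1 - (τ * d) ^ 2) ^ 2) τ :=
    ((hasDerivAt_id τ).mul_const H).div hg' hg.ne'
  have hC := hg'.mul (HasDerivAt.comp (h₂ := RR) (h := fun τ => τ * H / (1 - (τ * d) ^ 2)) τ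
    (hasDerivAt_RR (div_pos hx hg)) hq)
  have hN := ((((hasDerivAt_const τ (Real.log 2)).sub hA).const_mul 2).add hB).sub hC
  have hF := hN.div (hasDerivAt_id τ) hτ.ne'
  refine hF.congr_deriv ?_
  have he := hh_eq hyI
  unfold ell at he
  simp only [Function.comp, id, Pi.add_apply, Pi.sub_apply, Pi.mul_apply]
  unfold EX
  rw [he]
  generalize RR (τ * H / (1 - (τ * d) ^ 2)) = a1
  generalize XX (τ * H / (1 - (τ * d) ^ 2)) = a2
  generalize RR (τ * H) = a3
  generalize XX (τ * H) = a4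
  generalize ath (τ * d) = a5
  generalize Real.log (1 - (τ * d) ^ 2) = a6
  have hg0 := hg.ne'
  field_simp
  ring

theorem scal0 : Scal0Prop := by
  intro d H s hd hd1 hH hHd hs hsH
  have hds : d ≤ s := by
    by_contra h
    push Not at h
    have h1 : hh d < hh s := hh_strictAntiOn ⟨hs.1.le, hs.2.le⟩ ⟨hd.le, hd1.le⟩ h
    have h2 : s * H ≤ s * hh d := mul_le_mul_of_nonneg_left hHd hs.1.le
    have h3 : 0 < hh d := hh_pos ⟨by linarith, hd1⟩
    nlinarith [hs.1]
  let F : ℝ → ℝ := fun τ => (2 * (Real.log 2 - hh (τ * d)) + RR (τ * H)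
        - (1 - (τ * d) ^ 2) * RR (τ * H / (1 - (τ * d) ^ 2))) / τ
  have hder : ∀ τ ∈ Set.Icc 1 (s / d), HasDerivAt F
      ((-Real.log (1 - (τ * d) ^ 2) - EX (τ * H)
        + (1 + (τ * d) ^ 2) * EX (τ * H / (1 - (τ * d) ^ 2))) / τ ^ 2) τ := by
    intro τ hτ
    have h1 : τ * d ≤ s := by
      have := hτ.2
      rwa [le_div_iff₀ hd] at this
    exact sc_deriv hH (by linarith [hτ.1]) hd (by linarith [hs.2])
  have hmono : MonotoneOn F (Set.Icc 1 (s / d)) := by
    refine monotoneOn_of_deriv_nonneg (convex_Icc _ _) ?_ ?_ ?_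
    · exact fun x hx => (hder x hx).continuousAt.continuousWithinAt
    · exact fun x hx => (hder x (interior_subset hx)).differentiableAt.differentiableWithinAt
    · intro τ hτ
      have hτ' := interior_subset hτ
      rw [(hder τ hτ').deriv]
      have hτ0 : 0 < τ := by linarith [hτ'.1]
      have hy1 : τ * d ≤ s := by
        have := hτ'.2
        rwa [le_div_iff₀ hd] at this
      have hy0 : 0 < τ * d := mul_pos hτ0 hd
      have hg : 0 < 1 - (τ * d) ^ 2 := by nlinarith [hs.2]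
      have hg1 : 1 - (τ * d) ^ 2 ≤ 1 := by nlinarith
      have hx : 0 < τ * H := mul_pos hτ0 hH
      have hxx : τ * H ≤ τ * H / (1 - (τ * d) ^ 2) := by
        rw [le_div_iff₀ hg]
        nlinarith
      have h1 := EX_sub_le hx hxx
      rw [Real.log_div hx.ne' hg.ne'] at h1
      have h2 := EX_nonneg (div_pos hx hg)
      have h3 : Real.log (1 - (τ * d) ^ 2) ≤ 0 := Real.log_nonpos hg.le hg1
      apply div_nonneg _ (sq_nonneg _)
      have h4 : 0 ≤ (τ * d) ^ 2 * EX (τ * H / (1 - (τ * d) ^ 2)) := mul_nonneg (sq_nonneg _) h2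
      linarith
  have h1s : 1 ≤ s / d := by rw [le_div_iff₀ hd]; linarith
  have h := hmono (Set.left_mem_Icc.2 h1s) (Set.right_mem_Icc.2 h1s) h1s
  have e1 : F 1 = EF 0 d H := by
    show (2 * (Real.log 2 - hh (1 * d)) + RR (1 * H)
        - (1 - (1 * d) ^ 2) * RR (1 * H / (1 - (1 * d) ^ 2))) / 1 = EF 0 d H
    unfold EF
    rw [zero_add, zero_sub, hh_neg, hh_zero]
    norm_num
  have e2 : F (s / d) = d * ath s := by
    show (2 * (Real.log 2 - hh (s / d * d)) + RR (s / d * H)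
        - (1 - (s / d * d) ^ 2) * RR (s / d * H / (1 - (s / d * d) ^ 2))) / (s / d) = d * ath s
    have e3 : s / d * d = s := div_mul_cancel₀ _ hd.ne'
    have e4 : s / d * H = hh s := by
      rw [div_mul_eq_mul_div, ← hsH]
      field_simp
    have hg : 0 < 1 - s ^ 2 := by nlinarith [hs.1, hs.2]
    rw [e3, e4, RR_hh hs, RR_zero]
    · unfold Rs
      have := hs.1.ne'
      field_simp
      ring
    · rw [le_div_iff₀ hg]
      have := hh_ge_quad (m := s) ⟨by linarith [hs.1], hs.2.le⟩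
      linarith
  rw [e1, e2] at h
  exact h

end P322
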