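import Vale.Agent.P322.CIneq
import Vale.Agent.P322.J0
import Vale.Agent.P322.Jensen2
import Vale.Agent.P322.Bregman
namespace P322

theorem jj_symm (a b : ℝ) : jj a b = jj b a := by
  unfold jj; ring

theorem Bf_step_pos (n : ℕ) (v w : (Fin n → Bool) → ℝ) (hv : InI v) (hw : InI w)
    (hd : av w < av v) :
      Bf ((av v + av w) / 2) ((av (fun x => hh (v x)) + av (fun x => hh (w x))) / 2)
        ≤ (Bf (av v) (av (fun x => hh (v x))) + Bf (av w) (av (fun x => hh (w x)))) / 2
          + av (fun x => jj (v x) (w x)) := by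
  have hmv := av_mem hv
  have hmw := av_mem hw
  have hHv := av_hh_pos v hv
  have hHw := av_hh_pos w hw
  have hJv := jensen_hh v hv
  have hJw := jensen_hh w hw
  have hjj := av_bregman v w hv hw hmv hmw
  obtain ⟨s, hs, hsH⟩ := exists_s (d := (av v - av w) / 2)
    (H := (av (fun x => hh (v x)) + av (fun x => hh (w x))) / 2)
    (by linarith) (by linarith)
  have hJ0 := J0_bound v w hv hw hs rfl rfl hsH
  generalize av (fun x => jj (v x) (w x)) = E at *
  generalize av (fun x => hh (v x)) = H1 at *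
  generalize av (fun x => hh (w x)) = H2 at *
  generalize av v = m1 at *
  generalize av w = m2 at *
  have e1 : (m1 + m2) / 2 + (m1 - m2) / 2 = m1 := by ring
  have e2 : (m1 + m2) / 2 - (m1 - m2) / 2 = m2 := by ring
  have hC := C_ineq (m := (m1 + m2) / 2) (d := (m1 - m2) / 2) (H := (H1 + H2) / 2) (s := s)
    (by linarith)
    (by rcases abs_cases ((m1 + m2) / 2) with h | h <;> rw [h.1] <;> linarith [hmv.2, hmw.1])
    (by linarith) (by rw [e1, e2]; linarith) hs hsH
  rw [e1, e2] at hC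
  have hg1 : 0 < 1 - m1 ^ 2 := by nlinarith [hmv.1, hmv.2]
  have hg2 : 0 < 1 - m2 ^ 2 := by nlinarith [hmw.1, hmw.2]
  have hP := RR_persp hg1 hg2 hHv hHw
  have e3 : (1 - m1 ^ 2 + (1 - m2 ^ 2)) / 2 = 1 - ((m1 + m2) / 2) ^ 2 - ((m1 - m2) / 2) ^ 2 := by
    ring
  rw [e3] at hP
  have hden : 0 < 1 - m1 * m2 := by nlinarith [hmv.1, hmv.2, hmw.1, hmw.2]
  have e4 : 1 - ((m1 + m2) / 2) ^ 2 + ((m1 - m2) / 2) ^ 2 = 1 - m1 * m2 := by ring
  have e5 : (m1 - m2) ^ 2 / (8 * (1 - m1 * m2)) * (hh m1 - H1 + (hh m2 - H2))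
      = ((m1 - m2) / 2) ^ 2 / (1 - m1 * m2) * ((hh m1 + hh m2) / 2 - (H1 + H2) / 2) := by
    field_simp
    ring
  rw [e5] at hjj
  rw [e4] at hC
  have hmax := max_le hjj hJ0
  unfold Bf
  linarith

theorem Bf_step (n : ℕ) (v w : (Fin n → Bool) → ℝ) (hv : InI v) (hw : InI w) :
      Bf ((av v + av w) / 2) ((av (fun x => hh (v x)) + av (fun x => hh (w x))) / 2)
        ≤ (Bf (av v) (av (fun x => hh (v x))) + Bf (av w) (av (fun x => hh (w x)))) / 2
          + av (fun x => jj (v x) (w x)) := by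
  rcases lt_trichotomy (av w) (av v) with h | h | h
  · exact Bf_step_pos n v w hv hw h
  · have hmv := av_mem hv
    have hHv := av_hh_pos v hv
    have hHw := av_hh_pos w hw
    have hjj := jensen_jj v w hv hw
    have hz : jj (av v) (av w) = 0 := by rw [h]; unfold jj; ring
    rw [hz] at hjj
    have hg : 0 < 1 - (av v) ^ 2 := by nlinarith [hmv.1, hmv.2]
    have hP := RR_persp hg hg hHv hHw
    rw [h]
    have e : (av v + av v) / 2 = av v := by ring
    have e' : (1 - av v ^ 2 + (1 - av v ^ 2)) / 2 = 1 - av v ^ 2 := by ring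
    rw [e'] at hP
    rw [e]
    unfold Bf
    linarith
  · have h' := Bf_step_pos n w v hw hv h
    have e1 : av (fun x => jj (w x) (v x)) = av (fun x => jj (v x) (w x)) := by
      congr 1; funext x; exact jj_symm _ _
    rw [e1, add_comm (av w) (av v), add_comm (av (fun x => hh (w x))) (av (fun x => hh (v x)))] at h'
    linarith
end P322
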